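import Vale.Agent.P278B7.Defs2
import Mathlib.Analysis.Calculus.DifferentialForm.Basic

/-!
# P278: real two-forms, Kähler forms, and forms taming the complex structure
-/

open scoped ContDiff Manifold

namespace Vale.Agent.N278T

open Vale.Agent.P278.StmtF Vale.Agent.P278.H837

section
variable (E : Type*) [NormedAddCommGroup E] [NormedSpace ℂ E]
  (X : Type*) [TopologicalSpace X] [ChartedSpace E X]

/-- A real two-form on `X`: a real alternating two-form on each tangent space. -/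
abbrev TwoForm : Type _ := ∀ x : X, TangentSpace 𝓘(ℂ, E) x [⋀^Fin 2]→L[ℝ] ℝ

end

variable {E : Type*} [NormedAddCommGroup E] [NormedSpace ℂ E]
  {X : Type*} [TopologicalSpace X] [ChartedSpace E X]

/-- The form `s` in the coordinates given by the chart `φ`. -/
noncomputable def inChart (s : TwoForm E X) (φ : OpenPartialHomeomorph X E) (p : E) :
    E [⋀^Fin 2]→L[ℝ] ℝ :=
  (s (φ.symm p)).compContinuousLinearMap ((mfderiv 𝓘(ℂ, E) 𝓘(ℂ, E) φ.symm p).restrictScalars ℝ)

/-- `s` is a form of class `C^n` which tames the complex structure `J`: `s (v, J v) > 0`. -/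
structure Tames (n : ℕ∞ω) (s : TwoForm E X) : Prop where
  smooth : ∀ φ ∈ IsManifold.maximalAtlas 𝓘(ℂ, E) ω X, ContDiffOn ℝ n (inChart s φ) φ.target
  pos : ∀ x v, v ≠ 0 → 0 < s x ![v, Complex.I • v]

/-- `s` is a Kähler form: smooth, positive, `J`-invariant and closed. -/
structure IsKahlerForm (s : TwoForm E X) : Prop where
  tames : Tames ∞ s
  inv : ∀ x u v, s x ![Complex.I • u, Complex.I • v] = s x ![u, v]
  closed : ∀ φ ∈ IsManifold.maximalAtlas 𝓘(ℂ, E) ω X, ∀ p ∈ φ.target, extDeriv (inChart s φ) p = 0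

/-- `ds (u, J u, v) = 0` for all tangent vectors `u` in `F` and `v` in `G` at the same point. -/
def DVanishes (s : TwoForm E X) (F G : Dist E X) : Prop :=
  ∀ φ ∈ IsManifold.maximalAtlas 𝓘(ℂ, E) ω X, ∀ p ∈ φ.target, ∀ u v : E,
    mfderiv 𝓘(ℂ, E) 𝓘(ℂ, E) φ.symm p u ∈ F (φ.symm p) →
    mfderiv 𝓘(ℂ, E) 𝓘(ℂ, E) φ.symm p v ∈ G (φ.symm p) →
    extDeriv (inChart s φ) p ![u, Complex.I • u, v] = 0

/-- The biholomorphisms of `X` which preserve `s`, `F` and `G` act cocompactly: every point is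
moved into a fixed compact set by one of them. -/
def Cocompact (s : TwoForm E X) (F G : Dist E X) : Prop :=
  ∃ K : Set X, IsCompact K ∧ ∀ x, ∃ g : Diffeomorph 𝓘(ℂ, E) 𝓘(ℂ, E) X X ω, g x ∈ K ∧
    pull g F = F ∧ pull g G = G ∧ ∀ y u v,
      s (g y) ![mfderiv 𝓘(ℂ, E) 𝓘(ℂ, E) g y u, mfderiv 𝓘(ℂ, E) 𝓘(ℂ, E) g y v] = s y ![u, v]

end Vale.Agent.N278T
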