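import Vale.Agent.N278T.C3
import Vale.Agent.N278T.Defs

/-!
# P278: from a taming form with a cocompact automorphism group to an atlas with uniform boxes
-/

set_option linter.all false

open Set Topology Filter Metric Complex
open scoped ContDiff Manifold ComplexConjugate

namespace Vale.Agent.P278.Full.T

section flat
variable {V : Type*} [NormedAddCommGroup V] [NormedSpace ℂ V] [FiniteDimensional ℂ V]
  {S : V → V →ₗ⋆[ℂ] V →ₗ[ℂ] ℂ} {W : V → V → V → ℝ} {Ω : Set V}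

theorem form_bounds' (hS : FlatKahler S Ω) (hW : FlatForm S W Ω) {K : Set V} (hK : IsCompact K)
    (hKΩ : K ⊆ Ω) :
    ∃ c > 0, ∃ C > 0, ∀ p ∈ K, (∀ v, c * ‖v‖ ^ 2 ≤ (S p v v).re ∧ (S p v v).re ≤ C * ‖v‖ ^ 2) ∧
      ∀ u v, |W p u v| ≤ C * ‖u‖ * ‖v‖ := by
  obtain ⟨c, hc, C, hC, h⟩ := form_bounds hS hK hKΩ
  obtain ⟨D, hD⟩ := hK.exists_bound_of_continuousOn (E := V →L[ℝ] V →L[ℝ] ℝ) (f := hW.clm)
    (hW.contDiffOn_clm.continuousOn.mono hKΩ)
  refine ⟨c, hc, max C D, lt_max_of_lt_left hC, fun p hp => ⟨fun v => ⟨(h p hp v).1, ?_⟩,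
    fun u v => ?_⟩⟩
  · exact (h p hp v).2.trans (mul_le_mul_of_nonneg_right (le_max_left _ _) (by positivity))
  · have h1 := (hW.clm p).le_opNorm₂ u v
    rw [hW.clm_apply, Real.norm_eq_abs] at h1
    refine h1.trans ?_
    have h2 : ‖hW.clm p‖ ≤ max C D := (hD p hp).trans (le_max_right _ _)
    gcongr

end flat

section box
variable {X : Type*} [TopologicalSpace X] {V : Type*} [NormedAddCommGroup V] [NormedSpace ℂ V]
  [FiniteDimensional ℂ V] {𝒬 : Set (OpenPartialHomeomorph X V)}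
  {H : OpenPartialHomeomorph X V → V → V →ₗ⋆[ℂ] V →ₗ[ℂ] ℂ}
  {W : OpenPartialHomeomorph X V → V → V → V → ℝ}

/-- Uniform boxes around the points of a compact set. -/
theorem exists_box_on (cover : ∀ x, ∃ φ ∈ 𝒬, x ∈ φ.source)
    (hH : ∀ φ ∈ 𝒬, FlatKahler (H φ) φ.target) (hW : ∀ φ ∈ 𝒬, FlatForm (H φ) (W φ) φ.target)
    {K : Set X} (hK : IsCompact K) :
    ∃ δ > 0, ∃ c > 0, ∃ C > 0, ∀ x ∈ K, ∃ φ ∈ 𝒬, x ∈ φ.source ∧
      closedBall (φ x) δ ⊆ φ.target ∧ ∀ p ∈ closedBall (φ x) δ, (∀ v,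
        c * ‖v‖ ^ 2 ≤ (H φ p v v).re ∧ (H φ p v v).re ≤ C * ‖v‖ ^ 2) ∧
        ∀ u v, |W φ p u v| ≤ C * ‖u‖ * ‖v‖ := by
  haveI : ProperSpace V := FiniteDimensional.proper ℂ V
  refine hK.induction_on ⟨1, one_pos, 1, one_pos, 1, one_pos, fun x hx => hx.elim⟩ ?_ ?_ ?_
  · rintro s t hst ⟨δ, hδ, c, hc, C, hC, h⟩
    exact ⟨δ, hδ, c, hc, C, hC, fun x hx => h x (hst hx)⟩
  · rintro s t ⟨δ, hδ, c, hc, C, hC, h⟩ ⟨δ', hδ', c', hc', C', hC', h'⟩
    have key : ∀ {δ₀ c₀ C₀ : ℝ} {x : X}, min δ δ' ≤ δ₀ → min c c' ≤ c₀ → C₀ ≤ max C C' →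
        (∃ φ ∈ 𝒬, x ∈ φ.source ∧ closedBall (φ x) δ₀ ⊆ φ.target ∧
          ∀ p ∈ closedBall (φ x) δ₀, (∀ v,
            c₀ * ‖v‖ ^ 2 ≤ (H φ p v v).re ∧ (H φ p v v).re ≤ C₀ * ‖v‖ ^ 2) ∧
            ∀ u v, |W φ p u v| ≤ C₀ * ‖u‖ * ‖v‖) →
        ∃ φ ∈ 𝒬, x ∈ φ.source ∧ closedBall (φ x) (min δ δ') ⊆ φ.target ∧
          ∀ p ∈ closedBall (φ x) (min δ δ'), (∀ v,
            min c c' * ‖v‖ ^ 2 ≤ (H φ p v v).re ∧ (H φ p v v).re ≤ max C C' * ‖v‖ ^ 2) ∧
            ∀ u v, |W φ p u v| ≤ max C C' * ‖u‖ * ‖v‖ := by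
      rintro δ₀ c₀ C₀ x h1 h2 h3 ⟨φ, hφ, k1, k2, k3⟩
      have hs := closedBall_subset_closedBall (x := φ x) h1
      refine ⟨φ, hφ, k1, hs.trans k2, fun p hp => ⟨fun v => ⟨?_, ?_⟩, fun u v => ?_⟩⟩
      · exact (mul_le_mul_of_nonneg_right h2 (by positivity)).trans ((k3 p (hs hp)).1 v).1
      · exact ((k3 p (hs hp)).1 v).2.trans (mul_le_mul_of_nonneg_right h3 (by positivity))
      · refine ((k3 p (hs hp)).2 u v).trans ?_
        gcongr
    refine ⟨min δ δ', lt_min hδ hδ', min c c', lt_min hc hc', max C C', lt_max_of_lt_left hC, ?_⟩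
    rintro x (hx | hx)
    · exact key (min_le_left _ _) (min_le_left _ _) (le_max_left _ _) (h x hx)
    · exact key (min_le_right _ _) (min_le_right _ _) (le_max_right _ _) (h' x hx)
  · intro x _
    obtain ⟨φ, hφ, hx⟩ := cover x
    obtain ⟨r, hr, hrs⟩ := Metric.nhds_basis_closedBall.mem_iff.1
      (φ.open_target.mem_nhds (φ.map_source hx))
    obtain ⟨c, hc, C, hC, h⟩ := form_bounds' (hH φ hφ) (hW φ hφ) (isCompact_closedBall _ _) hrs
    refine ⟨φ.source ∩ φ ⁻¹' ball (φ x) (r / 2), mem_nhdsWithin_of_mem_nhds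
      ((φ.isOpen_inter_preimage isOpen_ball).mem_nhds ⟨hx, mem_ball_self (half_pos hr)⟩),
      r / 2, half_pos hr, c, hc, C, hC, fun y hy => ?_⟩
    have hsub : closedBall (φ y) (r / 2) ⊆ closedBall (φ x) r := by
      intro p hp
      have h1 : dist (φ y) (φ x) < r / 2 := hy.2
      have h2 : dist p (φ y) ≤ r / 2 := hp
      have h3 := dist_triangle p (φ y) (φ x)
      show dist p (φ x) ≤ r
      linarith
    exact ⟨φ, hφ, hy.1, hsub.trans hrs, fun p hp => h p (hsub hp)⟩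

end box

variable {E : Type*} [NormedAddCommGroup E] [NormedSpace ℂ E]
  {X : Type*} [TopologicalSpace X] [ChartedSpace E X]
  {E' : Type*} [NormedAddCommGroup E'] [NormedSpace ℂ E']
  {E'' : Type*} [NormedAddCommGroup E''] [NormedSpace ℂ E'']

/-- A real form in a chart. -/
noncomputable def locW (E : Type*) [NormedAddCommGroup E] [NormedSpace ℂ E] [ChartedSpace E X]
    (w : X → E → E → ℝ) (φ : OpenPartialHomeomorph X E') (p u v : E') : ℝ :=
  w (φ.symm p) (chartD (E := E) φ p u) (chartD (E := E) φ p v)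

lemma locW_trans (w : X → E → E → ℝ) {φ : OpenPartialHomeomorph X E'}
    (hφ : IsHolChart (E := E) φ) {ψ : OpenPartialHomeomorph X E''} (hψ : IsHolChart (E := E) ψ)
    {p : E'} (hp : p ∈ φ.target) (hp' : φ.symm p ∈ ψ.source) (u v : E') :
    locW E w φ p u v = locW E w ψ (ψ (φ.symm p)) (fderiv ℂ (ψ ∘ φ.symm) p u)
      (fderiv ℂ (ψ ∘ φ.symm) p v) := by
  unfold locW
  rw [hφ.chartD_trans hψ hp hp' u, hφ.chartD_trans hψ hp hp' v, ψ.left_inv hp']

/-- A taming form, given as a function. -/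
structure RTame (w : X → E → E → ℝ) (F₁ F₂ : TangentDist E X) : Prop where
  add : ∀ x u v v', w x u (v + v') = w x u v + w x u v'
  smul : ∀ x u v (c : ℝ), w x u ((c : ℂ) • v) = c * w x u v
  alt : ∀ x u v, w x u v = -w x v u
  pos : ∀ x v, v ≠ 0 → 0 < w x v (I • v)
  smooth : ∀ φ ∈ IsManifold.maximalAtlas 𝓘(ℂ, E) ω X, ∀ u v,
    ContDiffOn ℝ 1 (fun p => locW E w φ p u v) φ.target
  closed : ∀ φ ∈ IsManifold.maximalAtlas 𝓘(ℂ, E) ω X, ∀ p ∈ φ.target, ∀ u v,
    u ∈ localDist F₁ φ p → v ∈ localDist F₂ φ p →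
    dForm (locW E w φ) p u (I • u) v = 0 ∧ dForm (locW E w φ) p v (I • v) u = 0
  cocpt : ∃ K : Set X, IsCompact K ∧ ∀ x, ∃ g : Diffeomorph 𝓘(ℂ, E) 𝓘(ℂ, E) X X ω, g x ∈ K ∧
    pullDist g F₁ = F₁ ∧ pullDist g F₂ = F₂ ∧ ∀ y (u v : E),
      w (g y) (mfderiv 𝓘(ℂ, E) 𝓘(ℂ, E) g y u) (mfderiv 𝓘(ℂ, E) 𝓘(ℂ, E) g y v) = w y u v

variable {w : X → E → E → ℝ} {F₁ F₂ : TangentDist E X}

/-- The Hermitian form attached to a real two-form. -/
noncomputable def herm (w : X → E → E → ℝ) (x : X) (u v : E) : ℂ :=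
  ((w x u (I • v) - w x (I • u) v) / 2 : ℝ) + ((w x u v + w x (I • u) (I • v)) / 2 : ℝ) * I

lemma RTame.smul_eq (h : RTame w F₁ F₂) (x : X) (u v : E) (c : ℂ) :
    w x u (c • v) = c.re * w x u v + c.im * w x u (I • v) := by
  have : c • v = (c.re : ℂ) • v + (c.im : ℂ) • (I • v) := by
    rw [smul_smul, ← add_smul, re_add_im]
  rw [this, h.add, h.smul, h.smul]

lemma RTame.lin (h : RTame w F₁ F₂) (x : X) (u : E) : IsLinearMap ℂ (herm w x u) where
  map_add v v' := by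
    unfold herm
    rw [smul_add, h.add, h.add, h.add, h.add]
    push_cast
    ring
  map_smul c v := by
    unfold herm
    rw [smul_smul, h.smul_eq x u v (I * c), h.smul_eq x (I • u) v c, h.smul_eq x u v c,
      h.smul_eq x (I • u) v (I * c)]
    apply Complex.ext <;> simp <;> ring

lemma RTame.symm (h : RTame w F₁ F₂) (x : X) (u v : E) : conj (herm w x u v) = herm w x v u := by
  unfold herm
  rw [h.alt x v (I • u), h.alt x (I • v) u, h.alt x v u, h.alt x (I • v) (I • u)]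
  simp only [map_add, map_mul, conj_ofReal, conj_I]
  push_cast
  ring

/-- The Hermitian metric. -/
noncomputable def RTame.form (h : RTame w F₁ F₂) : TangentForm E X :=
  bundleF (h := herm w) h.lin h.symm

lemma RTame.localForm_eq (h : RTame w F₁ F₂) (φ : OpenPartialHomeomorph X E') (p u v : E') :
    localForm h.form φ p u v =
      ((locW E w φ p u (I • v) - locW E w φ p (I • u) v) / 2 : ℝ) +
        ((locW E w φ p u v + locW E w φ p (I • u) (I • v)) / 2 : ℝ) * I := by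
  unfold locW
  rw [map_smul, map_smul]
  rfl

variable [IsManifold 𝓘(ℂ, E) ω X]

/-- The form in charts with values in an arbitrary model. -/
lemma RTame.flat (h : RTame w F₁ F₂) {φ : OpenPartialHomeomorph X E'}
    (hφ : IsHolChart (E := E) φ) (L : E' ≃L[ℂ] E) :
    FlatKahler (localForm h.form φ) φ.target ∧
    FlatForm (localForm h.form φ) (locW E w φ) φ.target ∧
    ∀ p ∈ φ.target, ∀ u v, u ∈ localDist F₁ φ p → v ∈ localDist F₂ φ p →
      dForm (locW E w φ) p u (I • u) v = 0 ∧ dForm (locW E w φ) p v (I • v) u = 0 := by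
  have hm := chartE_mem hφ L
  have hc := isHolChart_of_mem hm
  have hsymm : ∀ p ∈ φ.target, φ.symm p ∈ (chartE φ L).source := fun p hp => by
    rw [chartE_source]; exact φ.map_target hp
  have hval : ∀ p ∈ φ.target, chartE φ L (φ.symm p) = L p := fun p hp => by
    change L (φ (φ.symm p)) = L p
    rw [φ.right_inv hp]
  have hΩ : ∀ p ∈ φ.target, L p ∈ (chartE φ L).target := fun p hp => by
    rw [← hval p hp]; exact (chartE φ L).map_source (hsymm p hp)
  have hder : ∀ p ∈ φ.target, ∀ u, fderiv ℂ (chartE φ L ∘ φ.symm) p u = L u := fun p hp u => by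
    have h1 : (chartE φ L ∘ φ.symm) =ᶠ[𝓝 p] L := by
      filter_upwards [φ.open_target.mem_nhds hp] with q hq
      exact hval q hq
    rw [h1.fderiv_eq, L.fderiv]; rfl
  have heq : ∀ p ∈ φ.target, ∀ u v, locW E w φ p u v =
      locW E w (chartE φ L) (L p) (L u) (L v) := fun p hp u v => by
    rw [locW_trans w hφ hc hp (hsymm p hp), hder p hp, hder p hp, hval p hp]
  have hsm : ∀ u v, ContDiffOn ℝ 1 (fun p => locW E w φ p u v) φ.target := fun u v =>
    ((h.smooth _ hm (L u) (L v)).comp ((L.contDiff.restrict_scalars ℝ).contDiffOn) hΩ).congr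
      fun p hp => heq p hp u v
  have hre : ∀ p u v, 2 * (localForm h.form φ p u v).re =
      locW E w φ p u (I • v) - locW E w φ p (I • u) v := by
    intro p u v
    rw [h.localForm_eq]
    simp only [add_re, ofReal_re, mul_re, I_re, mul_zero, ofReal_im, I_im, mul_one, sub_self,
      add_zero]
    ring
  refine ⟨⟨φ.open_target, fun p _ u v => h.symm _ _ _, fun p hp u hu => ?_, fun u v => ?_⟩,
    ⟨fun p u v v' => ?_, fun p u v c => ?_, fun p u v => h.alt _ _ _, hsm,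
      fun p _ u v => hre p u v⟩, fun p hp u v hu hv => ?_⟩
  · have h0 : (chartD (E := E) φ p u : E) ≠ 0 := by
      intro h0
      apply hu
      have h1 := hφ.mfderiv_chartD hp u
      rw [h0] at h1
      rw [← h1]
      exact map_zero (mfderiv 𝓘(ℂ, E) 𝓘(ℂ, E') φ (φ.symm p))
    have h1 := h.pos (φ.symm p) _ h0
    have h2 := hre p u u
    have h3 := h.alt (φ.symm p) (chartD (E := E) φ p (I • u)) (chartD (E := E) φ p u)
    unfold locW at h2
    rw [h3, map_smul] at h2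
    have h4 : 0 < w (φ.symm p) (chartD (E := E) φ p u) (I • chartD (E := E) φ p u) := h1
    linarith
  · simp only [h.localForm_eq]
    exact (ofRealCLM.contDiff.comp_contDiffOn (((hsm _ _).sub (hsm _ _)).div_const 2)).add
      ((ofRealCLM.contDiff.comp_contDiffOn (((hsm _ _).add (hsm _ _)).div_const 2)).mul
        contDiffOn_const)
  · unfold locW
    rw [map_add]; exact h.add _ _ _ _
  · unfold locW
    rw [map_smul]; exact h.smul _ _ _ _
  · have h3 := dForm_pullback (W₁ := locW E w φ) (W₂ := locW E w (chartE φ L)) L (p := p)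
      (by filter_upwards [φ.open_target.mem_nhds hp] with q hq using heq q hq) fun u v =>
        ((h.smooth _ hm u v).contDiffAt
          ((chartE φ L).open_target.mem_nhds (hΩ p hp))).differentiableAt (by norm_num)
    rw [h3, h3, map_smul, map_smul]
    rw [localDist_trans F₁ hφ hc hp (hsymm p hp), hder p hp, hval p hp] at hu
    rw [localDist_trans F₂ hφ hc hp (hsymm p hp), hder p hp, hval p hp] at hv
    exact h.closed _ hm _ (hΩ p hp) _ _ hu hv

set_option backward.isDefEq.respectTransparency false in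
/-- Transport of a product chart by an automorphism. -/
lemma exists_transport {A B : Type*} [NormedAddCommGroup A] [NormedSpace ℂ A]
    [NormedAddCommGroup B] [NormedSpace ℂ B] {φ : OpenPartialHomeomorph X (A × B)}
    (hφ : φ ∈ prodCharts F₁ F₂ A B) (g : Diffeomorph 𝓘(ℂ, E) 𝓘(ℂ, E) X X ω)
    (h₁ : pullDist g F₁ = F₁) (h₂ : pullDist g F₂ = F₂) (hw : ∀ y (u v : E),
      w (g y) (mfderiv 𝓘(ℂ, E) 𝓘(ℂ, E) g y u) (mfderiv 𝓘(ℂ, E) 𝓘(ℂ, E) g y v) = w y u v) :
    ∃ ψ ∈ prodCharts F₁ F₂ A B, (∀ x, g x ∈ φ.source → x ∈ ψ.source) ∧ (∀ x, ψ x = φ (g x)) ∧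
      ψ.target = φ.target ∧ ∀ p ∈ φ.target, ∀ u v, locW E w ψ p u v = locW E w φ p u v := by
  set ψ := g.toHomeomorph.toOpenPartialHomeomorph.trans φ with hψ
  have hs : ψ.source = g ⁻¹' φ.source := by
    rw [hψ, OpenPartialHomeomorph.trans_source]
    exact univ_inter _
  have ht : ψ.target = φ.target := by
    rw [hψ, OpenPartialHomeomorph.trans_target]
    exact inter_univ _
  have hgd : ∀ x, MDifferentiableAt 𝓘(ℂ, E) 𝓘(ℂ, E) g x := fun x => g.mdifferentiable (by simp) x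
  have hc : IsHolChart (E := E) φ := ⟨hφ.1, hφ.2.1⟩
  have hc' : IsHolChart (E := E) ψ := by
    constructor
    · rw [hs]
      exact hφ.1.comp g.contMDiff.contMDiffOn fun x hx => hx
    · rw [ht]
      exact g.symm.contMDiff.comp_contMDiffOn hφ.2.1
  refine ⟨ψ, ⟨hc'.toFun, hc'.invFun, fun x hx v => ?_⟩, fun x hx => by rw [hs]; exact hx,
    fun x => rfl, ht, fun p hp u v => ?_⟩
  · rw [hs] at hx
    have k1 : mfderiv 𝓘(ℂ, E) 𝓘(ℂ, A × B) ψ x v = mfderiv 𝓘(ℂ, E) 𝓘(ℂ, A × B) φ (g x)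
        (mfderiv 𝓘(ℂ, E) 𝓘(ℂ, E) g x v) :=
      congrArg (fun L => L v) (mfderiv_comp x (hc.mdiffAt hx) (hgd x))
    rw [k1]
    have k2 := hφ.2.2 (g x) hx (mfderiv 𝓘(ℂ, E) 𝓘(ℂ, E) g x v)
    constructor
    · rw [← k2.1]
      conv_lhs => rw [← h₁]
      exact Iff.rfl
    · rw [← k2.2]
      conv_lhs => rw [← h₂]
      exact Iff.rfl
  · have e : g ∘ ψ.symm = φ.symm := funext fun q => g.apply_symm_apply _
    have k1 : ∀ a, (mfderiv 𝓘(ℂ, E) 𝓘(ℂ, E) g (ψ.symm p) (chartD (E := E) ψ p a) : E) =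
        chartD (E := E) φ p a := by
      intro a
      have k2 := mfderiv_comp p (hgd (ψ.symm p)) (hc'.mdiffAt_symm (ht ▸ hp))
      rw [e] at k2
      exact (congrArg (fun L : (A × B) →L[ℂ] E => L a) k2).symm
    unfold locW
    rw [← hw, k1, k1]
    exact congrArg (fun y => w y _ _) (g.apply_symm_apply _)

variable [FiniteDimensional ℂ E] {A B : Type*} [NormedAddCommGroup A] [NormedSpace ℂ A]
  [NormedAddCommGroup B] [NormedSpace ℂ B] [FiniteDimensional ℂ A] [FiniteDimensional ℂ B]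

/-- The product charts of a pair of complementary integrable subbundles, with a taming form. -/
theorem kAtlas_prodCharts [PreconnectedSpace X] (h : RTame w F₁ F₂)
    (h₁ : IsHolSubbundle F₁) (h₂ : IsHolSubbundle F₂) (i₁ : IsIntegrable F₁)
    (i₂ : IsIntegrable F₂) (hc : ∀ x, IsCompl (F₁ x) (F₂ x)) (x₀ : X)
    (hA : Module.finrank ℂ (F₁ x₀) = Module.finrank ℂ A)
    (hB : Module.finrank ℂ (F₂ x₀) = Module.finrank ℂ B) :
    KAtlas (prodCharts F₁ F₂ A B) (fun φ => localForm h.form φ) := by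
  haveI : CompleteSpace E := FiniteDimensional.complete ℂ E
  haveI : CompleteSpace A := FiniteDimensional.complete ℂ A
  haveI : CompleteSpace B := FiniteDimensional.complete ℂ B
  have hPA := exists_prodAtlas x₀ h₁ h₂ i₁ i₂ hc hA hB
  have hdim : Module.finrank ℂ (A × B) = Module.finrank ℂ E := by
    rw [Module.finrank_prod, ← hA, ← hB]
    haveI : FiniteDimensional ℂ (TangentSpace 𝓘(ℂ, E) x₀) :=
      inferInstanceAs (FiniteDimensional ℂ E)
    exact Submodule.finrank_add_eq_of_isCompl (hc x₀)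
  have hchart : ∀ φ ∈ prodCharts F₁ F₂ A B, IsHolChart (E := E) φ := fun φ hφ => ⟨hφ.1, hφ.2.1⟩
  have hfl := fun φ (hφ : φ ∈ prodCharts F₁ F₂ A B) =>
    h.flat (hchart φ hφ) (ContinuousLinearEquiv.ofFinrankEq hdim)
  refine { cover := hPA.cover, ana := ?_, trans := hPA.trans, trans' := hPA.trans',
           kahler := fun φ hφ => (hfl φ hφ).1, compat := ?_,
           tame := ⟨fun φ => locW E w φ, fun φ hφ => (hfl φ hφ).2.1, ?_, ?_, ?_⟩ }
  · intro φ hφ ψ hψ x hx hx'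
    have h1 : ContMDiffAt 𝓘(ℂ, A × B) 𝓘(ℂ, E) ω φ.symm (φ x) :=
      (hφ.2.1).contMDiffAt (φ.open_target.mem_nhds (φ.map_source hx))
    have h2 : ContMDiffAt 𝓘(ℂ, E) 𝓘(ℂ, A × B) ω ψ (φ.symm (φ x)) := by
      rw [φ.left_inv hx]
      exact (hψ.1).contMDiffAt (ψ.open_source.mem_nhds hx')
    have h3 : ContMDiffAt 𝓘(ℂ, A × B) 𝓘(ℂ, A × B) ω (fun p => ψ (φ.symm p)) (φ x) :=
      h2.comp (φ x) h1
    exact h3.contDiffAt.analyticAt
  · intro φ hφ ψ hψ x hx hx' u v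
    have h1 := localForm_trans h.form (hchart φ hφ) (hchart ψ hψ) (φ.map_source hx)
      (by rw [φ.left_inv hx]; exact hx') u v
    rw [φ.left_inv hx] at h1
    exact h1
  · intro φ hφ ψ hψ x hx hx' u v
    have h1 := locW_trans w (hchart φ hφ) (hchart ψ hψ) (φ.map_source hx)
      (by rw [φ.left_inv hx]; exact hx') u v
    rw [φ.left_inv hx] at h1
    exact h1
  · intro φ hφ p hp u v hu hv
    refine (hfl φ hφ).2.2 p hp u v ?_ ?_
    · refine (hφ.2.2 _ (φ.map_target hp) _).1.2 ?_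
      exact (congrArg Prod.snd ((hchart φ hφ).mfderiv_chartD hp u)).trans hu
    · refine (hφ.2.2 _ (φ.map_target hp) _).2.2 ?_
      exact (congrArg Prod.fst ((hchart φ hφ).mfderiv_chartD hp v)).trans hv
  · obtain ⟨K, hK, hg⟩ := h.cocpt
    obtain ⟨δ, hδ, c, hc, C, hC, hb⟩ := exists_box_on (H := fun φ => localForm h.form φ)
      (W := fun φ => locW E w φ) hPA.cover (fun φ hφ => (hfl φ hφ).1)
      (fun φ hφ => (hfl φ hφ).2.1) hK
    refine ⟨δ, hδ, c, hc, C, hC, fun x => ?_⟩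
    obtain ⟨g, k1, k2, k3, k4⟩ := hg x
    obtain ⟨φ, hφ, l1, l2, l3⟩ := hb _ k1
    obtain ⟨ψ, hψ, m1, m2, m3, m4⟩ := exists_transport hφ g k2 k3 k4
    refine ⟨ψ, hψ, m1 x l1, ?_, ?_⟩
    · rw [m2, m3]; exact l2
    · rw [m2]
      intro p hp
      refine ⟨fun v => ?_, fun u v => ?_⟩
      · rw [(hfl ψ hψ).2.1.self_eq (m3 ▸ l2 hp), m4 p (l2 hp), ← (hfl φ hφ).2.1.self_eq (l2 hp)]
        exact (l3 p hp).1 v
      · rw [m4 p (l2 hp)]
        exact (l3 p hp).2 u v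

end Vale.Agent.P278.Full.T
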