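import Vale.Agent.P278.Bdl.B3

set_option linter.all false

attribute [local instance] AFastaeda18x5a.a0 AFastaeda18x5a.a1 AFastaeda18x5a.a2 AFastaeda18x5a.a3
  AFastaeda18x5a.a4 AFastaeda18x5a.a5 AFastaeda18x5a.a6 AFastaeda18x5a.a7 AFastaeda18x5a.a8
  AFastaeda18x5a.a9 AFastaeda18x5a.a10 AFastaeda18x5a.a11 AFastaeda18x5a.a12 AFastaeda18x5a.a13
  AFastaeda18x5a.a14 AFastaeda18x5a.a15 AFastaeda18x5a.a16 AFastaeda18x5a.a17 AFastaeda18x5a.a18
  AFastaeda18x5a.a19 AFastaeda18x5a.a20 AFastaeda18x5a.a21 AFastaeda18x5a.a22 AFastaeda18x5a.a23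
  AFastaeda18x5a.a24 AFastaeda18x5a.a25 AFastaeda18x5a.a26 AFastaeda18x5a.a27 AFastaeda18x5a.a28
  AFastaeda18x5a.a29 AFastaeda18x5a.a30 AFastaeda18x5a.a31 AFastaeda18x5a.a32 AFastaeda18x5a.a33
  AFastaeda18x5a.a34 AFastaeda18x5a.a35 AFastaeda18x5a.a36 AFastaeda18x5a.a37 AFastaeda18x5a.a38
  AFastaeda18x5a.a39 AFastaeda18x5a.a40 AFastaeda18x5a.a41 AFastaeda18x5a.a42 AFastaeda18x5a.a43
  AFastaeda18x5a.a44 AFastaeda18x5a.a45 AFastaeda18x5a.a46 AFastaeda18x5a.a47 AFastaeda18x5a.a48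
  AFastaeda18x5a.a49 AFastaeda18x5a.a50 AFastaeda18x5a.a51 AFastaeda18x5a.a52 AFastaeda18x5a.a53
  AFastaeda18x5a.a54 AFastaeda18x5a.a55 AFastaeda18x5a.a56 AFastaeda18x5a.a57 AFastaeda18x5a.a58
  AFastaeda18x5a.a59 AFastaeda18x5a.a60 AFastaeda18x5a.a61 AFastaeda18x5a.a62 AFastaeda18x5a.a63
  AFastaeda18x5a.a64 AFastaeda18x5a.a65 AFastaeda18x5a.a66 AFastaeda18x5a.a67 AFastaeda18x5a.a68
  AFastaeda18x5a.a69 AFastaeda18x5a.a70 AFastaeda18x5a.a71 AFastaeda18x5a.a72 AFastaeda18x5a.a73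
  AFastaeda18x5a.a74 AFastaeda18x5a.a75 AFastaeda18x5a.a76
attribute [local instance] AFastaeda18x5b.a0 AFastaeda18x5b.a1 AFastaeda18x5b.a2 AFastaeda18x5b.a3
  AFastaeda18x5b.a4 AFastaeda18x5b.a5 AFastaeda18x5b.a6 AFastaeda18x5b.a7 AFastaeda18x5b.a8
  AFastaeda18x5b.a9 AFastaeda18x5b.a10 AFastaeda18x5b.a11 AFastaeda18x5b.a12 AFastaeda18x5b.a13
  AFastaeda18x5b.a14 AFastaeda18x5b.a15 AFastaeda18x5b.a16 AFastaeda18x5b.a17 AFastaeda18x5b.a18
  AFastaeda18x5b.a19 AFastaeda18x5b.a20 AFastaeda18x5b.a21 AFastaeda18x5b.a22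

section

section

open Topology Set Filter Complex
open scoped ContDiff Matrix ComplexConjugate

namespace Vale.Agent.P278.Full.T

set_option linter.unusedSectionVars false

variable {E : Type*} [NormedAddCommGroup E] [NormedSpace ℂ E]
variable {ι κ : Type*} [Fintype ι] [DecidableEq ι] [Fintype κ] [DecidableEq κ]

/-- A Hermitian metric on an open subset of a complex vector space. -/
structure FlatKahler (H : E → E →ₗ⋆[ℂ] E →ₗ[ℂ] ℂ) (Ω : Set E) : Prop where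
  isOpen : IsOpen Ω
  symm : ∀ p ∈ Ω, ∀ u v, conj (H p u v) = H p v u
  pos : ∀ p ∈ Ω, ∀ u, u ≠ 0 → 0 < (H p u u).re
  smooth : ∀ u v, ContDiffOn ℝ 1 (fun p => H p u v) Ω

/-- A real two-form on an open subset of a complex vector space, whose invariant part is the
imaginary part of `H`. -/
structure FlatForm (H : E → E →ₗ⋆[ℂ] E →ₗ[ℂ] ℂ) (W : E → E → E → ℝ) (Ω : Set E) : Prop where
  add : ∀ p u v w, W p u (v + w) = W p u v + W p u w
  smul : ∀ p u v (c : ℝ), W p u ((c : ℂ) • v) = c * W p u v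
  alt : ∀ p u v, W p u v = -W p v u
  smooth : ∀ u v, ContDiffOn ℝ 1 (fun p => W p u v) Ω
  re_eq : ∀ p ∈ Ω, ∀ u v, 2 * (H p u v).re = W p u (I • v) - W p (I • u) v

/-- The exterior derivative of a two-form. -/
noncomputable def dForm (W : E → E → E → ℝ) (p u v w : E) : ℝ :=
  fderiv ℝ (fun q => W q v w) p u + fderiv ℝ (fun q => W q w u) p v +
    fderiv ℝ (fun q => W q u v) p w

variable {H : E → E →ₗ⋆[ℂ] E →ₗ[ℂ] ℂ} {Ω : Set E}

lemma FlatKahler.contDiffAt (hK : FlatKahler H Ω) {p : E} (hp : p ∈ Ω) (u v : E) :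
    ContDiffAt ℝ 1 (fun q => H q u v) p :=
  (hK.smooth u v).contDiffAt (hK.isOpen.mem_nhds hp)

end Vale.Agent.P278.Full.T
end
end

section

section

open Set Topology Filter Metric MeasureTheory
open scoped ContDiff Manifold ComplexConjugate ENNReal

set_option linter.all false

namespace Vale.Agent.P278.Full.T

variable {X : Type*} [TopologicalSpace X] {A B : Type*} [NormedAddCommGroup A] [NormedSpace ℂ A]
  [NormedAddCommGroup B] [NormedSpace ℂ B]

/-- A taming form with vanishing mixed derivatives, in the charts of an atlas, with uniform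
boxes. -/
structure WAtlas (𝒬 : Set (OpenPartialHomeomorph X (A × B)))
    (H : OpenPartialHomeomorph X (A × B) → A × B → (A × B) →ₗ⋆[ℂ] (A × B) →ₗ[ℂ] ℂ)
    (W : OpenPartialHomeomorph X (A × B) → A × B → A × B → A × B → ℝ) : Prop where
  form : ∀ φ ∈ 𝒬, FlatForm (H φ) (W φ) φ.target
  compat : ∀ φ ∈ 𝒬, ∀ ψ ∈ 𝒬, ∀ x ∈ φ.source, x ∈ ψ.source → ∀ u v : A × B,
    W φ (φ x) u v = W ψ (ψ x) (fderiv ℂ (fun p => ψ (φ.symm p)) (φ x) u)
      (fderiv ℂ (fun p => ψ (φ.symm p)) (φ x) v)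
  closed : ∀ φ ∈ 𝒬, ∀ p ∈ φ.target, ∀ u v : A × B, u.2 = 0 → v.1 = 0 →
    dForm (W φ) p u (Complex.I • u) v = 0 ∧ dForm (W φ) p v (Complex.I • v) u = 0
  box : ∃ δ > 0, ∃ c > 0, ∃ C > 0, ∀ x : X, ∃ φ ∈ 𝒬, x ∈ φ.source ∧
      closedBall (φ x) δ ⊆ φ.target ∧ ∀ p ∈ closedBall (φ x) δ, (∀ v,
        c * ‖v‖ ^ 2 ≤ (H φ p v v).re ∧ (H φ p v v).re ≤ C * ‖v‖ ^ 2) ∧
        ∀ u v, |W φ p u v| ≤ C * ‖u‖ * ‖v‖

/-- An atlas of product charts with holomorphic transition maps, together with a Hermitian metric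
(given in each chart by `H φ`) which comes from a taming form. -/
structure KAtlas (𝒬 : Set (OpenPartialHomeomorph X (A × B)))
    (H : OpenPartialHomeomorph X (A × B) → A × B → (A × B) →ₗ⋆[ℂ] (A × B) →ₗ[ℂ] ℂ) : Prop where
  cover : ∀ x, ∃ φ ∈ 𝒬, x ∈ φ.source
  ana : ∀ φ ∈ 𝒬, ∀ ψ ∈ 𝒬, ∀ x ∈ φ.source, x ∈ ψ.source →
    AnalyticAt ℂ (fun p => ψ (φ.symm p)) (φ x)
  trans : ∀ φ ∈ 𝒬, ∀ ψ ∈ 𝒬, ∀ x ∈ φ.source, x ∈ ψ.source →
    ∀ᶠ y in 𝓝 x, (φ y).2 = (φ x).2 → (ψ y).2 = (ψ x).2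
  trans' : ∀ φ ∈ 𝒬, ∀ ψ ∈ 𝒬, ∀ x ∈ φ.source, x ∈ ψ.source →
    ∀ᶠ y in 𝓝 x, (φ y).1 = (φ x).1 → (ψ y).1 = (ψ x).1
  kahler : ∀ φ ∈ 𝒬, FlatKahler (H φ) φ.target
  compat : ∀ φ ∈ 𝒬, ∀ ψ ∈ 𝒬, ∀ x ∈ φ.source, x ∈ ψ.source → ∀ u v : A × B,
    H φ (φ x) u v = H ψ (ψ x) (fderiv ℂ (fun p => ψ (φ.symm p)) (φ x) u)
      (fderiv ℂ (fun p => ψ (φ.symm p)) (φ x) v)
  tame : ∃ W, WAtlas 𝒬 H W

end Vale.Agent.P278.Full.T
end
end

section

section

open Set Topology Filter Metric MeasureTheory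
open scoped ContDiff Manifold ComplexConjugate ENNReal

set_option linter.all false

namespace Vale.Agent.P278.Full.T

variable {X : Type*} [TopologicalSpace X] {A B : Type*} [NormedAddCommGroup A] [NormedSpace ℂ A]
  [NormedAddCommGroup B] [NormedSpace ℂ B] {𝒬 : Set (OpenPartialHomeomorph X (A × B))}
  {H : OpenPartialHomeomorph X (A × B) → A × B → (A × B) →ₗ⋆[ℂ] (A × B) →ₗ[ℂ] ℂ}
  [FiniteDimensional ℂ A] [FiniteDimensional ℂ B]

/-- Change of chart. -/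
theorem _root_.Vale.Agent.P278.Full.IsDisc.chartT (hQ : KAtlas 𝒬 H) {u : ℂ → X} {z : ℂ} (hu : IsDisc 𝒬 u z)
    {ψ : OpenPartialHomeomorph X (A × B)} (hψ : ψ ∈ 𝒬) (hz : u z ∈ ψ.source) :
    (∀ᶠ y in 𝓝 z, u y ∈ ψ.source) ∧ AnalyticAt ℂ (fun y => ψ (u y)) z := by
  have hc := hu.continuousAt
  obtain ⟨φ, hφ, h1, h2⟩ := hu
  have h3 : u z ∈ φ.source := h1.self_of_nhds
  refine ⟨hc.eventually_mem (ψ.open_source.mem_nhds hz), ?_⟩
  have h4 : AnalyticAt ℂ (fun y => ψ (φ.symm (φ (u y)))) z :=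
    AnalyticAt.comp (g := fun p => ψ (φ.symm p)) (f := fun y => φ (u y)) (x := z)
      (hQ.ana φ hφ ψ hψ _ h3 hz) h2
  refine h4.congr ?_
  filter_upwards [h1] with y hy
  rw [φ.left_inv hy]

theorem deriv_chart (hQ : KAtlas 𝒬 H) {u : ℂ → X} {z : ℂ} (hu : IsDisc 𝒬 u z)
    {φ ψ : OpenPartialHomeomorph X (A × B)} (hφ : φ ∈ 𝒬) (hψ : ψ ∈ 𝒬) (hz : u z ∈ φ.source)
    (hz' : u z ∈ ψ.source) :
    deriv (fun y => ψ (u y)) z =
      fderiv ℂ (fun p => ψ (φ.symm p)) (φ (u z)) (deriv (fun y => φ (u y)) z) := by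
  obtain ⟨h1, h2⟩ := hu.chartT hQ hφ hz
  have h3 := (hQ.ana φ hφ ψ hψ _ hz hz').differentiableAt.hasFDerivAt
  have h4 := h3.comp_hasDerivAt (f := fun y => φ (u y)) z h2.differentiableAt.hasDerivAt
  have h5 : (fun y => ψ (u y)) =ᶠ[𝓝 z] ((fun p => ψ (φ.symm p)) ∘ fun y => φ (u y)) := by
    filter_upwards [h1] with y hy
    show _ = ψ (φ.symm (φ (u y)))
    rw [φ.left_inv hy]
  exact (h4.congr_of_eventuallyEq h5).deriv

/-- The energy density in a chart. -/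
theorem eden_eq (hQ : KAtlas 𝒬 H) {u : ℂ → X} {z : ℂ} (hu : IsDisc 𝒬 u z)
    {φ : OpenPartialHomeomorph X (A × B)} (hφ : φ ∈ 𝒬) (hz : u z ∈ φ.source) :
    eden 𝒬 H u z = (H φ (φ (u z)) (deriv (fun y => φ (u y)) z)
      (deriv (fun y => φ (u y)) z)).re := by
  have hex : ∃ φ ∈ 𝒬, u z ∈ φ.source := ⟨φ, hφ, hz⟩
  rw [eden, dif_pos hex]
  obtain ⟨h1, h2⟩ := hex.choose_spec
  rw [hQ.compat φ hφ _ h1 _ hz h2, ← deriv_chart hQ hu hφ h1 hz h2]

theorem eden_nonneg (hQ : KAtlas 𝒬 H) {u : ℂ → X} {z : ℂ} : 0 ≤ eden 𝒬 H u z := by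
  rw [eden]
  split_ifs with h
  · obtain ⟨h1, h2⟩ := h.choose_spec
    rcases eq_or_ne (deriv (fun y => h.choose (u y)) z) 0 with h0 | h0
    · rw [h0]; simp
    · exact ((hQ.kahler _ h1).pos _ (h.choose.map_source h2) _ h0).le
  · exact le_rfl

theorem continuousOn_form {V : Type*} [NormedAddCommGroup V] [NormedSpace ℂ V]
    [FiniteDimensional ℂ V] {S : V → V →ₗ⋆[ℂ] V →ₗ[ℂ] ℂ} {Ω : Set V} (hS : FlatKahler S Ω) :
    ContinuousOn (fun q : V × V × V => S q.1 q.2.1 q.2.2) (Ω ×ˢ univ) := by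
  set b := Module.finBasis ℂ V
  have h1 : (fun q : V × V × V => S q.1 q.2.1 q.2.2) = fun q : V × V × V =>
      ∑ i, ∑ j, conj (b.repr q.2.1 i) * (b.repr q.2.2 j) * S q.1 (b i) (b j) := by
    funext q; exact form_basis b _ _ _
  rw [h1]
  have hb : ∀ i, Continuous fun v : V => b.repr v i := fun i =>
    (LinearMap.continuous_of_finiteDimensional (b.coord i))
  refine continuousOn_finset_sum _ fun i _ => continuousOn_finset_sum _ fun j _ => ?_
  refine ContinuousOn.mul (Continuous.continuousOn ?_) ?_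
  · exact ((Complex.continuous_conj.comp ((hb i).comp (by fun_prop))).mul
      ((hb j).comp (by fun_prop)))
  · exact (hS.smooth (b i) (b j)).continuousOn.comp continuous_fst.continuousOn
      (fun q hq => hq.1)

theorem form_bounds {V : Type*} [NormedAddCommGroup V] [NormedSpace ℂ V]
    [FiniteDimensional ℂ V] {S : V → V →ₗ⋆[ℂ] V →ₗ[ℂ] ℂ} {Ω : Set V} (hS : FlatKahler S Ω)
    {K : Set V} (hK : IsCompact K) (hKΩ : K ⊆ Ω) :
    ∃ c > 0, ∃ C > 0, ∀ p ∈ K, ∀ v, c * ‖v‖ ^ 2 ≤ (S p v v).re ∧ (S p v v).re ≤ C * ‖v‖ ^ 2 := by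
  haveI : ProperSpace V := FiniteDimensional.proper ℂ V
  have hcont : ContinuousOn (fun q : V × V => (S q.1 q.2 q.2).re) (K ×ˢ sphere (0 : V) 1) := by
    refine Complex.continuous_re.comp_continuousOn ?_
    exact (continuousOn_form hS).comp (f := fun q : V × V => (q.1, q.2, q.2))
      (by fun_prop) (fun q hq => ⟨hKΩ hq.1, mem_univ _⟩)
  have hcomp : IsCompact (K ×ˢ sphere (0 : V) 1) := hK.prod (isCompact_sphere 0 1)
  have hhom : ∀ p v, v ≠ 0 → (S p v v).re =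
      (S p ((‖v‖⁻¹ : ℂ) • v) ((‖v‖⁻¹ : ℂ) • v)).re * ‖v‖ ^ 2 := by
    intro p v hv
    have hn : (‖v‖ : ℝ) ≠ 0 := norm_ne_zero_iff.2 hv
    have h1 : S p ((‖v‖⁻¹ : ℂ) • v) ((‖v‖⁻¹ : ℂ) • v) = (((‖v‖⁻¹ * ‖v‖⁻¹ : ℝ)) : ℂ) * S p v v := by
      rw [LinearMap.map_smulₛₗ, LinearMap.map_smulₛₗ, LinearMap.smul_apply]
      simp only [map_inv₀, RingHom.id_apply, Complex.conj_ofReal, smul_eq_mul]
      push_cast
      ring
    rw [h1, Complex.re_ofReal_mul]
    (clear * - hn; field_simp)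
  have hunit : ∀ v : V, v ≠ 0 → ((‖v‖⁻¹ : ℂ) • v) ∈ sphere (0 : V) 1 := by
    intro v hv
    rw [mem_sphere_zero_iff_norm, norm_smul, norm_inv, Complex.norm_real, norm_norm]
    exact inv_mul_cancel₀ (norm_ne_zero_iff.2 hv)
  rcases (K ×ˢ sphere (0 : V) 1).eq_empty_or_nonempty with hem | hne
  · refine ⟨1, one_pos, 1, one_pos, fun p hp v => ?_⟩
    rcases eq_or_ne v 0 with rfl | hv
    · simp
    · exfalso
      have : ((p, (‖v‖⁻¹ : ℂ) • v) : V × V) ∈ K ×ˢ sphere (0 : V) 1 := ⟨hp, hunit v hv⟩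
      rw [hem] at this
      exact this
  · obtain ⟨q₁, hq₁, hmin⟩ := hcomp.exists_isMinOn hne hcont
    obtain ⟨q₂, hq₂, hmax⟩ := hcomp.exists_isMaxOn hne hcont
    have hpos : ∀ q ∈ K ×ˢ sphere (0 : V) 1, 0 < (S q.1 q.2 q.2).re := by
      intro q hq
      apply hS.pos _ (hKΩ hq.1)
      intro h0
      have := hq.2
      rw [h0, mem_sphere_zero_iff_norm, norm_zero] at this
      norm_num at this
    refine ⟨_, hpos q₁ hq₁, _, hpos q₂ hq₂, fun p hp v => ?_⟩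
    rcases eq_or_ne v 0 with rfl | hv
    · simp
    · rw [hhom p v hv]
      have hm : ((p, (‖v‖⁻¹ : ℂ) • v) : V × V) ∈ K ×ˢ sphere (0 : V) 1 := ⟨hp, hunit v hv⟩
      exact ⟨mul_le_mul_of_nonneg_right (hmin hm) (by positivity),
        mul_le_mul_of_nonneg_right (hmax hm) (by positivity)⟩

/-- Uniform boxes. -/
theorem exists_uniform_box (hQ : KAtlas 𝒬 H) :
    ∃ δ > 0, ∃ c > 0, ∃ C > 0, ∀ x : X, ∃ φ ∈ 𝒬, x ∈ φ.source ∧
      closedBall (φ x) δ ⊆ φ.target ∧ ∀ p ∈ closedBall (φ x) δ, ∀ v,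
        c * ‖v‖ ^ 2 ≤ (H φ p v v).re ∧ (H φ p v v).re ≤ C * ‖v‖ ^ 2 := by
  obtain ⟨W, hW⟩ := hQ.tame
  obtain ⟨δ, hδ, c, hc, C, hC, h⟩ := hW.box
  refine ⟨δ, hδ, c, hc, C, hC, fun x => ?_⟩
  obtain ⟨φ, hφ, h1, h2, h3⟩ := h x
  exact ⟨φ, hφ, h1, h2, fun p hp => (h3 p hp).1⟩

end Vale.Agent.P278.Full.T
end
end

section

section

open Set Topology Filter Metric MeasureTheory
open scoped ContDiff Manifold ComplexConjugate ENNReal

set_option linter.all false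

namespace Vale.Agent.P278.Full.T

variable {X : Type*} [TopologicalSpace X] {A B : Type*} [NormedAddCommGroup A] [NormedSpace ℂ A]
  [NormedAddCommGroup B] [NormedSpace ℂ B] {𝒬 : Set (OpenPartialHomeomorph X (A × B))}
  {H : OpenPartialHomeomorph X (A × B) → A × B → (A × B) →ₗ⋆[ℂ] (A × B) →ₗ[ℂ] ℂ}
  [FiniteDimensional ℂ A] [FiniteDimensional ℂ B]

/-- The derivative in a chart is bounded by the energy density. -/
theorem norm_deriv_le (hQ : KAtlas 𝒬 H) {u : ℂ → X} {z : ℂ} (hu : IsDisc 𝒬 u z)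
    {φ : OpenPartialHomeomorph X (A × B)} (hφ : φ ∈ 𝒬) (hz : u z ∈ φ.source) {c L : ℝ}
    (hc : 0 < c) (hL : 0 ≤ L) (hlow : ∀ v, c * ‖v‖ ^ 2 ≤ (H φ (φ (u z)) v v).re)
    (he : eden 𝒬 H u z ≤ c * L ^ 2) : ‖deriv (fun y => φ (u y)) z‖ ≤ L := by
  rw [eden_eq hQ hu hφ hz] at he
  have h1 := hlow (deriv (fun y => φ (u y)) z)
  have h2 : ‖deriv (fun y => φ (u y)) z‖ ^ 2 ≤ L ^ 2 := by
    have := h1.trans he
    exact le_of_mul_le_mul_left this hc
  exact (pow_le_pow_iff_left₀ (norm_nonneg _) hL two_ne_zero).1 h2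

/-- Confinement of a disc in a chart along a segment. -/
theorem seg_confined [T2Space X] (hQ : KAtlas 𝒬 H) {φ : OpenPartialHomeomorph X (A × B)}
    (hφ : φ ∈ 𝒬) {b : A × B} {δ c : ℝ} (hc : 0 < c) (hsub : closedBall b δ ⊆ φ.target)
    (hlow : ∀ p ∈ closedBall b δ, ∀ v, c * ‖v‖ ^ 2 ≤ (H φ p v v).re) {u : ℂ → X} {z₁ z₂ : ℂ}
    (hu : ∀ z ∈ segment ℝ z₁ z₂, IsDisc 𝒬 u z) {L : ℝ} (hL : 0 ≤ L)
    (he : ∀ z ∈ segment ℝ z₁ z₂, eden 𝒬 H u z ≤ c * L ^ 2) (h1 : u z₁ ∈ φ.source)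
    (hlen : dist (φ (u z₁)) b + L * ‖z₂ - z₁‖ < δ) :
    u z₂ ∈ φ.source ∧ dist (φ (u z₂)) (φ (u z₁)) ≤ L * ‖z₂ - z₁‖ := by
  haveI : ProperSpace (A × B) := FiniteDimensional.proper ℂ (A × B)
  set γ : ℝ → ℂ := fun t => z₁ + t • (z₂ - z₁) with hγ
  have hγc : Continuous γ := by fun_prop
  have hγseg : ∀ t ∈ Icc (0 : ℝ) 1, γ t ∈ segment ℝ z₁ z₂ := by
    intro t ht
    rw [segment_eq_image']
    exact ⟨t, ht, rfl⟩
  set g : ℝ → X := fun t => u (γ t) with hg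
  have hgc : ∀ t ∈ Icc (0 : ℝ) 1, ContinuousAt g t := fun t ht =>
    ContinuousAt.comp (g := u) (f := γ) (hu _ (hγseg t ht)).continuousAt hγc.continuousAt
  set l : ℝ := L * ‖z₂ - z₁‖ with hl
  have hl0 : 0 ≤ l := by (clear * - hL; positivity)
  -- derivative of the path in the chart
  have hder : ∀ t ∈ Icc (0 : ℝ) 1, g t ∈ φ.source → φ (g t) ∈ closedBall b δ →
      ∃ D : A × B, HasDerivAt (fun s => φ (g s)) D t ∧ ‖D‖ ≤ l := by
    intro t ht hts htb
    have hd := hu _ (hγseg t ht)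
    obtain ⟨-, h2⟩ := hd.chartT hQ hφ hts
    have h3 := h2.differentiableAt.hasDerivAt
    have h4 : HasDerivAt γ (z₂ - z₁) t := by
      have := ((hasDerivAt_id t).smul_const (z₂ - z₁)).const_add z₁
      rw [one_smul] at this
      exact this
    refine ⟨_, h3.scomp_of_eq t h4 rfl, ?_⟩
    rw [norm_smul, mul_comm]
    exact mul_le_mul_of_nonneg_right (norm_deriv_le hQ hd hφ hts hc hL (hlow _ htb)
      (he _ (hγseg t ht))) (norm_nonneg _)
  set κ : Set X := φ.symm '' closedBall b δ with hκ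
  have hκc : IsClosed κ := ((isCompact_closedBall b δ).image_of_continuousOn
    (φ.continuousOn_symm.mono hsub)).isClosed
  have hκs : κ ⊆ φ.source := by
    rintro _ ⟨p, hp, rfl⟩
    exact φ.map_target (hsub hp)
  have hκφ : ∀ x ∈ κ, φ x ∈ closedBall b δ := by
    rintro _ ⟨p, hp, rfl⟩
    rw [φ.right_inv (hsub hp)]; exact hp
  have hκm : ∀ x ∈ φ.source, φ x ∈ closedBall b δ → x ∈ κ := fun x hx hxb =>
    ⟨φ x, hxb, φ.left_inv hx⟩
  set S : Set ℝ := {t | g t ∈ κ ∧ dist (φ (g t)) (φ (g 0)) ≤ l * t} with hS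
  have hg0 : g 0 = u z₁ := by simp [hg, hγ]
  have hg1 : g 1 = u z₂ := by simp [hg, hγ]
  have hgcOn : ContinuousOn g (Icc 0 1) := fun t ht => (hgc t ht).continuousWithinAt
  have hTc : IsClosed (Icc (0 : ℝ) 1 ∩ g ⁻¹' κ) := hgcOn.preimage_isClosed_of_isClosed isClosed_Icc hκc
  have hφg : ContinuousOn (fun t => φ (g t)) (Icc (0 : ℝ) 1 ∩ g ⁻¹' κ) := by
    intro t ht
    exact (ContinuousAt.comp (g := φ) (f := g) (φ.continuousAt (hκs ht.2))
      (hgc t ht.1)).continuousWithinAt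
  have hSc : IsClosed (S ∩ Icc 0 1) := by
    have h5 : IsClosed ((Icc (0 : ℝ) 1 ∩ g ⁻¹' κ) ∩
        (fun t => dist (φ (g t)) (φ (g 0)) - l * t) ⁻¹' Iic 0) := by
      refine ContinuousOn.preimage_isClosed_of_isClosed ?_ hTc isClosed_Iic
      exact (continuous_dist.comp_continuousOn (ContinuousOn.prodMk hφg continuousOn_const)).sub
        (by fun_prop)
    convert h5 using 1
    ext t
    simp only [hS, mem_inter_iff, mem_setOf_eq, mem_preimage, mem_Iic, sub_nonpos]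
    (clear * -; tauto)
  have h0b : dist (φ (u z₁)) b < δ := by linarith only [hlen, hl0]
  have hsubI : Icc (0 : ℝ) 1 ⊆ S := by
    refine hSc.Icc_subset_of_forall_mem_nhdsWithin ?_ ?_
    · refine ⟨?_, by simp⟩
      show g 0 ∈ κ
      rw [hg0]
      exact hκm _ h1 (mem_closedBall.2 h0b.le)
    · rintro t ⟨⟨htκ, htd⟩, ht0, ht1⟩
      have hts := hκs htκ
      have htb : dist (φ (g t)) b < δ := by
        have h6 := dist_triangle (φ (g t)) (φ (g 0)) b
        rw [hg0] at h6 htd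
        have h7 : l * t ≤ l := mul_le_of_le_one_right hl0 ht1.le
        linarith only [hlen, htd, h6, h7]
      -- an open neighbourhood where the path stays in the chart ball
      have hopen : ∀ᶠ s in 𝓝 t, g s ∈ φ.source ∧ φ (g s) ∈ ball b δ := by
        have hct := hgc t ⟨ht0, ht1.le⟩
        refine (hct.eventually_mem (φ.open_source.mem_nhds hts)).and ?_
        exact (ContinuousAt.comp (g := φ) (f := g) (φ.continuousAt hts) hct).eventually_mem
          (isOpen_ball.mem_nhds htb)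
      obtain ⟨η, hη, hηs⟩ := Metric.eventually_nhds_iff.1 hopen
      have hmem : Ioo t (min 1 (t + η)) ∈ 𝓝[>] t :=
        Ioo_mem_nhdsGT (lt_min ht1 (by linarith only [hη]))
      filter_upwards [hmem] with s hs
      have hs1 : s < 1 := lt_of_lt_of_le hs.2 (min_le_left _ _)
      have hsη : s < t + η := lt_of_lt_of_le hs.2 (min_le_right _ _)
      have hin : ∀ r ∈ Icc t s, g r ∈ φ.source ∧ φ (g r) ∈ ball b δ := by
        intro r hr
        apply hηs
        rw [Real.dist_eq, abs_of_nonneg (by linarith only [hr.1])]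
        linarith only [hsη, hr.2]
      have hr01 : ∀ r ∈ Icc t s, r ∈ Icc (0 : ℝ) 1 := fun r hr =>
        ⟨ht0.trans hr.1, hr.2.trans hs1.le⟩
      have hmv : ‖φ (g s) - φ (g t)‖ ≤ l * (s - t) := by
        choose! D hD hDn using fun r (hr : r ∈ Icc t s) =>
          hder r (hr01 r hr) (hin r hr).1 (ball_subset_closedBall (hin r hr).2)
        have := norm_image_sub_le_of_norm_deriv_le_segment' (f := fun r => φ (g r))
          (f' := D) (C := l) (a := t) (b := s)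
          (fun r hr => (hD r hr).hasDerivWithinAt) (fun r hr => hDn r ⟨hr.1, hr.2.le⟩) s
          ⟨hs.1.le, le_rfl⟩
        exact this
      obtain ⟨k1, k2⟩ := hin s ⟨hs.1.le, le_rfl⟩
      refine ⟨hκm _ k1 (ball_subset_closedBall k2), ?_⟩
      have h8 := dist_triangle (φ (g s)) (φ (g t)) (φ (g 0))
      rw [dist_eq_norm (φ (g s)) (φ (g t))] at h8
      linarith only [htd, hmv, h8]
  obtain ⟨h9, h10⟩ := hsubI (right_mem_Icc.2 zero_le_one)
  rw [hg0, hg1, mul_one] at h10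
  rw [hg1] at h9
  exact ⟨hκs h9, h10⟩

end Vale.Agent.P278.Full.T
end
end

section

section

open Set Topology Filter Metric MeasureTheory
open scoped ContDiff Manifold ComplexConjugate ENNReal Real

set_option linter.all false

namespace Vale.Agent.P278.Full.T

variable {X : Type*} [TopologicalSpace X] {A B : Type*} [NormedAddCommGroup A] [NormedSpace ℂ A]
  [NormedAddCommGroup B] [NormedSpace ℂ B] {𝒬 : Set (OpenPartialHomeomorph X (A × B))}
  {H : OpenPartialHomeomorph X (A × B) → A × B → (A × B) →ₗ⋆[ℂ] (A × B) →ₗ[ℂ] ℂ}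
  [FiniteDimensional ℂ A] [FiniteDimensional ℂ B]

/-- The energy density of a reparametrised disc. -/
theorem eden_comp_map (hQ : KAtlas 𝒬 H) {u : ℂ → X} {g : ℂ → ℂ} {z : ℂ} (hu : IsDisc 𝒬 u (g z))
    (hg : AnalyticAt ℂ g z) :
    eden 𝒬 H (fun y => u (g y)) z = ‖deriv g z‖ ^ 2 * eden 𝒬 H u (g z) := by
  have hc := hu.comp_map hg
  obtain ⟨φ, hφ, h1, h2⟩ := id hu
  have h3 : u (g z) ∈ φ.source := h1.self_of_nhds
  rw [eden_eq hQ hu hφ h3, eden_eq hQ hc hφ h3]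
  have h4 : deriv (fun y => φ (u (g y))) z = deriv g z • deriv (fun y => φ (u y)) (g z) := by
    have := HasDerivAt.scomp z h2.differentiableAt.hasDerivAt hg.differentiableAt.hasDerivAt
    exact this.deriv
  rw [h4, form_smul_smul]

theorem eden_congr (hQ : KAtlas 𝒬 H) {u v : ℂ → X} {z : ℂ} (hu : IsDisc 𝒬 u z)
    (h : u =ᶠ[𝓝 z] v) : eden 𝒬 H u z = eden 𝒬 H v z := by
  have h0 : u z = v z := h.self_of_nhds
  have hv := hu.congr h
  obtain ⟨φ, hφ, h1, h2⟩ := id hu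
  have h3 : u z ∈ φ.source := h1.self_of_nhds
  have h4 : deriv (fun y => φ (u y)) z = deriv (fun y => φ (v y)) z := by
    apply Filter.EventuallyEq.deriv_eq
    filter_upwards [h] with y hy
    rw [hy]
  rw [eden_eq hQ hu hφ h3, eden_eq hQ hv hφ (h0 ▸ h3), h4, h0]

end Vale.Agent.P278.Full.T
end
end

section

section

open Set Topology Filter Metric MeasureTheory
open scoped ContDiff Manifold ComplexConjugate ENNReal

set_option linter.all false

namespace Vale.Agent.P278.Full.T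

variable {X : Type*} [TopologicalSpace X] {A B : Type*} [NormedAddCommGroup A] [NormedSpace ℂ A]
  [NormedAddCommGroup B] [NormedSpace ℂ B] {𝒬 : Set (OpenPartialHomeomorph X (A × B))}
  {H : OpenPartialHomeomorph X (A × B) → A × B → (A × B) →ₗ⋆[ℂ] (A × B) →ₗ[ℂ] ℂ}

/-- The energy density after a holomorphic change of variable. -/
theorem eden_comp [FiniteDimensional ℂ A] [FiniteDimensional ℂ B] (hQ : KAtlas 𝒬 H) {u : ℂ → X}
    {g : ℂ → ℂ} {z : ℂ} (hu : IsDisc 𝒬 u (g z)) (hg : AnalyticAt ℂ g z) :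
    eden 𝒬 H (fun y => u (g y)) z = ‖deriv g z‖ ^ 2 * eden 𝒬 H u (g z) := by
  obtain ⟨φ, hφ, h1, h2⟩ := id hu
  have h3 : u (g z) ∈ φ.source := h1.self_of_nhds
  rw [eden_eq hQ (hu.comp hg) hφ h3, eden_eq hQ hu hφ h3]
  have h4 : deriv (fun y => φ (u (g y))) z = deriv g z • deriv (fun y => φ (u y)) (g z) := by
    have h5 := h2.differentiableAt.hasDerivAt.scomp z hg.differentiableAt.hasDerivAt
    exact h5.deriv
  rw [h4, form_smul_self]

/-- A disc of small energy density along a segment stays in the box. -/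
theorem seg_box [T2Space X] [FiniteDimensional ℂ A] [FiniteDimensional ℂ B] (hQ : KAtlas 𝒬 H)
    {φ : OpenPartialHomeomorph X (A × B)} (hφ : φ ∈ 𝒬) {δ c κ : ℝ} (hc : 0 < c) {a₀ : A × B}
    (hsub : closedBall a₀ δ ⊆ φ.target)
    (hcb : ∀ p ∈ closedBall a₀ δ, ∀ v, c * ‖v‖ ^ 2 ≤ (H φ p v v).re) {u : ℂ → X} {a b : ℂ}
    (hu : ∀ z ∈ segment ℝ a b, IsDisc 𝒬 u z)
    (hκ : ∀ z ∈ segment ℝ a b, eden 𝒬 H u z * ‖b - a‖ ^ 2 ≤ c * κ ^ 2) (hκ0 : 0 ≤ κ)
    (ha : u a ∈ φ.source) (hlen : ‖φ (u a) - a₀‖ + κ < δ) :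
    u b ∈ φ.source ∧ ‖φ (u b) - φ (u a)‖ ≤ κ := by
  haveI : ProperSpace (A × B) := FiniteDimensional.proper ℂ (A × B)
  haveI := FiniteDimensional.complete ℂ A
  haveI := FiniteDimensional.complete ℂ B
  set γ : ℝ → ℂ := fun t => a + t * (b - a) with hγ
  have hγseg : ∀ t ∈ Icc (0 : ℝ) 1, γ t ∈ segment ℝ a b := by
    intro t ht
    refine ⟨1 - t, t, by linarith only [ht.2], ht.1, by ring, ?_⟩
    simp only [hγ, Complex.real_smul]
    push_cast
    ring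
  have hγc : Continuous γ := by
    simp only [hγ]
    fun_prop
  have hγd : ∀ t, HasDerivAt γ (b - a) t := by
    intro t
    have h1 : HasDerivAt (fun t : ℝ => (t : ℂ)) 1 t := Complex.ofRealCLM.hasDerivAt
    have h2 := (h1.mul_const (b - a)).const_add a
    simpa [hγ] using h2
  set S : Set ℝ := {t | u (γ t) ∈ φ.source ∧ ‖φ (u (γ t)) - φ (u a)‖ ≤ t * κ} with hS
  have hball : closedBall (φ (u a)) κ ⊆ closedBall a₀ δ := by
    intro p hp
    rw [mem_closedBall, dist_eq_norm] at hp ⊢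
    have := norm_sub_le_norm_sub_add_norm_sub p (φ (u a)) a₀
    linarith only [hlen, hp, this]
  have huc : ContinuousOn (fun t => u (γ t)) (Icc 0 1) := by
    intro t ht
    exact ((hu _ (hγseg t ht)).continuousAt.comp (f := γ) (x := t)
      hγc.continuousAt).continuousWithinAt
  -- closedness
  have hclosed : IsClosed (S ∩ Icc 0 1) := by
    set K : Set X := φ.symm '' closedBall (φ (u a)) κ with hK
    have hKc : IsClosed K := by
      apply IsCompact.isClosed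
      apply (isCompact_closedBall _ _).image_of_continuousOn
      exact φ.continuousOn_symm.mono (hball.trans hsub)
    have hKs : K ⊆ φ.source := by
      rintro _ ⟨p, hp, rfl⟩
      exact φ.map_target (hsub (hball hp))
    have hT1 : IsClosed (Icc (0 : ℝ) 1 ∩ (fun t => u (γ t)) ⁻¹' K) :=
      huc.preimage_isClosed_of_isClosed isClosed_Icc hKc
    have hcont : ContinuousOn (fun t => ‖φ (u (γ t)) - φ (u a)‖ - t * κ)
        (Icc (0 : ℝ) 1 ∩ (fun t => u (γ t)) ⁻¹' K) := by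
      refine ContinuousOn.sub (ContinuousOn.norm (ContinuousOn.sub ?_ continuousOn_const)) ?_
      · exact φ.continuousOn.comp (huc.mono inter_subset_left) (fun t ht => hKs ht.2)
      · fun_prop
    have hT2 := hcont.preimage_isClosed_of_isClosed hT1 (isClosed_Iic (a := (0 : ℝ)))
    convert hT2 using 1
    ext t
    simp only [hS, mem_inter_iff, mem_setOf_eq, mem_preimage, mem_Iic]
    constructor
    · rintro ⟨⟨h1, h2⟩, h3⟩
      refine ⟨⟨h3, φ (u (γ t)), ?_, φ.left_inv h1⟩, by linarith only [h2]⟩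
      rw [mem_closedBall, dist_eq_norm]
      refine h2.trans ?_
      nlinarith only [hκ0, h3.2]
    · rintro ⟨⟨h1, h2⟩, h3⟩
      exact ⟨⟨hKs h2, by linarith only [h3]⟩, h1⟩
  have hγ0 : γ 0 = a := by simp [hγ]
  have hγ1 : γ 1 = b := by simp [hγ]
  have h0 : (0 : ℝ) ∈ S := by
    simp only [hS, mem_setOf_eq, hγ0]
    exact ⟨ha, by simp⟩
  have key : Icc (0 : ℝ) 1 ⊆ S := by
    refine hclosed.Icc_subset_of_forall_exists_gt h0 ?_
    rintro x ⟨⟨hx1, hx2⟩, hx⟩ y hy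
    have hxI : x ∈ Icc (0 : ℝ) 1 := ⟨hx.1, hx.2.le⟩
    have hd := hu _ (hγseg x hxI)
    obtain ⟨h1, h2⟩ := hd.chartT hQ hφ hx1
    have hin : φ (u (γ x)) ∈ ball a₀ δ := by
      rw [mem_ball, dist_eq_norm]
      have h3 := norm_sub_le_norm_sub_add_norm_sub (φ (u (γ x))) (φ (u a)) a₀
      have h4 : x * κ ≤ κ := by nlinarith only [hκ0, hx.2]
      linarith only [hlen, hx2, h3, h4]
    have hev : ∀ᶠ z in 𝓝 (γ x), u z ∈ φ.source ∧ AnalyticAt ℂ (fun y => φ (u y)) z ∧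
        φ (u z) ∈ ball a₀ δ :=
      h1.and (h2.eventually_analyticAt.and
        (h2.continuousAt.eventually (isOpen_ball.mem_nhds hin)))
    have hev2 : ∀ᶠ t in 𝓝 x, u (γ t) ∈ φ.source ∧ AnalyticAt ℂ (fun y => φ (u y)) (γ t) ∧
        φ (u (γ t)) ∈ ball a₀ δ := hγc.continuousAt.eventually hev
    obtain ⟨ε, hε, hball2⟩ := Metric.eventually_nhds_iff_ball.1 hev2
    set t := min (min y 1) (x + ε / 2) with ht
    have hxt : x < t := lt_min (lt_min hy hx.2) (by linarith only [hε])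
    have ht1 : t ≤ 1 := (min_le_left _ _).trans (min_le_right _ _)
    have hty : t ≤ y := (min_le_left _ _).trans (min_le_left _ _)
    have htε : t ≤ x + ε / 2 := min_le_right _ _
    have hall : ∀ s ∈ Icc x t, u (γ s) ∈ φ.source ∧ AnalyticAt ℂ (fun y => φ (u y)) (γ s) ∧
        φ (u (γ s)) ∈ ball a₀ δ := by
      intro s hs
      apply hball2
      rw [mem_ball, Real.dist_eq, abs_lt]
      constructor <;> linarith only [hxt, htε, hs.1, hs.2]
    refine ⟨t, ⟨(hall t ⟨hxt.le, le_rfl⟩).1, ?_⟩, hxt, hty⟩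
    have hmv : ‖φ (u (γ t)) - φ (u (γ x))‖ ≤ κ * ‖t - x‖ := by
      refine (convex_Icc x t).norm_image_sub_le_of_norm_hasDerivWithin_le
        (f := fun s => φ (u (γ s)))
        (f' := fun s => (b - a) • deriv (fun y => φ (u y)) (γ s)) ?_ ?_
        (left_mem_Icc.2 hxt.le) (right_mem_Icc.2 hxt.le)
      · intro s hs
        have h5 := (hall s hs).2.1.differentiableAt.hasDerivAt.scomp s (hγd s)
        exact h5.hasDerivWithinAt
      · intro s hs
        obtain ⟨h6, h7, h8⟩ := hall s hs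
        have hsI : s ∈ Icc (0 : ℝ) 1 := ⟨hx.1.trans hs.1, hs.2.trans ht1⟩
        have h9 := hκ _ (hγseg s hsI)
        rw [eden_eq hQ (hu _ (hγseg s hsI)) hφ h6] at h9
        have h10 := hcb _ (ball_subset_closedBall h8) (deriv (fun y => φ (u y)) (γ s))
        rw [norm_smul]
        have h11 : c * (‖b - a‖ * ‖deriv (fun y => φ (u y)) (γ s)‖) ^ 2 ≤ c * κ ^ 2 := by
          calc c * (‖b - a‖ * ‖deriv (fun y => φ (u y)) (γ s)‖) ^ 2
              = (c * ‖deriv (fun y => φ (u y)) (γ s)‖ ^ 2) * ‖b - a‖ ^ 2 := by ring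
            _ ≤ _ := mul_le_mul_of_nonneg_right h10 (by (clear * -; positivity))
            _ ≤ _ := h9
        have h12 := le_of_mul_le_mul_left h11 hc
        exact (pow_le_pow_iff_left₀ (by (clear * -; positivity)) hκ0 two_ne_zero).1 h12
    have h13 := norm_sub_le_norm_sub_add_norm_sub (φ (u (γ t))) (φ (u (γ x))) (φ (u a))
    rw [Real.norm_of_nonneg (by linarith only [hxt] : (0 : ℝ) ≤ t - x)] at hmv
    linarith only [h13, hmv, hx2]
  have := key (right_mem_Icc.2 zero_le_one)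
  simp only [hS, mem_setOf_eq, hγ1, one_mul] at this
  exact this

/-- A disc on an annulus whose energy density is at most `κ²/|z|²` lies in one box. -/
theorem annulus_box [T2Space X] [FiniteDimensional ℂ A] [FiniteDimensional ℂ B]
    (hQ : KAtlas 𝒬 H) {φ : OpenPartialHomeomorph X (A × B)} (hφ : φ ∈ 𝒬) {δ c κ κ' r₁ r₂ : ℝ}
    (hc : 0 < c) (hr₁ : 0 < r₁) {u : ℂ → X} {z₀ : ℂ} (hz₀ : r₁ < ‖z₀‖ ∧ ‖z₀‖ < r₂)
    (h0 : u z₀ ∈ φ.source) (hsub : closedBall (φ (u z₀)) δ ⊆ φ.target)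
    (hcb : ∀ p ∈ closedBall (φ (u z₀)) δ, ∀ v, c * ‖v‖ ^ 2 ≤ (H φ p v v).re)
    (hu : ∀ z : ℂ, r₁ < ‖z‖ → ‖z‖ < r₂ → IsDisc 𝒬 u z) (hκ0 : 0 ≤ κ) (hκ0' : 0 ≤ κ')
    (hκ : ∀ z : ℂ, r₁ < ‖z‖ → ‖z‖ < r₂ → eden 𝒬 H u z * ‖z‖ ^ 2 ≤ κ ^ 2)
    (hκ' : κ ^ 2 * (Real.log (r₂ / r₁) + 2 * Real.pi) ^ 2 ≤ c * κ' ^ 2) (hδ : κ' < δ) {z : ℂ}
    (hz : r₁ < ‖z‖ ∧ ‖z‖ < r₂) :
    u z ∈ φ.source ∧ ‖φ (u z) - φ (u z₀)‖ ≤ κ' := by
  have hz0 : z ≠ 0 := by
    rintro rfl
    rw [norm_zero] at hz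
    linarith only [hr₁, hz]
  have hz00 : z₀ ≠ 0 := by
    rintro rfl
    rw [norm_zero] at hz₀
    linarith only [hr₁, hz₀]
  have hr₂ : 0 < r₂ := hr₁.trans (hz.1.trans hz.2)
  set v : ℂ → X := fun ζ => u (Complex.exp ζ) with hv
  set a := Complex.log z₀ with ha
  set b := Complex.log z with hb
  have hea : Complex.exp a = z₀ := Complex.exp_log hz00
  have heb : Complex.exp b = z := Complex.exp_log hz0
  have hre : ∀ w : ℂ, w ≠ 0 → r₁ < ‖w‖ ∧ ‖w‖ < r₂ →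
      Real.log r₁ < (Complex.log w).re ∧ (Complex.log w).re < Real.log r₂ := by
    intro w hw h
    rw [Complex.log_re]
    exact ⟨Real.log_lt_log hr₁ h.1, Real.log_lt_log (norm_pos_iff.2 hw) h.2⟩
  have hexp : ∀ ζ ∈ segment ℝ a b, r₁ < ‖Complex.exp ζ‖ ∧ ‖Complex.exp ζ‖ < r₂ := by
    intro ζ hζ
    have h1 : ζ ∈ {w : ℂ | Real.log r₁ < w.re ∧ w.re < Real.log r₂} := by
      have hconv : Convex ℝ {w : ℂ | Real.log r₁ < w.re ∧ w.re < Real.log r₂} :=
        (convex_halfSpace_re_gt _).inter (convex_halfSpace_re_lt _)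
      exact hconv.segment_subset (hre z₀ hz00 hz₀) (hre z hz0 hz) hζ
    rw [Complex.norm_exp]
    constructor
    · rw [← Real.log_lt_iff_lt_exp hr₁]
      exact h1.1
    · rw [← Real.lt_log_iff_exp_lt hr₂]
      exact h1.2
  have han : ∀ ζ : ℂ, AnalyticAt ℂ Complex.exp ζ := fun ζ => analyticAt_cexp
  have hdisc : ∀ ζ ∈ segment ℝ a b, IsDisc 𝒬 u (Complex.exp ζ) := fun ζ hζ =>
    hu _ (hexp ζ hζ).1 (hexp ζ hζ).2
  have hlen : ‖b - a‖ ≤ Real.log (r₂ / r₁) + 2 * Real.pi := by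
    have h1 := hre z₀ hz00 hz₀
    have h2 := hre z hz0 hz
    have h3 : Real.log (r₂ / r₁) = Real.log r₂ - Real.log r₁ :=
      Real.log_div hr₂.ne' hr₁.ne'
    have h4 : |(b - a).re| ≤ Real.log (r₂ / r₁) := by
      rw [abs_le, Complex.sub_re, h3]
      constructor <;> linarith only [h1, h2]
    have h5 : |(b - a).im| ≤ 2 * Real.pi := by
      rw [abs_le, Complex.sub_im]
      have h6 := Complex.neg_pi_lt_log_im z
      have h7 := Complex.log_im_le_pi z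
      have h8 := Complex.neg_pi_lt_log_im z₀
      have h9 := Complex.log_im_le_pi z₀
      constructor <;> linarith only [h6, h9, h7, h8]
    exact (Complex.norm_le_abs_re_add_abs_im _).trans (add_le_add h4 h5)
  have hlen0 : 0 ≤ ‖b - a‖ := norm_nonneg _
  have hmain := seg_box (a := a) (b := b) (u := v) hQ hφ hc (a₀ := φ (u z₀)) hsub hcb
    (fun ζ hζ => (hdisc ζ hζ).comp (han ζ)) (κ := κ') ?_ hκ0' ?_ ?_
  · simp only [hv, heb, hea] at hmain
    exact hmain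
  · intro ζ hζ
    have h1 : eden 𝒬 H v ζ = ‖deriv Complex.exp ζ‖ ^ 2 * eden 𝒬 H u (Complex.exp ζ) :=
      eden_comp hQ (hdisc ζ hζ) (han ζ)
    rw [h1, Complex.deriv_exp]
    have h2 := hκ _ (hexp ζ hζ).1 (hexp ζ hζ).2
    have h3 : ‖b - a‖ ^ 2 ≤ (Real.log (r₂ / r₁) + 2 * Real.pi) ^ 2 :=
      pow_le_pow_left₀ hlen0 hlen 2
    calc ‖Complex.exp ζ‖ ^ 2 * eden 𝒬 H u (Complex.exp ζ) * ‖b - a‖ ^ 2
        ≤ κ ^ 2 * ‖b - a‖ ^ 2 := by
          apply mul_le_mul_of_nonneg_right _ (by (clear * -; positivity))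
          linarith only [h2]
      _ ≤ κ ^ 2 * (Real.log (r₂ / r₁) + 2 * Real.pi) ^ 2 :=
          mul_le_mul_of_nonneg_left h3 (by (clear * -; positivity))
      _ ≤ _ := hκ'
  · simp only [hv, hea]
    exact h0
  · simp only [hv, hea, sub_self, norm_zero, zero_add]
    exact hδ

end Vale.Agent.P278.Full.T
end
end

section

section

/-! The identity theorem for F-maps, and the corresponding abstract class. -/

open Set Topology Filter Metric MeasureTheory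
open scoped ContDiff Manifold ComplexConjugate ENNReal

set_option linter.all false

namespace Vale.Agent.P278.Full.T

variable {X : Type*} [TopologicalSpace X] {A B : Type*} [NormedAddCommGroup A] [NormedSpace ℂ A]
  [NormedAddCommGroup B] [NormedSpace ℂ B]
  {𝒬 : Set (OpenPartialHomeomorph X (A × B))} {Ψ Ψ' : ℂ × ℂ → X} {p : ℂ × ℂ}
  [CompleteSpace A] [CompleteSpace B]

variable {H : OpenPartialHomeomorph X (A × B) → A × B → (A × B) →ₗ⋆[ℂ] (A × B) →ₗ[ℂ] ℂ}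

/-- An F-map is analytic in every chart. -/
theorem _root_.Vale.Agent.P278.Full.IsF.analyticAt_of_memT (K : KAtlas 𝒬 H) (h : IsF 𝒬 Ψ p)
    {φ : OpenPartialHomeomorph X (A × B)} (hφ : φ ∈ 𝒬) (hp : Ψ p ∈ φ.source) :
    (∀ᶠ q in 𝓝 p, Ψ q ∈ φ.source) ∧ AnalyticAt ℂ (fun q => φ (Ψ q)) p := by
  obtain ⟨ψ, hψ, hs, ha⟩ := h.analyticAt_chart
  refine ⟨h.continuousAt.eventually (φ.open_source.mem_nhds hp), ?_⟩
  have h1 : AnalyticAt ℂ (fun y => φ (ψ.symm y)) (ψ (Ψ p)) :=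
    K.ana ψ hψ φ hφ (Ψ p) hs.self_of_nhds hp
  have h2 : AnalyticAt ℂ (fun q => φ (ψ.symm (ψ (Ψ q)))) p :=
    AnalyticAt.comp' (g := fun y => φ (ψ.symm y)) (f := fun q => ψ (Ψ q)) h1 ha
  exact h2.congr (hs.mono fun q hq => by simp only; rw [ψ.left_inv hq])

/-- Two F-maps with the same value at `p` agreeing at points close to `p` agree near `p`. -/
theorem _root_.Vale.Agent.P278.Full.IsF.eventuallyEq_of_frequentlyT [T2Space X] (K : KAtlas 𝒬 H) (h : IsF 𝒬 Ψ p)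
    (h' : IsF 𝒬 Ψ' p) (hfr : ∃ᶠ q in 𝓝 p, Ψ =ᶠ[𝓝 q] Ψ') : Ψ =ᶠ[𝓝 p] Ψ' := by
  -- the values at `p` agree
  have hval : Ψ p = Ψ' p := by
    by_contra hne
    obtain ⟨U, V, hU, hV, hpU, hpV, hUV⟩ := t2_separation hne
    have h1 := h.continuousAt.eventually (hU.mem_nhds hpU)
    have h2 := h'.continuousAt.eventually (hV.mem_nhds hpV)
    obtain ⟨q, hq, h3, h4⟩ := (hfr.and_eventually (h1.and h2)).exists
    exact disjoint_left.1 hUV h3 (hq.self_of_nhds ▸ h4)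
  obtain ⟨φ, hφ, hs, ha⟩ := h.analyticAt_chart
  obtain ⟨hs', ha'⟩ := h'.analyticAt_of_memT K hφ (hval ▸ hs.self_of_nhds)
  -- a ball where everything is analytic
  have hev := ((ha.eventually_analyticAt.and ha'.eventually_analyticAt).and (hs.and hs'))
  obtain ⟨ε, hε, hball⟩ := Metric.eventually_nhds_iff_ball.1 hev
  obtain ⟨q, hq, hqb⟩ := (hfr.and_eventually (ball_mem_nhds p hε)).exists
  have han : AnalyticOnNhd ℂ (fun q => φ (Ψ q)) (ball p ε) := fun y hy => (hball y hy).1.1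
  have han' : AnalyticOnNhd ℂ (fun q => φ (Ψ' q)) (ball p ε) := fun y hy => (hball y hy).1.2
  have heq : EqOn (fun q => φ (Ψ q)) (fun q => φ (Ψ' q)) (ball p ε) :=
    han.eqOn_of_preconnected_of_eventuallyEq han' (convex_ball p ε).isPreconnected hqb
      (hq.mono fun y hy => by simp only; rw [hy])
  filter_upwards [ball_mem_nhds p hε] with y hy
  exact φ.injOn (hball y hy).2.1 (hball y hy).2.2 (heq hy)

/-- **Identity theorem.** -/
theorem _root_.Vale.Agent.P278.Full.FOn.eventuallyEqT [T2Space X] (K : KAtlas 𝒬 H) {S : Set (ℂ × ℂ)} (h : FOn 𝒬 Ψ S)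
    (h' : FOn 𝒬 Ψ' S) (hS : IsPreconnected S) (hp : p ∈ S) (he : Ψ =ᶠ[𝓝 p] Ψ') :
    ∀ q ∈ S, Ψ =ᶠ[𝓝 q] Ψ' := by
  -- the agreement set is relatively clopen
  set U : Set (ℂ × ℂ) := {q | Ψ =ᶠ[𝓝 q] Ψ'} with hU
  set V : Set (ℂ × ℂ) := {q | ¬ ∃ᶠ q' in 𝓝 q, Ψ =ᶠ[𝓝 q'] Ψ'} with hV
  have hUo : IsOpen U := by
    rw [isOpen_iff_mem_nhds]; intro q hq; exact hq.eventually_nhds
  have hVo : IsOpen V := by
    rw [isOpen_iff_mem_nhds]
    intro q hq
    have hq' : ∀ᶠ q' in 𝓝 q, ¬ (Ψ =ᶠ[𝓝 q'] Ψ') := not_frequently.1 hq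
    filter_upwards [hq'.eventually_nhds] with y hy
    exact not_frequently.2 hy
  by_contra hcon
  push Not at hcon
  obtain ⟨q, hqS, hq⟩ := hcon
  have hcover : S ⊆ U ∪ V := by
    intro y hy
    by_cases hfr : ∃ᶠ q' in 𝓝 y, Ψ =ᶠ[𝓝 q'] Ψ'
    · left; exact (h y hy).eventuallyEq_of_frequentlyT K (h' y hy) hfr
    · right; exact hfr
  have hqV : q ∈ V := (hcover hqS).resolve_left hq
  obtain ⟨y, hyS, hyU, hyV⟩ := hS U V hUo hVo hcover ⟨p, hp, he⟩ ⟨q, hqS, hqV⟩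
  apply hyV
  exact Filter.Eventually.frequently (hUo.mem_nhds hyU)

/-- F-maps on open sets form an abstract class. -/
def fclass [T2Space X] (K : KAtlas 𝒬 H) : FClass X where
  F Ψ Ω := IsOpen Ω ∧ FOn 𝒬 Ψ Ω
  isOpen h := h.1
  mono h ho hs := ⟨ho, h.2.mono hs⟩
  loc ho h := ⟨ho, fun p hp => by
    obtain ⟨N, hpN, hN⟩ := h p hp
    exact hN.2 p hpN⟩
  congr h he := ⟨h.1, fun p hp => (h.2 p hp).congr
    (Filter.eventuallyEq_of_mem (h.1.mem_nhds hp) he)⟩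
  ident h h' hc hp he := fun q hq => (FOn.eventuallyEqT K h.2 h'.2 hc hp he q hq).self_of_nhds

end Vale.Agent.P278.Full.T
end
end

section

section

open Set Topology Filter Metric MeasureTheory
open scoped ContDiff Manifold ComplexConjugate ENNReal Real

set_option linter.all false

namespace Vale.Agent.P278.Full.T

variable {X : Type*} [TopologicalSpace X] {A B : Type*} [NormedAddCommGroup A] [NormedSpace ℂ A]
  [NormedAddCommGroup B] [NormedSpace ℂ B] {𝒬 : Set (OpenPartialHomeomorph X (A × B))}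
  {H : OpenPartialHomeomorph X (A × B) → A × B → (A × B) →ₗ⋆[ℂ] (A × B) →ₗ[ℂ] ℂ}
  [FiniteDimensional ℂ A] [FiniteDimensional ℂ B]

/-- The energy density is continuous. -/
theorem eden_continuousAt (hQ : KAtlas 𝒬 H) {u : ℂ → X} {z : ℂ} (hu : IsDisc 𝒬 u z) :
    ContinuousAt (fun y => eden 𝒬 H u y) z := by
  haveI := FiniteDimensional.complete ℂ A
  haveI := FiniteDimensional.complete ℂ B
  have hev := hu.eventually
  obtain ⟨φ, hφ, h1, h2⟩ := hu
  have h3 : (fun y => eden 𝒬 H u y) =ᶠ[𝓝 z] fun y => (H φ (φ (u y)) (deriv (fun y => φ (u y)) y)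
      (deriv (fun y => φ (u y)) y)).re := by
    filter_upwards [h1, hev] with y hy hy'
    exact eden_eq hQ hy' hφ hy
  refine ContinuousAt.congr ?_ h3.symm
  have h4 : ContinuousAt (fun y => (φ (u y), deriv (fun y => φ (u y)) y,
      deriv (fun y => φ (u y)) y)) z :=
    h2.continuousAt.prodMk (h2.deriv.continuousAt.prodMk h2.deriv.continuousAt)
  have h5 := (continuousOn_form (hQ.kahler φ hφ)).continuousAt
    (x := (φ (u z), deriv (fun y => φ (u y)) z, deriv (fun y => φ (u y)) z))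
    (prod_mem_nhds (φ.open_target.mem_nhds (φ.map_source h1.self_of_nhds)) univ_mem)
  exact Complex.continuous_re.continuousAt.comp
    (ContinuousAt.comp (g := fun q : (A × B) × (A × B) × (A × B) => H φ q.1 q.2.1 q.2.2)
      (f := fun y => (φ (u y), deriv (fun y => φ (u y)) y,
        deriv (fun y => φ (u y)) y)) (x := z) h5 h4)

/-- Mean value inequality for a disc in a chart. -/
theorem eden_mean (hQ : KAtlas 𝒬 H) {φ : OpenPartialHomeomorph X (A × B)} (hφ : φ ∈ 𝒬)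
    {c C : ℝ} (hc : 0 < c) (hC : 0 < C) {u : ℂ → X} {z : ℂ} {ρ : ℝ} (hρ : 0 < ρ)
    (hu : ∀ y ∈ ball z ρ, IsDisc 𝒬 u y) (hin : ∀ y ∈ ball z ρ, u y ∈ φ.source)
    (hlow : ∀ y ∈ ball z ρ, ∀ v, c * ‖v‖ ^ 2 ≤ (H φ (φ (u y)) v v).re)
    (hup : ∀ v, (H φ (φ (u z)) v v).re ≤ C * ‖v‖ ^ 2) :
    ENNReal.ofReal (π * ρ ^ 2 * c * eden 𝒬 H u z) ≤
      ENNReal.ofReal C * energy 𝒬 H u (ball z ρ) := by
  haveI := FiniteDimensional.complete ℂ A
  haveI := FiniteDimensional.complete ℂ B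
  set f : ℂ → A × B := deriv fun y => φ (u y) with hf
  have hfd : DifferentiableOn ℂ f (ball z ρ) := fun y hy =>
    ((hu y hy).chartT hQ hφ (hin y hy)).2.deriv.differentiableAt.differentiableWithinAt
  have h1 := area_mean_sq hρ hfd
  have hz : z ∈ ball z ρ := mem_ball_self hρ
  have h2 : eden 𝒬 H u z ≤ C * ‖f z‖ ^ 2 := by
    rw [eden_eq hQ (hu z hz) hφ (hin z hz)]
    exact hup _
  have h3 : ∀ y ∈ ball z ρ, c * ‖f y‖ ^ 2 ≤ eden 𝒬 H u y := by
    intro y hy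
    rw [eden_eq hQ (hu y hy) hφ (hin y hy)]
    exact hlow y hy _
  calc ENNReal.ofReal (π * ρ ^ 2 * c * eden 𝒬 H u z)
      ≤ ENNReal.ofReal (C * (c * (π * ρ ^ 2 * ‖f z‖ ^ 2))) := by
        apply ENNReal.ofReal_le_ofReal
        have := mul_le_mul_of_nonneg_left h2 (by positivity : 0 ≤ π * ρ ^ 2 * c)
        linarith only [this]
    _ = ENNReal.ofReal C * (ENNReal.ofReal c * ENNReal.ofReal (π * ρ ^ 2 * ‖f z‖ ^ 2)) := by
        rw [ENNReal.ofReal_mul hC.le, ENNReal.ofReal_mul hc.le]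
    _ ≤ ENNReal.ofReal C * (ENNReal.ofReal c * ∫⁻ y in ball z ρ, ENNReal.ofReal (‖f y‖ ^ 2)) := by
        (clear * - h1; gcongr)
    _ = ENNReal.ofReal C * ∫⁻ y in ball z ρ, ENNReal.ofReal (c * ‖f y‖ ^ 2) := by
        rw [← lintegral_const_mul' _ _ ENNReal.ofReal_ne_top]
        simp only [ENNReal.ofReal_mul hc.le]
    _ ≤ ENNReal.ofReal C * energy 𝒬 H u (ball z ρ) := by
        refine mul_le_mul_right ?_ _
        exact setLIntegral_mono' measurableSet_ball fun y hy => ENNReal.ofReal_le_ofReal (h3 y hy)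

/-- **Lemma E** (epsilon-regularity). -/
theorem eps_regularity [T2Space X] (hQ : KAtlas 𝒬 H) :
    ∃ ε₀ : ℝ, 0 < ε₀ ∧ ∃ C : ℝ, 0 < C ∧ ∀ (u : ℂ → X) (z : ℂ) (R : ℝ), 0 < R →
      (∀ y ∈ ball z R, IsDisc 𝒬 u y) → energy 𝒬 H u (ball z R) < ENNReal.ofReal ε₀ →
      eden 𝒬 H u z ≤ C * (energy 𝒬 H u (ball z R)).toReal / R ^ 2 := by
  obtain ⟨δ, hδ, c, hc, C, hC, hbox⟩ := exists_uniform_box hQ
  refine ⟨c ^ 2 * δ ^ 2 / (16 * C), by positivity, 16 * C / c, by positivity, ?_⟩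
  intro u z R hR hu hE
  set E : ℝ := (energy 𝒬 H u (ball z R)).toReal with hEdef
  have hEtop : energy 𝒬 H u (ball z R) ≠ ⊤ := hE.ne_top
  have hE0 : 0 ≤ E := ENNReal.toReal_nonneg
  have hE' : E < c ^ 2 * δ ^ 2 / (16 * C) := by
    rw [hEdef]
    exact (ENNReal.lt_ofReal_iff_toReal_lt hEtop).1 hE
  set R' : ℝ := R / 2 with hR'
  have hR'0 : 0 < R' := by positivity
  have hcb : closedBall z R' ⊆ ball z R := closedBall_subset_ball (by rw [hR']; (clear * - hR; linarith))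
  set Lf : ℂ → ℝ := fun y => Real.sqrt (eden 𝒬 H u y / c) with hLf
  have hLf0 : ∀ y, 0 ≤ Lf y := fun y => Real.sqrt_nonneg _
  have hLsq : ∀ y, c * Lf y ^ 2 = eden 𝒬 H u y := by
    intro y
    rw [hLf]
    simp only
    rw [Real.sq_sqrt (div_nonneg (eden_nonneg hQ) hc.le)]
    (clear * - hc; field_simp)
  set F : ℂ → ℝ := fun y => Lf y * (R' - ‖y - z‖) with hF
  have hFc : ContinuousOn F (closedBall z R') := by
    intro y hy
    have h1 := (eden_continuousAt hQ (hu y (hcb hy))).continuousWithinAt (s := closedBall z R')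
    have h2 : ContinuousWithinAt Lf (closedBall z R') y := (h1.div_const c).sqrt
    exact h2.mul (by (clear * -; fun_prop))
  obtain ⟨y₀, hy₀, hmax⟩ := (isCompact_closedBall z R').exists_isMaxOn
    ⟨z, mem_closedBall_self hR'0.le⟩ hFc
  have hzm : Lf z * R' ≤ F y₀ := by
    have := hmax (mem_closedBall_self hR'0.le)
    simpa only [hF, ge_iff_le, mem_ofPred_eq, sub_self, norm_zero, sub_zero] using this
  set L₀ : ℝ := Lf y₀ with hL₀
  set s : ℝ := R' - ‖y₀ - z‖ with hs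
  have hs0 : 0 ≤ s := by
    rw [mem_closedBall, dist_eq_norm] at hy₀
    linarith only [hy₀]
  have hm : F y₀ = L₀ * s := rfl
  have hgoal : ∀ m : ℝ, Lf z * R' ≤ m → 0 ≤ m → c ^ 2 * m ^ 2 ≤ 4 * C * E →
      eden 𝒬 H u z ≤ 16 * C / c * E / R ^ 2 := by
    intro m h1 h2 h3
    have h4 : (Lf z * R') ^ 2 ≤ m ^ 2 := pow_le_pow_left₀ (mul_nonneg (hLf0 z) hR'0.le) h1 2
    have h5 : eden 𝒬 H u z * R ^ 2 = 4 * c * (Lf z * R') ^ 2 := by
      rw [← hLsq z, hR']; ring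
    rw [le_div_iff₀ (by positivity), h5]
    have h6 : 16 * C / c * E = 4 * (4 * C * E) / c := by ring
    rw [h6, le_div_iff₀ hc]
    have h7 := mul_le_mul_of_nonneg_left h4 (by positivity : 0 ≤ c ^ 2)
    linarith only [h7, h3]
  rcases hs0.eq_or_lt with hs1 | hs1
  · apply hgoal 0 _ le_rfl
    · rw [zero_pow two_ne_zero, mul_zero]; (clear * - hC; positivity)
    · rw [hm, ← hs1, mul_zero] at hzm; exact hzm
  rcases (hLf0 y₀).eq_or_lt with hL1 | hL1
  · apply hgoal 0 _ le_rfl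
    · rw [zero_pow two_ne_zero, mul_zero]; (clear * - hC; positivity)
    · rw [hm, hL₀, ← hL1, zero_mul] at hzm; exact hzm
  change 0 < L₀ at hL1
  -- bound on the ball around `y₀`
  have hball : ∀ y ∈ ball y₀ (s / 2), y ∈ closedBall z R' ∧ Lf y ≤ 2 * L₀ := by
    intro y hy
    rw [mem_ball, dist_eq_norm] at hy
    have h1 : ‖y - z‖ ≤ ‖y - y₀‖ + ‖y₀ - z‖ := norm_sub_le_norm_sub_add_norm_sub _ _ _
    have h2 : s / 2 ≤ R' - ‖y - z‖ := by
      have : ‖y₀ - z‖ = R' - s := by rw [hs]; ring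
      linarith only [hy, h1]
    have h3 : y ∈ closedBall z R' := by
      rw [mem_closedBall, dist_eq_norm]; linarith only [hs1, hy, h1]
    refine ⟨h3, ?_⟩
    have h4 : Lf y * (R' - ‖y - z‖) ≤ L₀ * s := hmax h3
    have h5 := mul_le_mul_of_nonneg_left h2 (hLf0 y)
    have h6 : Lf y * (s / 2) ≤ L₀ * s := h5.trans h4
    have h7 : Lf y * (s / 2) ≤ (2 * L₀) * (s / 2) := by linarith only [h4, h5]
    exact le_of_mul_le_mul_right h7 (by (clear * - hs1; positivity))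
  -- the mean value inequality at `y₀`
  have key : ∀ ρ : ℝ, 0 < ρ → ρ ≤ s / 2 → 2 * L₀ * ρ < δ → c ^ 2 * (ρ * L₀) ^ 2 ≤ C * E := by
    intro ρ hρ hρs hρδ
    obtain ⟨φ, hφ, hx, hsub, hb⟩ := hbox (u y₀)
    have hyin : ∀ y ∈ ball y₀ ρ, y ∈ closedBall z R' ∧ Lf y ≤ 2 * L₀ := fun y hy =>
      hball y (ball_subset_ball hρs hy)
    have hdisc : ∀ y ∈ ball y₀ ρ, IsDisc 𝒬 u y := fun y hy => hu y (hcb (hyin y hy).1)
    have hconf : ∀ y ∈ ball y₀ ρ, u y ∈ φ.source ∧ φ (u y) ∈ closedBall (φ (u y₀)) δ := by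
      intro y hy
      have hseg : segment ℝ y₀ y ⊆ ball y₀ ρ :=
        (convex_ball y₀ ρ).segment_subset (mem_ball_self hρ) hy
      have hlt : 2 * L₀ * ‖y - y₀‖ < δ := by
        refine lt_of_le_of_lt ?_ hρδ
        rw [mem_ball, dist_eq_norm] at hy
        exact mul_le_mul_of_nonneg_left hy.le (by (clear * - hL1; positivity))
      have := seg_confined hQ hφ hc hsub (fun p hp v => (hb p hp v).1) (u := u) (z₁ := y₀)
        (z₂ := y) (fun w hw => hdisc w (hseg hw)) (L := 2 * L₀) (by (clear * - hL1; positivity))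
        (fun w hw => by
          rw [← hLsq w]
          exact mul_le_mul_of_nonneg_left
            (pow_le_pow_left₀ (hLf0 w) (hyin w (hseg hw)).2 2) hc.le) hx
        (by rw [dist_self, zero_add]; exact hlt)
      exact ⟨this.1, mem_closedBall.2 (this.2.trans hlt.le)⟩
    have hmean := eden_mean hQ hφ hc hC hρ hdisc (fun y hy => (hconf y hy).1)
      (fun y hy v => (hb _ (hconf y hy).2 v).1)
      (fun v => (hb _ (mem_closedBall_self hδ.le) v).2)
    have hsubR : ball y₀ ρ ⊆ ball z R := fun y hy => hcb (hyin y hy).1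
    have hmean2 := hmean.trans (mul_le_mul_right (energy_mono hsubR) (ENNReal.ofReal C))
    have h8 : energy 𝒬 H u (ball z R) = ENNReal.ofReal E := by
      rw [hEdef, ENNReal.ofReal_toReal hEtop]
    rw [h8, ← ENNReal.ofReal_mul hC.le] at hmean2
    have h9 := (ENNReal.ofReal_le_ofReal_iff (by (clear * - hC; positivity))).1 hmean2
    rw [← hLsq y₀] at h9
    have h10 : (1 : ℝ) ≤ π := by linarith only [Real.pi_gt_three]
    have h11 : 0 ≤ ρ ^ 2 * c * (c * L₀ ^ 2) := by (clear * - hρ hc hL1; positivity)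
    have h12 := mul_le_mul_of_nonneg_right h10 h11
    change π * ρ ^ 2 * c * (c * L₀ ^ 2) ≤ C * E at h9
    nlinarith only [h12, h9]
  by_cases hcase : 2 * L₀ * (s / 2) < δ
  · have := key (s / 2) (by (clear * - hs1; positivity)) le_rfl hcase
    apply hgoal (L₀ * s) hzm (by (clear * - hL1 hs1; positivity))
    linarith only [this]
  · exfalso
    push Not at hcase
    have h1 : δ / (4 * L₀) ≤ s / 2 := by
      rw [div_le_iff₀ (by (clear * - hL1; positivity))]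
      linarith only [hcase, hδ]
    have h2 : 2 * L₀ * (δ / (4 * L₀)) < δ := by
      have : 2 * L₀ * (δ / (4 * L₀)) = δ / 2 := by field_simp; norm_num
      rw [this]; linarith only [hδ]
    have h3 := key (δ / (4 * L₀)) (by (clear * - hδ hL1; positivity)) h1 h2
    have h4 : δ / (4 * L₀) * L₀ = δ / 4 := by (clear * - hL1 hδ; field_simp)
    rw [h4] at h3
    rw [lt_div_iff₀ (by positivity)] at hE'
    nlinarith only [hE', h3]

end Vale.Agent.P278.Full.T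
end
end

section

section

open Set Topology Filter Metric MeasureTheory
open scoped ContDiff Manifold ComplexConjugate ENNReal Real

set_option linter.all false

namespace Vale.Agent.P278.Full.T

variable {X : Type*} [TopologicalSpace X] {A B : Type*} [NormedAddCommGroup A] [NormedSpace ℂ A]
  [NormedAddCommGroup B] [NormedSpace ℂ B] {𝒬 : Set (OpenPartialHomeomorph X (A × B))}
  {H : OpenPartialHomeomorph X (A × B) → A × B → (A × B) →ₗ⋆[ℂ] (A × B) →ₗ[ℂ] ℂ}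
  [FiniteDimensional ℂ A] [FiniteDimensional ℂ B]

/-- Decay of the energy density at a puncture. -/
theorem eden_decay [T2Space X] (hQ : KAtlas 𝒬 H) {u : ℂ → X} {p : ℂ} {r : ℝ}
    (hr : 0 < r) (hu : ∀ y ∈ ball p r, y ≠ p → IsDisc 𝒬 u y)
    (hE : energy 𝒬 H u (ball p r \ {p}) < ⊤) {η : ℝ} (hη : 0 < η) :
    ∃ s₀ > 0, s₀ ≤ r / 2 ∧ ∀ y, y ≠ p → ‖y - p‖ ≤ s₀ → eden 𝒬 H u y * ‖y - p‖ ^ 2 ≤ η := by
  obtain ⟨ε₀, hε₀, C, hC, hreg⟩ := eps_regularity hQ
  set ε : ℝ := min ε₀ (η / C) with hε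
  have hε0 : 0 < ε := lt_min hε₀ (by positivity)
  obtain ⟨d, hd, hsmall⟩ := exists_pos_setLIntegral_lt_of_measure_lt
    (μ := volume.restrict (ball p r \ {p})) (f := fun y => ENNReal.ofReal (eden 𝒬 H u y))
    hE.ne (ε := ENNReal.ofReal ε) (by rw [ne_eq, ENNReal.ofReal_eq_zero, not_le]; exact hε0)
  -- a small ball
  have hball : ∃ t > 0, volume (ball p t) < d := by
    have h1 : Tendsto (fun t : ℝ => volume (ball p t)) (𝓝 0) (𝓝 0) := by
      have h2 : (fun t : ℝ => volume (ball p t)) =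
          fun t : ℝ => ENNReal.ofReal t ^ 2 * (NNReal.pi : ℝ≥0∞) := by
        funext t; exact Complex.volume_ball p t
      rw [h2]
      have h3 : Continuous fun t : ℝ => ENNReal.ofReal t ^ 2 * (NNReal.pi : ℝ≥0∞) :=
        (ENNReal.continuous_mul_const ENNReal.coe_ne_top).comp
          ((ENNReal.continuous_pow 2).comp ENNReal.continuous_ofReal)
      have h4 := h3.tendsto 0
      simpa only [ENNReal.ofReal_zero, ne_eq, OfNat.ofNat_ne_zero, not_false_eq_true, zero_pow, zero_mul] using h4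
    have h5 : ∀ᶠ t : ℝ in 𝓝 0, volume (ball p t) < d := h1.eventually (gt_mem_nhds hd)
    obtain ⟨t, ht, ht'⟩ := ((h5.filter_mono nhdsWithin_le_nhds).and
      (self_mem_nhdsWithin : Ioi (0:ℝ) ∈ 𝓝[>] 0)).exists
    exact ⟨t, ht', ht⟩
  obtain ⟨t, ht, htd⟩ := hball
  refine ⟨min (t / 2) (r / 2), lt_min (by positivity) (by positivity), min_le_right _ _, ?_⟩
  intro y hyp hy
  set s : ℝ := ‖y - p‖ with hs
  have hs0 : 0 < s := norm_pos_iff.2 (sub_ne_zero.2 hyp)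
  have hst : s ≤ t / 2 := hy.trans (min_le_left _ _)
  have hsr : s ≤ r / 2 := hy.trans (min_le_right _ _)
  have hdist : ∀ w ∈ ball y s, w ≠ p ∧ ‖w - p‖ < 2 * s := by
    intro w hw
    rw [mem_ball, dist_eq_norm] at hw
    constructor
    · rintro rfl
      rw [norm_sub_rev] at hw
      exact lt_irrefl _ hw
    · have := norm_sub_le_norm_sub_add_norm_sub w y p
      linarith only [hw, this]
  have hin : ∀ w ∈ ball y s, IsDisc 𝒬 u w := by
    intro w hw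
    obtain ⟨h1, h2⟩ := hdist w hw
    apply hu w _ h1
    rw [mem_ball, dist_eq_norm]
    linarith only [hsr, h2]
  have hEn : energy 𝒬 H u (ball y s) < ENNReal.ofReal ε := by
    refine lt_of_le_of_lt ?_ (hsmall (ball p t) ?_)
    · rw [energy, Measure.restrict_restrict measurableSet_ball]
      refine lintegral_mono_set ?_
      intro w hw
      obtain ⟨h1, h2⟩ := hdist w hw
      refine ⟨?_, ?_, h1⟩
      · rw [mem_ball, dist_eq_norm]; linarith only [hst, h2]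
      · rw [mem_ball, dist_eq_norm]; linarith only [hsr, h2]
    · exact lt_of_le_of_lt (Measure.restrict_apply_le _ _) htd
  have hE0 : energy 𝒬 H u (ball y s) < ENNReal.ofReal ε₀ :=
    hEn.trans_le (ENNReal.ofReal_le_ofReal (min_le_left _ _))
  have h6 := hreg u y s hs0 hin hE0
  rw [le_div_iff₀ (by (clear * - hs0; positivity))] at h6
  have h7 : (energy 𝒬 H u (ball y s)).toReal ≤ η / C := by
    have := (ENNReal.lt_ofReal_iff_toReal_lt hEn.ne_top).1 hEn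
    exact this.le.trans (min_le_right _ _)
  calc eden 𝒬 H u y * s ^ 2 ≤ C * (energy 𝒬 H u (ball y s)).toReal := h6
    _ ≤ C * (η / C) := mul_le_mul_of_nonneg_left h7 hC.le
    _ = η := by field_simp

/-- **Lemma R** (removable singularities). -/
theorem removable [T2Space X] (hQ : KAtlas 𝒬 H) {u : ℂ → X} {p : ℂ} {r : ℝ}
    (hr : 0 < r) (hu : ∀ y ∈ ball p r, y ≠ p → IsDisc 𝒬 u y)
    (hE : energy 𝒬 H u (ball p r \ {p}) < ⊤) :
    ∃ x₀ : X, ∀ y ∈ ball p r, IsDisc 𝒬 (Function.update u p x₀) y := by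
  haveI := FiniteDimensional.complete ℂ A
  haveI := FiniteDimensional.complete ℂ B
  obtain ⟨δ, hδ, c, hc, C, hC, hbox⟩ := exists_uniform_box hQ
  set L : ℝ := δ / 64 with hL
  have hL0 : 0 < L := by positivity
  obtain ⟨s₀, hs₀, hs₀r, hdec⟩ := eden_decay hQ hr hu hE (η := c * L ^ 2) (by positivity)
  set x₀ : ℝ := Real.log s₀ with hx₀
  have hexp₀ : Real.exp x₀ = s₀ := Real.exp_log hs₀
  set v : ℂ → X := fun ζ => u (p + Complex.exp ζ) with hv
  have hnorm : ∀ ζ : ℂ, ‖p + Complex.exp ζ - p‖ = Real.exp ζ.re := by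
    intro ζ
    rw [add_sub_cancel_left, Complex.norm_exp]
  have hne : ∀ ζ : ℂ, p + Complex.exp ζ ≠ p := by
    intro ζ h
    have := Complex.exp_ne_zero ζ
    apply this
    simpa using h
  have hle : ∀ ζ : ℂ, ζ.re ≤ x₀ → ‖p + Complex.exp ζ - p‖ ≤ s₀ := by
    intro ζ h
    rw [hnorm, ← hexp₀]
    exact Real.exp_le_exp.2 h
  have hdu : ∀ y, y ≠ p → ‖y - p‖ ≤ s₀ → IsDisc 𝒬 u y := by
    intro y h1 h2
    apply hu y _ h1
    rw [mem_ball, dist_eq_norm]; linarith only [hs₀, hs₀r, h2]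
  have hgan : ∀ ζ : ℂ, AnalyticAt ℂ (fun ζ => p + Complex.exp ζ) ζ := fun ζ =>
    analyticAt_const.add (analyticAt_cexp)
  have hvd : ∀ ζ : ℂ, ζ.re ≤ x₀ → IsDisc 𝒬 v ζ := fun ζ h =>
    (hdu _ (hne ζ) (hle ζ h)).comp_map (g := fun ζ => p + Complex.exp ζ) (hgan ζ)
  have hve : ∀ ζ : ℂ, ζ.re ≤ x₀ → eden 𝒬 H v ζ ≤ c * L ^ 2 := by
    intro ζ h
    have h1 := eden_comp_map hQ (u := u) (g := fun ζ => p + Complex.exp ζ) (z := ζ)
      (hdu _ (hne ζ) (hle ζ h)) (hgan ζ)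
    have h2 : deriv (fun ζ => p + Complex.exp ζ) ζ = Complex.exp ζ := by
      rw [deriv_const_add, Complex.deriv_exp]
    rw [h2] at h1
    have h3 := hdec _ (hne ζ) (hle ζ h)
    rw [hnorm, ← Complex.norm_exp, mul_comm] at h3
    exact h1.le.trans h3
  obtain ⟨φ, hφ, hx, hsub, hb⟩ := hbox (v x₀)
  set b : A × B := φ (v x₀) with hbdef
  have hlow : ∀ q ∈ closedBall b δ, ∀ w, c * ‖w‖ ^ 2 ≤ (H φ q w w).re := fun q hq w =>
    (hb q hq w).1
  have seg : ∀ ζ₁ ζ₂ : ℂ, ζ₁.re ≤ x₀ → ζ₂.re ≤ x₀ → v ζ₁ ∈ φ.source →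
      dist (φ (v ζ₁)) b + L * ‖ζ₂ - ζ₁‖ < δ →
      v ζ₂ ∈ φ.source ∧ dist (φ (v ζ₂)) (φ (v ζ₁)) ≤ L * ‖ζ₂ - ζ₁‖ := by
    intro ζ₁ ζ₂ h1 h2 h3 h4
    have hconv : Convex ℝ {ζ : ℂ | ζ.re ≤ x₀} := convex_halfSpace_re_le x₀
    have hseg : segment ℝ ζ₁ ζ₂ ⊆ {ζ : ℂ | ζ.re ≤ x₀} := hconv.segment_subset h1 h2
    exact seg_confined hQ hφ hc hsub hlow (fun w hw => hvd w (hseg hw)) hL0.le
      (fun w hw => hve w (hseg hw)) h3 h4
  have hLδ : 64 * L = δ := by rw [hL]; ring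
  have hpi := Real.pi_lt_d2
  -- points of the punctured disc
  have hpt : ∀ y, y ≠ p → p + Complex.exp (Complex.log (y - p)) = y := by
    intro y hy
    rw [Complex.exp_log (sub_ne_zero.2 hy)]
    ring
  have hvy : ∀ y, y ≠ p → v (Complex.log (y - p)) = u y := by
    intro y hy
    show u (p + Complex.exp (Complex.log (y - p))) = u y
    rw [hpt y hy]
  have himle : ∀ w : ℂ, |(Complex.log w).im| ≤ π := by
    intro w
    rw [Complex.log_im]
    exact Complex.abs_arg_le_pi w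
  have claim : ∀ n : ℕ, ∀ ζ : ℂ, x₀ - n ≤ ζ.re → ζ.re ≤ x₀ → |ζ.im| ≤ π →
      v ζ ∈ φ.source ∧ dist (φ (v ζ)) b ≤ δ / 2 := by
    intro n
    induction n with
    | zero =>
      intro ζ h1 h2 h3
      have hre : ζ.re = x₀ := le_antisymm h2 (by simpa only [CharP.cast_eq_zero, sub_zero] using h1)
      have hn : ‖ζ - x₀‖ ≤ π := by
        have : ζ - x₀ = ζ.im * Complex.I := by
          apply Complex.ext <;> simp [hre]
        rw [this]
        simpa only [Complex.norm_mul, Complex.norm_real, Real.norm_eq_abs, Complex.norm_I, mul_one, ge_iff_le] using     h3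
      have h4 : L * ‖ζ - x₀‖ ≤ L * π := mul_le_mul_of_nonneg_left hn hL0.le
      have h5 := seg x₀ ζ (by simp) h2 hx (by
        rw [← hbdef, dist_self, zero_add]
        nlinarith only [hL, h4, hδ, hpi])
      rw [← hbdef] at h5
      exact ⟨h5.1, by nlinarith only [hL, h4, h5, hδ, hpi]⟩
    | succ n ih =>
      set x : ℝ := x₀ - n with hxdef
      have hxx : x ≤ x₀ := by rw [hxdef]; have : (0:ℝ) ≤ n := Nat.cast_nonneg n; linarith only []
      set t : ℝ := Real.exp x with ht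
      have ht0 : 0 < t := Real.exp_pos x
      have hts : t ≤ s₀ := by rw [← hexp₀]; exact Real.exp_le_exp.2 hxx
      have hlog : ∀ y, y ≠ p → (Complex.log (y - p)).re = Real.log ‖y - p‖ := fun y _ =>
        Complex.log_re _
      have hann : ∀ y, t ≤ ‖y - p‖ → ‖y - p‖ ≤ s₀ → y ≠ p ∧ x ≤ (Complex.log (y - p)).re ∧
          (Complex.log (y - p)).re ≤ x₀ := by
        intro y h1 h2
        have hyp : 0 < ‖y - p‖ := ht0.trans_le h1
        have hyp' : y ≠ p := by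
          rintro rfl
          simp at hyp
        refine ⟨hyp', ?_, ?_⟩
        · rw [hlog y hyp', ← Real.log_exp x]
          exact Real.log_le_log ht0 h1
        · rw [hlog y hyp', hx₀]
          exact Real.log_le_log hyp h2
      have hin : ∀ y, t ≤ ‖y - p‖ → ‖y - p‖ ≤ s₀ → u y ∈ φ.source ∧
          dist (φ (u y)) b ≤ δ / 2 := by
        intro y h1 h2
        obtain ⟨h3, h4, h5⟩ := hann y h1 h2
        have := ih (Complex.log (y - p)) h4 h5 (himle _)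
        rwa [hvy y h3] at this
      have hdiff : ∀ y, t ≤ ‖y - p‖ → ‖y - p‖ ≤ s₀ → DifferentiableAt ℂ (fun y => φ (u y)) y := by
        intro y h1 h2
        obtain ⟨h3, -, -⟩ := hann y h1 h2
        exact ((hdu y h3 h2).chartT hQ hφ (hin y h1 h2).1).2.differentiableAt
      -- two points of a circle
      have hcirc : ∀ y y₁, t ≤ ‖y - p‖ → ‖y - p‖ ≤ s₀ → ‖y₁ - p‖ = ‖y - p‖ →
          ‖φ (u y) - φ (u y₁)‖ ≤ 7 * L := by
        intro y y₁ h1 h2 h3
        obtain ⟨k1, k2, k3⟩ := hann y h1 h2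
        obtain ⟨l1, l2, l3⟩ := hann y₁ (h3 ▸ h1) (h3 ▸ h2)
        obtain ⟨i1, i2⟩ := hin y₁ (h3 ▸ h1) (h3 ▸ h2)
        set ζ := Complex.log (y - p)
        set ζ₁ := Complex.log (y₁ - p)
        have hre : ζ.re = ζ₁.re := by
          rw [hlog y k1, hlog y₁ l1, h3]
        have hn : ‖ζ - ζ₁‖ ≤ 2 * π := by
          have : ζ - ζ₁ = ((ζ.im - ζ₁.im : ℝ) : ℂ) * Complex.I := by
            apply Complex.ext <;> simp [hre]
          rw [this, norm_mul, Complex.norm_I, mul_one, Complex.norm_real, Real.norm_eq_abs]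
          have a1 := abs_le.1 (himle (y - p))
          have a2 := abs_le.1 (himle (y₁ - p))
          rw [abs_le]
          constructor <;> linarith only [a1, a2]
        have h4 : L * ‖ζ - ζ₁‖ ≤ L * (2 * π) := mul_le_mul_of_nonneg_left hn hL0.le
        have h5 := seg ζ₁ ζ l3 k3 (by rw [hvy y₁ l1]; exact i1) (by
          rw [hvy y₁ l1]
          linarith only [mul_pos (sub_pos.2 hδ) (sub_pos.2 hpi), mul_eq_zero_of_left (sub_eq_zero.2 hL) (3.15 - (π)), hδ, h4, i2, hL])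
        rw [hvy y k1, hvy y₁ l1, dist_eq_norm] at h5
        nlinarith only [h4, h5, hδ, hpi, hL]
      have havg : Real.circleAverage (fun y => φ (u y)) p s₀ =
          Real.circleAverage (fun y => φ (u y)) p t := circleAverage_annulus ht0 hts hdiff
      have hsph : ∀ ρ, t ≤ ρ → ρ ≤ s₀ → ∀ y₁, ‖y₁ - p‖ = ρ →
          ‖Real.circleAverage (fun y => φ (u y)) p ρ - φ (u y₁)‖ ≤ 7 * L := by
        intro ρ h1 h2 y₁ h3
        have hρ : |ρ| = ρ := abs_of_pos (ht0.trans_le h1)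
        apply norm_circleAverage_sub_le
        · intro y hy
          rw [hρ, mem_sphere, dist_eq_norm] at hy
          exact (hdiff y (hy ▸ h1) (hy ▸ h2)).continuousAt.continuousWithinAt
        · intro y hy
          rw [hρ, mem_sphere, dist_eq_norm] at hy
          exact hcirc y y₁ (hy ▸ h1) (hy ▸ h2) (h3.trans hy.symm)
      have hbase : ‖Real.circleAverage (fun y => φ (u y)) p s₀ - b‖ ≤ 7 * L :=
        hsph s₀ hts le_rfl (p + Complex.exp x₀) (by rw [hnorm]; simpa using hexp₀)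
      have himp : ∀ ζ : ℂ, ζ.re = x → v ζ ∈ φ.source ∧ dist (φ (v ζ)) b ≤ δ / 4 := by
        intro ζ h1
        have hnt : ‖p + Complex.exp ζ - p‖ = t := by rw [hnorm, h1]
        refine ⟨(hin _ hnt.ge (hnt.le.trans hts)).1, ?_⟩
        have h2 := hsph t le_rfl hts (p + Complex.exp ζ) hnt
        rw [← havg] at h2
        have h3 := dist_triangle_left (φ (v ζ)) b
          (Real.circleAverage (fun y => φ (u y)) p s₀)
        rw [dist_eq_norm (Real.circleAverage (fun y => φ (u y)) p s₀) (φ (v ζ)),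
          dist_eq_norm (Real.circleAverage (fun y => φ (u y)) p s₀) b] at h3
        change ‖Real.circleAverage (fun y => φ (u y)) p s₀ - φ (v ζ)‖ ≤ 7 * L at h2
        linarith only [hL, hL0, hbase, h3, h2]
      intro ζ h1 h2 h3
      by_cases hcase : x ≤ ζ.re
      · exact ih ζ hcase h2 h3
      · push Not at hcase
        obtain ⟨k1, k2⟩ := himp (x + ζ.im * Complex.I) (by simp)
        have hn : ‖ζ - (x + ζ.im * Complex.I)‖ ≤ 1 := by
          have : ζ - (x + ζ.im * Complex.I) = ((ζ.re - x : ℝ) : ℂ) := by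
            apply Complex.ext <;> simp
          rw [this, Complex.norm_real, Real.norm_eq_abs, abs_of_neg (by linarith only [hcase])]
          push_cast at h1
          linarith only [h1]
        have h4 : L * ‖ζ - (x + ζ.im * Complex.I)‖ ≤ L * 1 := mul_le_mul_of_nonneg_left hn hL0.le
        have h5 := seg (x + ζ.im * Complex.I) ζ (by simpa only [Complex.add_re, Complex.ofReal_re, Complex.mul_re, Complex.I_re, mul_zero, Complex.ofReal_im,     Complex.I_im, mul_one, sub_self, add_zero] using hxx) h2 k1 (by linarith only [hL, hL0, k2, h4])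
        refine ⟨h5.1, ?_⟩
        have h6 := dist_triangle (φ (v ζ)) (φ (v (x + ζ.im * Complex.I))) b
        linarith only [hL, hL0, k2, h4, h5, h6]
  -- the whole punctured disc is mapped into the chart
  have hall : ∀ y, y ≠ p → ‖y - p‖ ≤ s₀ → u y ∈ φ.source ∧ φ (u y) ∈ closedBall b (δ / 2) := by
    intro y h1 h2
    have hyp : 0 < ‖y - p‖ := norm_pos_iff.2 (sub_ne_zero.2 h1)
    have h3 : (Complex.log (y - p)).re ≤ x₀ := by
      rw [Complex.log_re, hx₀]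
      exact Real.log_le_log hyp h2
    obtain ⟨n, hn⟩ := exists_nat_ge (x₀ - (Complex.log (y - p)).re)
    have := claim n (Complex.log (y - p)) (by linarith only [hn]) h3 (himle _)
    rwa [hvy y h1] at this
  set f : ℂ → A × B := fun y => φ (u y) with hf
  have hfd : DifferentiableOn ℂ f (ball p s₀ \ {p}) := by
    intro y hy
    have h1 : ‖y - p‖ ≤ s₀ := by
      have := hy.1
      rw [mem_ball, dist_eq_norm] at this
      exact this.le
    exact ((hdu y hy.2 h1).chartT hQ hφ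
      (hall y hy.2 h1).1).2.differentiableAt.differentiableWithinAt
  have hbdd : BddAbove (norm ∘ f '' (ball p s₀ \ {p})) := by
    refine ⟨‖b‖ + δ / 2, ?_⟩
    rintro _ ⟨y, hy, rfl⟩
    have h1 : ‖y - p‖ ≤ s₀ := by
      have := hy.1
      rw [mem_ball, dist_eq_norm] at this
      exact this.le
    have h2 := (hall y hy.2 h1).2
    rw [mem_closedBall, dist_eq_norm] at h2
    have h3 : ‖f y‖ ≤ ‖b‖ + ‖f y - b‖ := by
      have := norm_add_le b (f y - b)
      rwa [add_sub_cancel] at this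
    show ‖f y‖ ≤ _
    linarith only [h2, h3]
  have hrem := Complex.differentiableOn_update_limUnder_of_bddAbove (ball_mem_nhds p hs₀) hfd hbdd
  set f₁ : ℂ → A × B := Function.update f p (limUnder (𝓝[≠] p) f) with hf₁
  have hf₁an : AnalyticAt ℂ f₁ p := hrem.analyticAt (ball_mem_nhds p hs₀)
  have hf₁ne : ∀ y, y ≠ p → f₁ y = f y := fun y hy => Function.update_of_ne hy _ _
  have hf₁p : f₁ p ∈ closedBall b (δ / 2) := by
    have h1 : Tendsto f₁ (𝓝[≠] p) (𝓝 (f₁ p)) :=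
      hf₁an.continuousAt.tendsto.mono_left nhdsWithin_le_nhds
    refine isClosed_closedBall.mem_of_tendsto h1 ?_
    filter_upwards [mem_nhdsWithin_of_mem_nhds (ball_mem_nhds p hs₀), self_mem_nhdsWithin]
      with y hy hy'
    rw [hf₁ne y hy']
    rw [mem_ball, dist_eq_norm] at hy
    exact (hall y hy' hy.le).2
  have hf₁in : ∀ y ∈ ball p s₀, f₁ y ∈ closedBall b δ := by
    intro y hy
    apply closedBall_subset_closedBall (by linarith only [hδ] : δ / 2 ≤ δ)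
    rcases eq_or_ne y p with rfl | h
    · exact hf₁p
    · rw [hf₁ne y h]
      rw [mem_ball, dist_eq_norm] at hy
      exact (hall y h hy.le).2
  refine ⟨φ.symm (f₁ p), ?_⟩
  have heq : ∀ y ∈ ball p s₀, Function.update u p (φ.symm (f₁ p)) y = φ.symm (f₁ y) := by
    intro y hy
    rcases eq_or_ne y p with rfl | h
    · rw [Function.update_self]
    · rw [Function.update_of_ne h, hf₁ne y h]
      rw [mem_ball, dist_eq_norm] at hy
      exact (φ.left_inv (hall y h hy.le).1).symm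
  intro y hy
  rcases eq_or_ne y p with rfl | h
  · refine ⟨φ, hφ, ?_, ?_⟩
    · filter_upwards [ball_mem_nhds y hs₀] with w hw
      rw [heq w hw]
      exact φ.map_target (hsub (hf₁in w hw))
    · refine hf₁an.congr ?_
      filter_upwards [ball_mem_nhds y hs₀] with w hw
      rw [heq w hw, φ.right_inv (hsub (hf₁in w hw))]
  · refine (hu y hy h).congr ?_
    filter_upwards [isOpen_compl_singleton.mem_nhds (show y ∈ ({p} : Set ℂ)ᶜ from h)] with w hw
    rw [Function.update_of_ne hw]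

end Vale.Agent.P278.Full.T
end
end

section

section

open Set Topology Filter Metric MeasureTheory
open scoped ContDiff Manifold ComplexConjugate ENNReal

set_option linter.all false

namespace Vale.Agent.P278.Full.T

section chart

variable {X : Type*} [TopologicalSpace X] {A B : Type*} [NormedAddCommGroup A] [NormedSpace ℂ A]
  [NormedAddCommGroup B] [NormedSpace ℂ B]
  {𝒬 : Set (OpenPartialHomeomorph X (A × B))} {Ψ Ψ' : ℂ × ℂ → X} {p : ℂ × ℂ}
  [CompleteSpace A] [CompleteSpace B]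
  {H : OpenPartialHomeomorph X (A × B) → A × B → (A × B) →ₗ⋆[ℂ] (A × B) →ₗ[ℂ] ℂ}

/-- An F-map has product form in every chart. -/
theorem _root_.Vale.Agent.P278.Full.IsF.chartT (K : KAtlas 𝒬 H) (h : IsF 𝒬 Ψ p) {ψ : OpenPartialHomeomorph X (A × B)}
    (hψ : ψ ∈ 𝒬) (hp : Ψ p ∈ ψ.source) :
    ∃ (F : ℂ → A) (G : ℂ → B), AnalyticAt ℂ F p.1 ∧ AnalyticAt ℂ G p.2 ∧
      ∀ᶠ q in 𝓝 p, Ψ q ∈ ψ.source ∧ ψ (Ψ q) = (F q.1, G q.2) := by
  obtain ⟨hs, ha⟩ := h.analyticAt_of_memT K hψ hp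
  have hΨ := h
  obtain ⟨φ, hφ, f, g, hf, hg, he⟩ := id h
  -- local product structure near every point close to `p`
  have hloc : ∀ q, IsF 𝒬 Ψ q → (Ψ q ∈ φ.source) → (Ψ q ∈ ψ.source) →
      (∀ᶠ q' in 𝓝 q, φ (Ψ q') = (f q'.1, g q'.2)) →
      (∀ᶠ w in 𝓝 q.2, (ψ (Ψ (q.1, w))).1 = (ψ (Ψ q)).1) ∧
      (∀ᶠ z in 𝓝 q.1, (ψ (Ψ (z, q.2))).2 = (ψ (Ψ q)).2) := by
    intro q hq h1 h2 h3
    have hc := hq.continuousAt
    have t1 := K.trans' φ hφ ψ hψ _ h1 h2
    have t2 := K.trans φ hφ ψ hψ _ h1 h2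
    have e0 : φ (Ψ q) = (f q.1, g q.2) := h3.self_of_nhds
    have c1 : Tendsto (fun w : ℂ => (q.1, w)) (𝓝 q.2) (𝓝 q) :=
      (Continuous.prodMk_right q.1).tendsto q.2
    have c2 : Tendsto (fun z : ℂ => (z, q.2)) (𝓝 q.1) (𝓝 q) :=
      (Continuous.prodMk_left q.2).tendsto q.1
    constructor
    · filter_upwards [(hc.tendsto.comp c1).eventually t1, c1.eventually h3] with w hw hw'
      apply hw
      rw [Function.comp_apply, hw', e0]
    · filter_upwards [(hc.tendsto.comp c2).eventually t2, c2.eventually h3] with z hz hz'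
      apply hz
      rw [Function.comp_apply, hz', e0]
  have hev : ∀ᶠ q in 𝓝 p, IsF 𝒬 Ψ q ∧ Ψ q ∈ φ.source ∧ Ψ q ∈ ψ.source ∧
      (∀ᶠ q' in 𝓝 q, φ (Ψ q') = (f q'.1, g q'.2)) := by
    filter_upwards [h.eventually, he, hs, he.eventually_nhds] with q h1 h2 h3 h4
    exact ⟨h1, h2.1, h3, h4.mono fun q' hq' => hq'.2⟩
  obtain ⟨ε, hε, hball⟩ := Metric.eventually_nhds_iff_ball.1 hev
  have hmem : ∀ z ∈ ball p.1 ε, ∀ w ∈ ball p.2 ε, (z, w) ∈ ball p ε := by
    intro z hz w hw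
    rw [mem_ball, Prod.dist_eq]
    exact max_lt hz hw
  have hconst1 : ∀ z ∈ ball p.1 ε, ∀ w ∈ ball p.2 ε,
      (ψ (Ψ (z, w))).1 = (ψ (Ψ (z, p.2))).1 := by
    intro z hz w hw
    refine const_of_loc (f := fun w => (ψ (Ψ (z, w))).1) (convex_ball p.2 ε).isPreconnected
      ?_ hw (mem_ball_self hε)
    intro w' hw'
    obtain ⟨h1, h2, h3, h4⟩ := hball _ (hmem z hz w' hw')
    exact (hloc _ h1 h2 h3 h4).1
  have hconst2 : ∀ z ∈ ball p.1 ε, ∀ w ∈ ball p.2 ε,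
      (ψ (Ψ (z, w))).2 = (ψ (Ψ (p.1, w))).2 := by
    intro z hz w hw
    refine const_of_loc (f := fun z => (ψ (Ψ (z, w))).2) (convex_ball p.1 ε).isPreconnected
      ?_ hz (mem_ball_self hε)
    intro z' hz'
    obtain ⟨h1, h2, h3, h4⟩ := hball _ (hmem z' hz' w hw)
    exact (hloc _ h1 h2 h3 h4).2
  refine ⟨fun z => (ψ (Ψ (z, p.2))).1, fun w => (ψ (Ψ (p.1, w))).2, ?_, ?_, ?_⟩
  · have h1 : AnalyticAt ℂ (fun z : ℂ => (z, p.2)) p.1 := analyticAt_id.prod analyticAt_const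
    have h2 : AnalyticAt ℂ (fun z : ℂ => ψ (Ψ (z, p.2))) p.1 :=
      AnalyticAt.comp' (g := fun q => ψ (Ψ q)) (f := fun z : ℂ => (z, p.2)) ha h1
    exact analyticAt_fst.comp' h2
  · have h1 : AnalyticAt ℂ (fun w : ℂ => (p.1, w)) p.2 := analyticAt_const.prod analyticAt_id
    have h2 : AnalyticAt ℂ (fun w : ℂ => ψ (Ψ (p.1, w))) p.2 :=
      AnalyticAt.comp' (g := fun q => ψ (Ψ q)) (f := fun w : ℂ => (p.1, w)) ha h1
    exact analyticAt_snd.comp' h2
  · filter_upwards [ball_mem_nhds p hε] with q hq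
    have hq' := hq
    rw [mem_ball, Prod.dist_eq, max_lt_iff] at hq'
    refine ⟨(hball q hq).2.2.1, ?_⟩
    exact Prod.ext (hconst1 q.1 hq'.1 q.2 hq'.2) (hconst2 q.1 hq'.1 q.2 hq'.2)

end chart

section main

variable {X : Type*} [TopologicalSpace X] [T2Space X] {A B : Type*}
  [NormedAddCommGroup A] [NormedSpace ℂ A] [NormedAddCommGroup B] [NormedSpace ℂ B]
  {𝒬 : Set (OpenPartialHomeomorph X (A × B))}
  [FiniteDimensional ℂ A] [FiniteDimensional ℂ B]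
  {H : OpenPartialHomeomorph X (A × B) → A × B → (A × B) →ₗ⋆[ℂ] (A × B) →ₗ[ℂ] ℂ}

/-- Existence of an annulus on which the diagonal disc lies in one box, from the energy bound
(P) and the regularity (E). -/
theorem tt2_gen (K : KAtlas 𝒬 H) {θ : ℝ} (hθ : 0 < θ) (hθ' : θ ≤ 1 / 2)
    {Ψ : ℂ × ℂ → X}
    (hΨ : FOn 𝒬 Ψ touchBall)
    (hP : ∃ s₁ > 0, ∃ A₀ : ℝ≥0∞, A₀ ≠ ⊤ ∧ ∀ s : ℝ, 0 < s → s < s₁ →
      energy 𝒬 H (fun z => Ψ (z, z - s)) (ball 0 (θ * √s)) ≤ A₀) :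
    ∃ s r : ℝ, 0 < s ∧ 0 < r ∧ 10 ^ 4 * s ≤ r ∧ 100 * r ≤ √s / 2 ∧ ∃ Ψ₁ : ℂ × ℂ → X,
      FOn 𝒬 Ψ₁ (ann (r / 25) (25 * r) ×ˢ ann (r / 25) (25 * r)) ∧
      ∀ z ∈ ann (r / 25) (25 * r), z - s ∈ ann (r / 25) (25 * r) →
        Ψ₁ =ᶠ[𝓝 (z, z - s)] Ψ := by
  haveI := FiniteDimensional.complete ℂ A
  haveI := FiniteDimensional.complete ℂ B
  obtain ⟨δ, hδ, c, hc, C₁, hC₁, hbox⟩ := exists_uniform_box K
  obtain ⟨ε₀, hε₀, CE, hCE, hE'⟩ := eps_regularity K
  have hE : ∀ (u : ℂ → X) (z : ℂ) (R : ℝ), 0 < R →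
      (∀ y ∈ ball z R, IsDisc 𝒬 u y) → energy 𝒬 H u (ball z R) < ENNReal.ofReal ε₀ →
      eden 𝒬 H u z * R ^ 2 ≤ CE * (energy 𝒬 H u (ball z R)).toReal := by
    intro u z R hR hu hen
    have h1 := hE' u z R hR hu hen
    rwa [le_div_iff₀ (by positivity)] at h1
  obtain ⟨s₁, hs₁, A₀, hA₀, hP⟩ := hP
  set Λ : ℝ := Real.log 2500 + 2 * Real.pi with hΛ
  have hΛ0 : 0 < Λ := by
    have := Real.log_nonneg (show (1 : ℝ) ≤ 2500 by norm_num)
    have := Real.pi_pos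
    positivity
  set ε₁ : ℝ := min ε₀ (c * (δ / 2) ^ 2 / (4 * CE * Λ ^ 2)) with hε₁
  have hε₁0 : 0 < ε₁ := lt_min hε₀ (by (clear * - hc hδ hCE; positivity))
  obtain ⟨s₂, hs₂, hann⟩ := exists_small_annulus hA₀ hε₁0 hθ
  set s : ℝ := min (min s₁ s₂) (1 / 16) / 2 with hs
  have hs0 : 0 < s := by
    have : 0 < min (min s₁ s₂) (1 / 16) := lt_min (lt_min hs₁ hs₂) (by norm_num)
    (clear * - hs₁ hs₂; positivity)
  have hsm : min (min s₁ s₂) (1 / 16) = 2 * s := by rw [hs]; ring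
  have h1 : 2 * s ≤ s₁ := hsm ▸ (min_le_left _ _).trans (min_le_left _ _)
  have h2 : 2 * s ≤ s₂ := hsm ▸ (min_le_left _ _).trans (min_le_right _ _)
  have h3 : 2 * s ≤ 1 / 16 := hsm ▸ min_le_right _ _
  set u : ℂ → X := fun z => Ψ (z, z - s) with hu
  obtain ⟨r, hr0, hr1, hr2', hr3⟩ := hann s hs0 (by linarith only [hs0, h2]) _ (hP s hs0 (by linarith only [hs0, h1]))
  have hsq0 : 0 < √s := Real.sqrt_pos.2 hs0
  have hr2 : 100 * r ≤ √s / 2 := by nlinarith only [hr2', hθ, hθ', hr0]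
  have hdisc : ∀ z : ℂ, ‖z‖ < 100 * r → IsDisc 𝒬 u z := by
    intro z hz
    apply IsF.diag
    apply hΨ
    exact diag_mem_ball hs0 (by linarith only [h3]) (by linarith only [hs0, hr1, hr2, hz])
  -- the energy density
  have heden : ∀ z : ℂ, r / 50 < ‖z‖ → ‖z‖ < 50 * r →
      eden 𝒬 H u z * ‖z‖ ^ 2 ≤ (√(4 * CE * ε₁)) ^ 2 := by
    intro z hz1 hz2
    have hz0 : 0 < ‖z‖ := lt_trans (by (clear * - hr0; positivity)) hz1
    have hsub : ball z (‖z‖ / 2) ⊆ ann (r / 100) (100 * r) := by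
      intro y hy
      rw [mem_ball, dist_eq_norm] at hy
      have h4 := norm_sub_norm_le z y
      have h5 := norm_sub_norm_le y z
      rw [norm_sub_rev] at h4
      constructor <;> linarith only [hs0, hr1, hz2, hy, h5, hz1, h4]
    have h6 : energy 𝒬 H u (ball z (‖z‖ / 2)) < ENNReal.ofReal ε₁ :=
      lt_of_le_of_lt (lintegral_mono_set hsub) hr3
    have h7 := hE u z (‖z‖ / 2) (by (clear * - hz0; positivity))
      (fun y hy => hdisc y (hsub hy).2)
      (lt_of_lt_of_le h6 (ENNReal.ofReal_le_ofReal (min_le_left _ _)))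
    have h8 : (energy 𝒬 H u (ball z (‖z‖ / 2))).toReal ≤ ε₁ := by
      rw [← ENNReal.toReal_ofReal hε₁0.le]
      exact ENNReal.toReal_mono ENNReal.ofReal_ne_top h6.le
    rw [Real.sq_sqrt (by positivity)]
    have h9 : CE * (energy 𝒬 H u (ball z (‖z‖ / 2))).toReal ≤ CE * ε₁ :=
      mul_le_mul_of_nonneg_left h8 hCE.le
    have h10 : eden 𝒬 H u z * (‖z‖ / 2) ^ 2 = eden 𝒬 H u z * ‖z‖ ^ 2 / 4 := by ring
    rw [h10] at h7
    linarith only [h7, h9]
  -- the box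
  have hr : ‖(r : ℂ)‖ = r := by rw [Complex.norm_real, Real.norm_of_nonneg hr0.le]
  obtain ⟨φ, hφ, hφs, hφt, hφc⟩ := hbox (u r)
  have hmem : ∀ z : ℂ, r / 50 < ‖z‖ ∧ ‖z‖ < 50 * r →
      u z ∈ φ.source ∧ ‖φ (u z) - φ (u r)‖ ≤ δ / 2 := by
    intro z hz
    refine annulus_box (δ := δ) (c := c) (κ := √(4 * CE * ε₁)) (κ' := δ / 2) K hφ hc
      (r₁ := r / 50) (r₂ := 50 * r) (by (clear * - hr0; positivity)) (z₀ := (r : ℂ)) ?_ hφs hφt
      (fun p hp v => (hφc p hp v).1) (fun y _ hy => hdisc y (by linarith only [hs0, hr1, hy])) (Real.sqrt_nonneg _)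
      (by positivity) heden ?_ (by linarith only [hδ]) hz
    · rw [hr]
      constructor <;> linarith only [hs0, hr1]
    · have e1 : 50 * r / (r / 50) = 2500 := by
        field_simp
        norm_num
      rw [e1, Real.sq_sqrt (by (clear * - hCE hε₀ hc hδ; positivity)), ← hΛ]
      have h11 : ε₁ ≤ c * (δ / 2) ^ 2 / (4 * CE * Λ ^ 2) := min_le_right _ _
      rw [le_div_iff₀ (by positivity)] at h11
      linarith only [h11]
  have hann1 : ∀ z ∈ ann (r / 25) (25 * r), r / 50 < ‖z‖ ∧ ‖z‖ < 50 * r := by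
    rintro z ⟨h4, h5⟩
    constructor <;> linarith only [hs0, hr1, h4, h5]
  have hann2 : ∀ w ∈ ann (r / 25) (25 * r), r / 50 < ‖w + s‖ ∧ ‖w + s‖ < 50 * r := by
    rintro w ⟨h4, h5⟩
    have h6 : ‖(s : ℂ)‖ = s := by rw [Complex.norm_real, Real.norm_of_nonneg hs0.le]
    have h7 := norm_add_le w (s : ℂ)
    have h8 : ‖w‖ ≤ ‖w + s‖ + s := by
      have := norm_sub_le (w + (s : ℂ)) s
      rwa [add_sub_cancel_right, h6] at this
    rw [h6] at h7
    constructor <;> linarith only [hs0, hr1, h4, h8, h5, h7]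
  set f : ℂ → A := fun z => (φ (u z)).1 with hf
  set g : ℂ → B := fun w => (φ (u (w + s))).2 with hg
  have htar : ∀ q : ℂ × ℂ, q ∈ ann (r / 25) (25 * r) ×ˢ ann (r / 25) (25 * r) →
      ((f q.1, g q.2) : A × B) ∈ φ.target := by
    intro q hq
    apply hφt
    have h4 := (hmem _ (hann1 _ hq.1)).2
    have h5 := (hmem _ (hann2 _ hq.2)).2
    rw [mem_closedBall, dist_eq_norm, Prod.norm_def]
    refine max_le ?_ ?_
    · refine le_trans ?_ (h4.trans (by linarith only [hδ]))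
      exact norm_fst_le (φ (u q.1) - φ (u r))
    · refine le_trans ?_ (h5.trans (by linarith only [hδ]))
      exact norm_snd_le (φ (u (q.2 + s)) - φ (u r))
  refine ⟨s, r, hs0, hr0, hr1, hr2, fun q => φ.symm (f q.1, g q.2), ?_, ?_⟩
  · intro q hq
    refine ⟨φ, hφ, f, g, ?_, ?_, ?_⟩
    · have h4 := (hdisc q.1 (by linarith only [hs0, hr1, (hann1 _ hq.1).2])).chartT K hφ
        (hmem _ (hann1 _ hq.1)).1
      exact analyticAt_fst.comp' h4.2
    · have h4 := (hdisc (q.2 + s) (by linarith only [hs0, hr1, (hann2 _ hq.2).2])).chartT K hφ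
        (hmem _ (hann2 _ hq.2)).1
      have h5 : AnalyticAt ℂ (fun w : ℂ => w + (s : ℂ)) q.2 := analyticAt_id.add analyticAt_const
      have h6 : AnalyticAt ℂ (fun w : ℂ => φ (u (w + s))) q.2 :=
        AnalyticAt.comp' (g := fun y => φ (u y)) (f := fun w : ℂ => w + (s : ℂ)) h4.2 h5
      exact analyticAt_snd.comp' h6
    · filter_upwards [((isOpen_ann _ _).prod (isOpen_ann _ _)).mem_nhds hq] with q' hq'
      exact ⟨φ.map_target (htar q' hq'), φ.right_inv (htar q' hq')⟩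
  · intro z hz hzs
    have hsrc : Ψ (z, z - s) ∈ φ.source := (hmem _ (hann1 _ hz)).1
    have hF : IsF 𝒬 Ψ (z, z - s) := by
      apply hΨ
      exact diag_mem_ball hs0 (by linarith only [h3]) (by linarith only [hs0, hr1, hr2, hz.2])
    obtain ⟨F, G, hFa, hGa, hFG⟩ := hF.chartT K hφ hsrc
    have c1 : Tendsto (fun y : ℂ => (y, y - (s : ℂ))) (𝓝 z) (𝓝 (z, z - (s : ℂ))) := by
      have : Continuous fun y : ℂ => (y, y - (s : ℂ)) := by fun_prop
      exact this.tendsto z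
    have c2 : Tendsto (fun y : ℂ => y + (s : ℂ)) (𝓝 (z - s)) (𝓝 z) := by
      have h4 : Continuous fun y : ℂ => y + (s : ℂ) := by fun_prop
      have h5 := h4.tendsto (z - s)
      rwa [sub_add_cancel] at h5
    have e1 : ∀ᶠ y in 𝓝 z, f y = F y ∧ (φ (u y)).2 = G (y - s) := by
      filter_upwards [c1.eventually hFG] with y hy
      have h4 : φ (u y) = (F y, G (y - s)) := hy.2
      exact ⟨congrArg Prod.fst h4, congrArg Prod.snd h4⟩
    have e2 : ∀ᶠ w in 𝓝 (z - s), g w = G w := by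
      filter_upwards [c2.eventually e1] with w hw
      have h4 := hw.2
      rwa [add_sub_cancel_right] at h4
    have e1' : ∀ᶠ q : ℂ × ℂ in 𝓝 (z, z - (s : ℂ)), f q.1 = F q.1 :=
      (continuous_fst.tendsto (z, z - (s : ℂ))).eventually (e1.mono fun y hy => hy.1)
    have e2' : ∀ᶠ q : ℂ × ℂ in 𝓝 (z, z - (s : ℂ)), g q.2 = G q.2 :=
      (continuous_snd.tendsto (z, z - (s : ℂ))).eventually e2
    filter_upwards [hFG, e1', e2'] with q h4 h5 h6
    show φ.symm (f q.1, g q.2) = Ψ q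
    rw [h5, h6, ← h4.2, φ.left_inv h4.1]

/-- The case `θ = 1/2`. -/
theorem tt2_of (K : KAtlas 𝒬 H) {Ψ : ℂ × ℂ → X} (hΨ : FOn 𝒬 Ψ touchBall)
    (hP : ∃ s₁ > 0, ∃ A₀ : ℝ≥0∞, A₀ ≠ ⊤ ∧ ∀ s : ℝ, 0 < s → s < s₁ →
      energy 𝒬 H (fun z => Ψ (z, z - s)) (ball 0 (√s / 2)) ≤ A₀) :
    ∃ s r : ℝ, 0 < s ∧ 0 < r ∧ 10 ^ 4 * s ≤ r ∧ 100 * r ≤ √s / 2 ∧ ∃ Ψ₁ : ℂ × ℂ → X,
      FOn 𝒬 Ψ₁ (ann (r / 25) (25 * r) ×ˢ ann (r / 25) (25 * r)) ∧
      ∀ z ∈ ann (r / 25) (25 * r), z - s ∈ ann (r / 25) (25 * r) →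
        Ψ₁ =ᶠ[𝓝 (z, z - s)] Ψ := by
  refine tt2_gen K (θ := 1 / 2) (by norm_num) le_rfl hΨ ?_
  obtain ⟨s₁, hs₁, A₀, hA₀, h⟩ := hP
  refine ⟨s₁, hs₁, A₀, hA₀, fun s h1 h2 => ?_⟩
  have e : 1 / 2 * √s = √s / 2 := by ring
  rw [e]
  exact h s h1 h2

end main

end Vale.Agent.P278.Full.T
end
end
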