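import Vale.Agent.N278T.C1
import Mathlib.Analysis.Calculus.ContDiff.FiniteDimension

set_option linter.all false

attribute [local instance] AFastaeda18x5a.a0 AFastaeda18x5a.a1 AFastaeda18x5a.a2 AFastaeda18x5a.a3
  AFastaeda18x5a.a4 AFastaeda18x5a.a5 AFastaeda18x5a.a6 AFastaeda18x5a.a7 AFastaeda18x5a.a8
  AFastaeda18x5a.a9 AFastaeda18x5a.a10 AFastaeda18x5a.a11 AFastaeda18x5a.a12 AFastaeda18x5a.a13
  AFastaeda18x5a.a14 AFastaeda18x5a.a15 AFastaeda18x5a.a16 AFastaeda18x5a.a17 AFastaeda18x5a.a18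
  AFastaeda18x5a.a19 AFastaeda18x5a.a20 AFastaeda18x5a.a21 AFastaeda18x5a.a22 AFastaeda18x5a.a23
  AFastaeda18x5a.a24 AFastaeda18x5a.a25 AFastaeda18x5a.a26 AFastaeda18x5a.a27 AFastaeda18x5a.a28
  AFastaeda18x5a.a29 AFastaeda18x5a.a30 AFastaeda18x5a.a31 AFastaeda18x5a.a32 AFastaeda18x5a.a33
  AFastaeda18x5a.a34 AFastaeda18x5a.a35 AFastaeda18x5a.a36 AFastaeda18x5a.a37 AFastaeda18x5a.a38
  AFastaeda18x5a.a39 AFastaeda18x5a.a40 AFastaeda18x5a.a41 AFastaeda18x5a.a42 AFastaeda18x5a.a43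
  AFastaeda18x5a.a44 AFastaeda18x5a.a45 AFastaeda18x5a.a46 AFastaeda18x5a.a47 AFastaeda18x5a.a48
  AFastaeda18x5a.a49 AFastaeda18x5a.a50 AFastaeda18x5a.a51 AFastaeda18x5a.a52 AFastaeda18x5a.a53
  AFastaeda18x5a.a54 AFastaeda18x5a.a55 AFastaeda18x5a.a56 AFastaeda18x5a.a57 AFastaeda18x5a.a58
  AFastaeda18x5a.a59 AFastaeda18x5a.a60 AFastaeda18x5a.a61 AFastaeda18x5a.a62 AFastaeda18x5a.a63
  AFastaeda18x5a.a64 AFastaeda18x5a.a65 AFastaeda18x5a.a66 AFastaeda18x5a.a67 AFastaeda18x5a.a68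
  AFastaeda18x5a.a69 AFastaeda18x5a.a70 AFastaeda18x5a.a71 AFastaeda18x5a.a72 AFastaeda18x5a.a73
  AFastaeda18x5a.a74 AFastaeda18x5a.a75 AFastaeda18x5a.a76
attribute [local instance] AFastaeda18x5b.a0 AFastaeda18x5b.a1 AFastaeda18x5b.a2 AFastaeda18x5b.a3
  AFastaeda18x5b.a4 AFastaeda18x5b.a5 AFastaeda18x5b.a6 AFastaeda18x5b.a7 AFastaeda18x5b.a8
  AFastaeda18x5b.a9 AFastaeda18x5b.a10 AFastaeda18x5b.a11 AFastaeda18x5b.a12 AFastaeda18x5b.a13
  AFastaeda18x5b.a14 AFastaeda18x5b.a15 AFastaeda18x5b.a16 AFastaeda18x5b.a17 AFastaeda18x5b.a18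
  AFastaeda18x5b.a19 AFastaeda18x5b.a20 AFastaeda18x5b.a21 AFastaeda18x5b.a22

section

section

open MeasureTheory Set Filter Topology Complex Metric
open scoped ContDiff ComplexConjugate

namespace Vale.Agent.P278.Full.T

/-- The conservation laws of a two-form with vanishing mixed derivatives. -/
structure Laws (Ω : Set (ℂ × ℂ)) (K : ℝ) (a d : ℂ × ℂ → ℝ) (b : ℂ × ℂ → ℂ)
    (P Q R S : ℂ × ℂ → ℝ) : Prop where
  P_diff : ContDiffOn ℝ 1 P Ω
  Q_diff : ContDiffOn ℝ 1 Q Ω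
  R_diff : ContDiffOn ℝ 1 R Ω
  S_diff : ContDiffOn ℝ 1 S Ω
  a3 : ∀ p ∈ Ω, fderiv ℝ a p (0, 1) = fderiv ℝ P p (I, 0) - fderiv ℝ R p (1, 0)
  a4 : ∀ p ∈ Ω, fderiv ℝ a p (0, I) = fderiv ℝ Q p (I, 0) - fderiv ℝ S p (1, 0)
  d1 : ∀ p ∈ Ω, fderiv ℝ d p (1, 0) = fderiv ℝ Q p (0, 1) - fderiv ℝ P p (0, I)
  re_b : ∀ p ∈ Ω, 2 * (b p).re = Q p - R p
  bound : ∀ p ∈ Ω, (R p - d p) ^ 2 + (-P p) ^ 2 ≤ K ^ 2 * (eDiag a d b p) ^ 2

/-- Coefficients `a = H(∂z, ∂z)`, `b = H(∂z, ∂w)`, `d = H(∂w, ∂w)` of a semi-positive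
Hermitian form on an open subset of `ℂ × ℂ`, with conservation laws. -/
structure FlatK (Ω : Set (ℂ × ℂ)) (K : ℝ) (a d : ℂ × ℂ → ℝ) (b : ℂ × ℂ → ℂ) : Prop where
  isOpen : IsOpen Ω
  a_diff : ContDiffOn ℝ 1 a Ω
  d_diff : ContDiffOn ℝ 1 d Ω
  b_diff : ContDiffOn ℝ 1 b Ω
  a_nonneg : ∀ p ∈ Ω, 0 ≤ a p
  e_nonneg : ∀ p ∈ Ω, 0 ≤ eDiag a d b p
  laws : ∃ P Q R S, Laws Ω K a d b P Q R S

variable {Ω : Set (ℂ × ℂ)} {K : ℝ} {a d : ℂ × ℂ → ℝ} {b : ℂ × ℂ → ℂ}

lemma FlatK.eDiag_nonneg (h : FlatK Ω K a d b) {p : ℂ × ℂ} (hp : p ∈ Ω) :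
    0 ≤ eDiag a d b p := h.e_nonneg p hp

/-- **Finite propagation of the energy of the diagonal discs.** -/
theorem FlatK.energy_mono (h : FlatK Ω K a d b) (hK : 0 ≤ K) {r δ s₀ s₁ : ℝ} (hδ : 0 < δ)
    (h01 : s₀ ≤ s₁)
    (hcone : ∀ s ∈ Icc s₀ s₁, ∀ z : ℂ, ‖z‖ ≤ r + 2 * δ + K * (s - s₀) → (z, z - (s : ℂ)) ∈ Ω) :
    ∫ z in closedBall (0 : ℂ) r, eDiag a d b (z, z - (s₀ : ℂ)) ≤
      ∫ z in closedBall (0 : ℂ) (r + 2 * δ + K * (s₁ - s₀)), eDiag a d b (z, z - (s₁ : ℂ)) := by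
  obtain ⟨P, Q, R, S, hl⟩ := h.laws
  set Ω' : Set (ℝ × ℂ) := diagL ⁻¹' Ω with hΩ'
  have hΩo : IsOpen Ω' := h.isOpen.preimage diagL.continuous
  set C : Set (ℝ × ℂ) := {y | y.1 ∈ Icc s₀ s₁ ∧ ‖y.2‖ ≤ r + 2 * δ + K * (y.1 - s₀)} with hC
  have hCc : IsCompact C := by
    have h1 : IsCompact (Icc s₀ s₁ ×ˢ closedBall (0 : ℂ) (r + 2 * δ + K * (s₁ - s₀))) :=
      isCompact_Icc.prod (isCompact_closedBall _ _)
    refine h1.of_isClosed_subset ?_ ?_
    · exact (isClosed_Icc.preimage continuous_fst).inter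
        (isClosed_le (f := fun y : ℝ × ℂ => ‖y.2‖)
          (g := fun y : ℝ × ℂ => r + 2 * δ + K * (y.1 - s₀)) (by fun_prop) (by fun_prop))
    · rintro y ⟨h2, h3⟩
      refine ⟨h2, ?_⟩
      rw [mem_closedBall_zero_iff]
      have : K * (y.1 - s₀) ≤ K * (s₁ - s₀) := mul_le_mul_of_nonneg_left (by linarith only [h2.2]) hK
      linarith only [h3, this]
  have hCΩ : C ⊆ Ω' := fun y hy => hcone y.1 hy.1 y.2 hy.2
  set e : ℝ × ℂ → ℝ := fun y => eDiag a d b (diagL y) with he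
  set p : ℝ × ℂ → ℝ := fun y => R (diagL y) - d (diagL y) with hp
  set q : ℝ × ℂ → ℝ := fun y => -P (diagL y) with hq
  have hmaps : MapsTo diagL Ω' Ω := fun y hy => hy
  have ca : ContDiffOn ℝ 1 (fun y => a (diagL y)) Ω' :=
    h.a_diff.comp diagL.contDiff.contDiffOn hmaps
  have cd : ContDiffOn ℝ 1 (fun y => d (diagL y)) Ω' :=
    h.d_diff.comp diagL.contDiff.contDiffOn hmaps
  have cb : ContDiffOn ℝ 1 (fun y => b (diagL y)) Ω' :=
    h.b_diff.comp diagL.contDiff.contDiffOn hmaps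
  have cbr : ContDiffOn ℝ 1 (fun y => (b (diagL y)).re) Ω' :=
    Complex.reCLM.contDiff.comp_contDiffOn cb
  have cR : ContDiffOn ℝ 1 (fun y => R (diagL y)) Ω' :=
    hl.R_diff.comp diagL.contDiff.contDiffOn hmaps
  have cP : ContDiffOn ℝ 1 (fun y => P (diagL y)) Ω' :=
    hl.P_diff.comp diagL.contDiff.contDiffOn hmaps
  have he1 : ContDiffOn ℝ 1 e Ω' := (ca.add (contDiffOn_const.mul cbr)).add cd
  have hp1 : ContDiffOn ℝ 1 p Ω' := cR.sub cd
  have hq1 : ContDiffOn ℝ 1 q Ω' := cP.neg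
  obtain ⟨e', he', -, hee⟩ := exists_global hΩo hCc hCΩ he1
  obtain ⟨p', hp', -, hpp⟩ := exists_global hΩo hCc hCΩ hp1
  obtain ⟨q', hq', -, hqq⟩ := exists_global hΩo hCc hCΩ hq1
  have key := cone_mono (m := r + δ - K * s₀) he' hp' hq' hK hδ h01 ?_
  · -- comparison of the integrals
    have hcont : ∀ s, Continuous fun z : ℂ => cone K δ (r + δ - K * s₀) (s, z) * e' (s, z) :=
      fun s => (((contDiff_cone hδ).continuous).comp (by fun_prop)).mul
        (he'.continuous.comp (by fun_prop))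
    have hz : ∀ s z, r + 2 * δ + K * (s - s₀) < ‖z‖ →
        cone K δ (r + δ - K * s₀) (s, z) * e' (s, z) = 0 := by
      intro s z hz
      rw [cone_eq_zero hδ, zero_mul]
      show r + δ - K * s₀ + δ + K * s ≤ ‖z‖
      linarith
    have hnn : ∀ s ∈ Icc s₀ s₁, ∀ z, 0 ≤ cone K δ (r + δ - K * s₀) (s, z) * e' (s, z) := by
      intro s hs z
      by_cases hzz : ‖z‖ ≤ r + 2 * δ + K * (s - s₀)
      · have hy : ((s, z) : ℝ × ℂ) ∈ C := ⟨hs, hzz⟩
        rw [(hee _ hy).self_of_nhds]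
        exact mul_nonneg (cone_nonneg _) (h.eDiag_nonneg (hCΩ hy))
      · rw [hz s z (not_le.1 hzz)]
    have hsupp : ∀ s, HasCompactSupport fun z : ℂ =>
        cone K δ (r + δ - K * s₀) (s, z) * e' (s, z) := fun s =>
      HasCompactSupport.intro (isCompact_closedBall (0 : ℂ) (r + 2 * δ + K * (s - s₀)))
        fun z hz' => hz s z (by rwa [mem_closedBall_zero_iff, not_le] at hz')
    have hint : ∀ s, Integrable fun z : ℂ =>
        cone K δ (r + δ - K * s₀) (s, z) * e' (s, z) := fun s =>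
      (hcont s).integrable_of_hasCompactSupport (hsupp s)
    have hs0 : s₀ ∈ Icc s₀ s₁ := ⟨le_rfl, h01⟩
    have hs1 : s₁ ∈ Icc s₀ s₁ := ⟨h01, le_rfl⟩
    have l1 : ∫ z in closedBall (0 : ℂ) r, eDiag a d b (z, z - (s₀ : ℂ)) ≤
        ∫ z, cone K δ (r + δ - K * s₀) (s₀, z) * e' (s₀, z) := by
      calc ∫ z in closedBall (0 : ℂ) r, eDiag a d b (z, z - (s₀ : ℂ))
          = ∫ z in closedBall (0 : ℂ) r, cone K δ (r + δ - K * s₀) (s₀, z) * e' (s₀, z) := by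
            apply setIntegral_congr_fun isClosed_closedBall.measurableSet
            intro z hz'
            rw [mem_closedBall_zero_iff] at hz'
            have hy : ((s₀, z) : ℝ × ℂ) ∈ C := ⟨hs0, by simp only [sub_self, mul_zero]; linarith only [hδ, hz']⟩
            show _ = cone K δ (r + δ - K * s₀) (s₀, z) * e' (s₀, z)
            rw [(hee _ hy).self_of_nhds, cone_eq_one hδ, one_mul]
            · rfl
            · show ‖z‖ + δ ≤ r + δ - K * s₀ + K * s₀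
              linarith only [hz']
        _ ≤ _ := setIntegral_le_integral (hint s₀) (ae_of_all _ (hnn s₀ hs0))
    have l2 : ∫ z, cone K δ (r + δ - K * s₀) (s₁, z) * e' (s₁, z) ≤
        ∫ z in closedBall (0 : ℂ) (r + 2 * δ + K * (s₁ - s₀)),
          eDiag a d b (z, z - (s₁ : ℂ)) := by
      have h1 : ∫ z, cone K δ (r + δ - K * s₀) (s₁, z) * e' (s₁, z) =
          ∫ z in closedBall (0 : ℂ) (r + 2 * δ + K * (s₁ - s₀)),
            cone K δ (r + δ - K * s₀) (s₁, z) * e' (s₁, z) := by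
        symm
        apply setIntegral_eq_integral_of_forall_compl_eq_zero
        intro z hz'
        exact hz s₁ z (by rwa [mem_closedBall_zero_iff, not_le] at hz')
      rw [h1]
      apply setIntegral_mono_on (hint s₁).integrableOn _ isClosed_closedBall.measurableSet
      · intro z hz'
        rw [mem_closedBall_zero_iff] at hz'
        have hy : ((s₁, z) : ℝ × ℂ) ∈ C := ⟨hs1, hz'⟩
        rw [(hee _ hy).self_of_nhds]
        have := h.eDiag_nonneg (hCΩ hy)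
        calc cone K δ (r + δ - K * s₀) (s₁, z) * e (s₁, z) ≤ 1 * e (s₁, z) :=
              mul_le_mul_of_nonneg_right (cone_le_one _) this
          _ = _ := one_mul _
      · refine ContinuousOn.integrableOn_compact (isCompact_closedBall _ _) ?_
        have : ContinuousOn (fun z : ℂ => e (s₁, z))
            (closedBall (0 : ℂ) (r + 2 * δ + K * (s₁ - s₀))) := by
          refine he1.continuousOn.comp (by fun_prop) ?_
          intro z hz'
          rw [mem_closedBall_zero_iff] at hz'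
          exact hCΩ ⟨hs1, hz'⟩
        exact this
    linarith only [key, l1, l2]
  · -- the conservation law
    intro y hy1 hy2
    have hy : y ∈ C := ⟨hy1, by linarith only [hy2]⟩
    have hyΩ : diagL y ∈ Ω := hCΩ hy
    have dda : DifferentiableAt ℝ a (diagL y) :=
      (h.a_diff.contDiffAt (h.isOpen.mem_nhds hyΩ)).differentiableAt (by norm_num)
    have ddd : DifferentiableAt ℝ d (diagL y) :=
      (h.d_diff.contDiffAt (h.isOpen.mem_nhds hyΩ)).differentiableAt (by norm_num)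
    have ddP : DifferentiableAt ℝ P (diagL y) :=
      (hl.P_diff.contDiffAt (h.isOpen.mem_nhds hyΩ)).differentiableAt (by norm_num)
    have ddQ : DifferentiableAt ℝ Q (diagL y) :=
      (hl.Q_diff.contDiffAt (h.isOpen.mem_nhds hyΩ)).differentiableAt (by norm_num)
    have ddR : DifferentiableAt ℝ R (diagL y) :=
      (hl.R_diff.contDiffAt (h.isOpen.mem_nhds hyΩ)).differentiableAt (by norm_num)
    have hba : HasFDerivAt (fun y => a (diagL y)) (fderiv ℝ a (diagL y) ∘L diagL) y :=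
      dda.hasFDerivAt.comp y diagL.hasFDerivAt
    have hbd : HasFDerivAt (fun y => d (diagL y)) (fderiv ℝ d (diagL y) ∘L diagL) y :=
      ddd.hasFDerivAt.comp y diagL.hasFDerivAt
    have hbP : HasFDerivAt (fun y => P (diagL y)) (fderiv ℝ P (diagL y) ∘L diagL) y :=
      ddP.hasFDerivAt.comp y diagL.hasFDerivAt
    have hbQ : HasFDerivAt (fun y => Q (diagL y)) (fderiv ℝ Q (diagL y) ∘L diagL) y :=
      ddQ.hasFDerivAt.comp y diagL.hasFDerivAt
    have hbR : HasFDerivAt (fun y => R (diagL y)) (fderiv ℝ R (diagL y) ∘L diagL) y :=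
      ddR.hasFDerivAt.comp y diagL.hasFDerivAt
    have ee : e =ᶠ[𝓝 y] fun y => a (diagL y) + (Q (diagL y) - R (diagL y)) + d (diagL y) := by
      filter_upwards [hΩo.mem_nhds (hCΩ hy)] with x hx
      show eDiag a d b (diagL x) = _
      rw [eDiag, hl.re_b _ hx]
    have fe : fderiv ℝ e y = _ := ee.fderiv_eq.trans ((hba.add (hbQ.sub hbR)).add hbd).fderiv
    have fp : fderiv ℝ p y = _ := (hbR.sub hbd).fderiv
    have fq : fderiv ℝ q y = _ := (hbP.neg).fderiv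
    rw [(hee y hy).self_of_nhds, (hpp y hy).self_of_nhds, (hqq y hy).self_of_nhds,
      (hee y hy).fderiv_eq, (hpp y hy).fderiv_eq, (hqq y hy).fderiv_eq]
    refine ⟨h.eDiag_nonneg hyΩ, ?_, hl.bound _ hyΩ⟩
    rw [fe, fp, fq]
    have a1 := hl.a3 _ hyΩ
    have d1 := hl.d1 _ hyΩ
    have s1 : (diagL (1, 0) : ℂ × ℂ) = -(0, 1) := by simp only [diagL_apply, ofReal_one, zero_sub, Prod.neg_mk, neg_zero]
    have s2 : (diagL (0, 1) : ℂ × ℂ) = (1, 0) + (0, 1) := by simp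
    have s3 : (diagL (0, I) : ℂ × ℂ) = (I, 0) + (0, I) := by simp
    simp only [add_apply, sub_apply, ContinuousLinearMap.comp_apply, s1, map_neg, neg_apply, s2, map_add, s3]
    rw [a1, d1]
    ring

end Vale.Agent.P278.Full.T
end
end

section

section

open MeasureTheory Set Filter Topology Complex Metric
open scoped ContDiff ComplexConjugate

namespace Vale.Agent.P278.Full.T

variable {Ω : Set (ℂ × ℂ)} {K : ℝ} {a d : ℂ × ℂ → ℝ} {b : ℂ × ℂ → ℂ}

/-- **Energy bound** for the discs `z ↦ (z, w₀ + t τ)`, `t < T`, if the situation is under control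
near the boundary circle up to the time `T`. -/
theorem FlatK.exists_energy_bound (h : FlatK Ω K a d b) {z₀ w₀ τ : ℂ} {R T : ℝ}
    (h1 : ∀ z ∈ closedBall z₀ R, ∀ t ∈ Ico 0 T, (z, w₀ + t • τ) ∈ Ω)
    (h2 : ∀ z ∈ sphere z₀ R, (z, w₀ + T • τ) ∈ Ω) :
    ∃ A : ℝ, ∀ t ∈ Ico 0 T, ∫ z in closedBall z₀ R, a (z, w₀ + t • τ) ≤ A := by
  obtain ⟨P, Q, R', S', hl⟩ := h.laws
  by_cases hT : 0 < T
  swap
  · exact ⟨0, fun t ht => absurd (ht.1.trans_lt ht.2) hT⟩
  set L : ℝ × ℂ → ℂ × ℂ := fun y => (0, w₀) + lineL τ y with hL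
  have hLd : ContDiff ℝ 1 L := contDiff_const.add (lineL τ).contDiff
  have hLa : ∀ y, L y = (y.2, w₀ + y.1 • τ) := fun y => by simp [hL, lineL_apply]
  set Ω' : Set (ℝ × ℂ) := L ⁻¹' Ω with hΩ'
  have hΩo : IsOpen Ω' := h.isOpen.preimage hLd.continuous
  -- a neighbourhood of the circle
  set N : Set ℂ := {z | ∀ t ∈ Icc 0 T, (t, z) ∈ Ω'} with hN
  have hNsph : sphere z₀ R ⊆ N := by
    intro z hz t ht
    show L (t, z) ∈ Ω
    rw [hLa]
    rcases ht.2.lt_or_eq with h3 | h3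
    · exact h1 z (sphere_subset_closedBall hz) t ⟨ht.1, h3⟩
    · simp only [h3]; exact h2 z hz
  have hNo : IsOpen N := by
    rw [isOpen_iff_mem_nhds]
    intro z hz
    have : ∀ᶠ z' in 𝓝 z, ∀ t ∈ Icc 0 T, ((t, z') : ℝ × ℂ) ∈ Ω' := by
      apply isCompact_Icc.eventually_forall_of_forall_eventually
      intro t ht
      have := hΩo.mem_nhds (hz t ht)
      have hc : ContinuousAt (fun y : ℂ × ℝ => ((y.2, y.1) : ℝ × ℂ)) (z, t) := by fun_prop
      exact hc.eventually_mem this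
    exact this
  obtain ⟨χ, hχ1, hχ0, hχI⟩ := exists_contMDiffMap_one_nhds_of_subset_interior (n := 1)
    (modelWithCornersSelf ℝ ℂ) (s := closedBall z₀ R \ N) (t := closedBall z₀ R)
    (isClosed_closedBall.sdiff hNo) (by
      intro z hz
      have hz1 : dist z z₀ ≤ R := hz.1
      have hz2 : dist z z₀ ≠ R := fun h => hz.2 (hNsph h)
      exact ball_subset_interior_closedBall (lt_of_le_of_ne hz1 hz2))
  have hχ : ContDiff ℝ 1 χ := χ.contMDiff.contDiff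
  set S : Set ℂ := closedBall z₀ R \ interior {z | χ z = 1} with hS
  have hSc : IsCompact S := (isCompact_closedBall _ _).diff isOpen_interior
  have hSN : S ⊆ N := by
    intro z hz
    by_contra hzN
    apply hz.2
    have := (eventually_nhdsSet_iff_forall.mp hχ1) z ⟨hz.1, hzN⟩
    rw [mem_interior_iff_mem_nhds]
    exact this
  set C : Set (ℝ × ℂ) := Icc 0 T ×ˢ S with hC
  have hCc : IsCompact C := isCompact_Icc.prod hSc
  have hCΩ : C ⊆ Ω' := fun y hy => hSN hy.2 y.1 hy.1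
  have hmaps : MapsTo L Ω' Ω := fun y hy => hy
  have ca : ContDiffOn ℝ 1 (fun y => a (L y)) Ω' := h.a_diff.comp hLd.contDiffOn hmaps
  have cp : ContDiffOn ℝ 1 (fun y => -(τ.re * R' (L y)) - τ.im * S' (L y)) Ω' :=
    (contDiffOn_const.mul (hl.R_diff.comp hLd.contDiffOn hmaps)).neg.sub
      (contDiffOn_const.mul (hl.S_diff.comp hLd.contDiffOn hmaps))
  have cq : ContDiffOn ℝ 1 (fun y => τ.re * P (L y) + τ.im * Q (L y)) Ω' :=
    (contDiffOn_const.mul (hl.P_diff.comp hLd.contDiffOn hmaps)).add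
      (contDiffOn_const.mul (hl.Q_diff.comp hLd.contDiffOn hmaps))
  set e : ℝ × ℂ → ℝ := fun y => a (L y) with he
  set p : ℝ × ℂ → ℝ := fun y => -(τ.re * R' (L y)) - τ.im * S' (L y) with hp
  set q : ℝ × ℂ → ℝ := fun y => τ.re * P (L y) + τ.im * Q (L y) with hq
  have hfl : ContinuousOn (fun y : ℝ × ℂ => -(fderiv ℝ χ y.2 1 * p y) - fderiv ℝ χ y.2 I * q y)
      C := by
    have k1 : ∀ v : ℂ, Continuous (fun y : ℝ × ℂ => fderiv ℝ χ y.2 v) := fun v =>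
      ((hχ.continuous_fderiv (by norm_num)).clm_apply continuous_const).comp continuous_snd
    exact ((k1 1).continuousOn.mul (cp.continuousOn.mono hCΩ)).neg.sub
      ((k1 I).continuousOn.mul (cq.continuousOn.mono hCΩ))
  obtain ⟨B₀, hB₀⟩ := hCc.bddAbove_image hfl
  obtain ⟨A₀, hA₀⟩ := hCc.bddAbove_image (ca.continuousOn.mono hCΩ)
  have hB₀' : ∀ y ∈ C, -(fderiv ℝ χ y.2 1 * p y) - fderiv ℝ χ y.2 I * q y ≤ B₀ := fun y hy =>
    hB₀ ⟨y, hy, rfl⟩
  have hA₀' : ∀ y ∈ C, a (L y) ≤ A₀ := fun y hy => hA₀ ⟨y, hy, rfl⟩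
  set B : ℝ := max B₀ 0 with hB
  set A : ℝ := max A₀ 0 with hA
  have hvol : 0 ≤ volume.real (closedBall z₀ R) := measureReal_nonneg
  refine ⟨(∫ z, χ z * e (0, z)) + T * (B * volume.real (closedBall z₀ R)) +
    A * volume.real (closedBall z₀ R), ?_⟩
  intro t ht
  -- globalisation up to time `t`
  set C' : Set (ℝ × ℂ) := Icc 0 t ×ˢ closedBall z₀ R with hC'
  have hC'c : IsCompact C' := isCompact_Icc.prod (isCompact_closedBall _ _)
  have hC'Ω : C' ⊆ Ω' := by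
    intro y hy
    show L y ∈ Ω
    rw [hLa]
    exact h1 y.2 hy.2 y.1 ⟨hy.1.1, hy.1.2.trans_lt ht.2⟩
  obtain ⟨e', he', -, hee⟩ := exists_global hΩo hC'c hC'Ω ca
  obtain ⟨p', hp', -, hpp⟩ := exists_global hΩo hC'c hC'Ω cp
  obtain ⟨q', hq', -, hqq⟩ := exists_global hΩo hC'c hC'Ω cq
  have hdχ : ∀ z, z ∈ closedBall z₀ R → z ∉ S → fderiv ℝ χ z = 0 := by
    intro z hz hzS
    have hz2 : z ∈ interior {z | χ z = 1} := by
      by_contra hcon
      exact hzS ⟨hz, hcon⟩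
    have : χ =ᶠ[𝓝 z] fun _ => 1 := mem_interior_iff_mem_nhds.1 hz2
    rw [this.fderiv_eq]; simp only [fderiv_fun_const, Pi.zero_apply]
  have key := flux_bound hχ (isCompact_closedBall z₀ R) (fun z hz => hχ0 z hz) he' hp' hq' ht.1
    (B := B) ?_ ?_
  · have e0 : ∀ s ∈ Icc 0 t, ∫ z, χ z * e' (s, z) = ∫ z, χ z * e (s, z) := by
      intro s hs
      apply integral_congr_ae
      apply ae_of_all
      intro z
      by_cases hz : z ∈ closedBall z₀ R
      · show χ z * e' (s, z) = χ z * e (s, z)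
        rw [(hee (s, z) ⟨hs, hz⟩).self_of_nhds]
      · show χ z * e' (s, z) = χ z * e (s, z)
        rw [hχ0 z hz, zero_mul, zero_mul]
    rw [e0 t ⟨ht.1, le_rfl⟩, e0 0 ⟨le_rfl, ht.1⟩] at key
    have hicc : ContinuousOn (fun z : ℂ => e (t, z)) (closedBall z₀ R) :=
      ca.continuousOn.comp (by fun_prop) (fun z hz => hC'Ω ⟨⟨ht.1, le_rfl⟩, hz⟩)
    have hint : IntegrableOn (fun z : ℂ => e (t, z)) (closedBall z₀ R) :=
      hicc.integrableOn_compact (isCompact_closedBall _ _)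
    have hint2 : IntegrableOn (fun z : ℂ => χ z * e (t, z)) (closedBall z₀ R) :=
      (hχ.continuous.continuousOn.mul hicc).integrableOn_compact (isCompact_closedBall _ _)
    have hint3 : IntegrableOn (fun z : ℂ => (1 - χ z) * e (t, z)) (closedBall z₀ R) :=
      ((continuous_const.sub hχ.continuous).continuousOn.mul hicc).integrableOn_compact
        (isCompact_closedBall _ _)
    have s1 : ∫ z in closedBall z₀ R, a (z, w₀ + t • τ) =
        (∫ z in closedBall z₀ R, χ z * e (t, z)) +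
          ∫ z in closedBall z₀ R, (1 - χ z) * e (t, z) := by
      rw [← integral_add hint2 hint3]
      apply setIntegral_congr_fun isClosed_closedBall.measurableSet
      intro z hz
      show a (z, w₀ + t • τ) = χ z * e (t, z) + (1 - χ z) * e (t, z)
      rw [he]; simp only [hLa]; ring
    have s2 : ∫ z in closedBall z₀ R, χ z * e (t, z) = ∫ z, χ z * e (t, z) := by
      apply setIntegral_eq_integral_of_forall_compl_eq_zero
      intro z hz
      rw [hχ0 z hz, zero_mul]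
    have s3 : ∫ z in closedBall z₀ R, (1 - χ z) * e (t, z) ≤ A * volume.real (closedBall z₀ R) := by
      calc ∫ z in closedBall z₀ R, (1 - χ z) * e (t, z) ≤ ∫ z in closedBall z₀ R, A := by
            apply setIntegral_mono_on hint3 _ isClosed_closedBall.measurableSet
            · intro z hz
              by_cases hzS : z ∈ S
              · have m1 : e (t, z) ≤ A := (hA₀' (t, z) ⟨⟨ht.1, ht.2.le⟩, hzS⟩).trans
                  (le_max_left _ _)
                have m2 : 0 ≤ e (t, z) := h.a_nonneg _ (hC'Ω ⟨⟨ht.1, le_rfl⟩, hz⟩)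
                have m3 := hχI z
                nlinarith only [m1, m2, m3.1]
              · have : χ z = 1 := by
                  by_contra hcon
                  refine hzS ⟨hz, fun hi => hcon ?_⟩
                  have := interior_subset hi
                  exact this
                rw [this, sub_self, zero_mul]
                exact le_max_right _ _
            · exact integrableOn_const (isCompact_closedBall _ _).measure_lt_top.ne
        _ = _ := by simp only [integral_const, MeasurableSet.univ, measureReal_restrict_apply, univ_inter, smul_eq_mul, mul_comm]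
    rw [s1, s2]
    have s4 : (t - 0) * (B * volume.real (closedBall z₀ R)) ≤
        T * (B * volume.real (closedBall z₀ R)) := by
      apply mul_le_mul_of_nonneg_right (by linarith only [ht.2])
      exact mul_nonneg (le_max_right _ _) hvol
    linarith only [key, s3, s4]
  · -- conservation law
    rintro y hy1 hy2
    have hy : y ∈ C' := ⟨hy1, hy2⟩
    have hyΩ : L y ∈ Ω := hC'Ω hy
    have dda : DifferentiableAt ℝ a (L y) :=
      (h.a_diff.contDiffAt (h.isOpen.mem_nhds hyΩ)).differentiableAt (by norm_num)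
    have hLf : HasFDerivAt L (lineL τ) y := (lineL τ).hasFDerivAt.const_add _
    have hd : ∀ {g : ℂ × ℂ → ℝ}, ContDiffOn ℝ 1 g Ω →
        HasFDerivAt (fun y => g (L y)) (fderiv ℝ g (L y) ∘L lineL τ) y := fun hg =>
      ((hg.contDiffAt (h.isOpen.mem_nhds hyΩ)).differentiableAt
        (by norm_num)).hasFDerivAt.comp y hLf
    have fp : fderiv ℝ p y = _ :=
      (((hd hl.R_diff).const_mul τ.re).neg.sub ((hd hl.S_diff).const_mul τ.im)).fderiv
    have fq : fderiv ℝ q y = _ :=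
      (((hd hl.P_diff).const_mul τ.re).add ((hd hl.Q_diff).const_mul τ.im)).fderiv
    rw [(hee y hy).fderiv_eq, (hpp y hy).fderiv_eq, (hqq y hy).fderiv_eq, (hd h.a_diff).fderiv,
      fp, fq]
    have a1 := hl.a3 _ hyΩ
    have a2 := hl.a4 _ hyΩ
    have s1 : lineL τ (1, 0) = τ.re • ((0, 1) : ℂ × ℂ) + τ.im • ((0, I) : ℂ × ℂ) := by
      rw [lineL_apply]; ext <;> simp
    have s2 : lineL τ (0, 1) = (1, 0) := by rw [lineL_apply]; simp
    have s3 : lineL τ (0, I) = (I, 0) := by rw [lineL_apply]; simp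
    simp only [ContinuousLinearMap.comp_apply, _root_.smul_apply, s1, s2, s3, map_add, map_smul,
      smul_eq_mul, add_apply, sub_apply, neg_apply]
    rw [a1, a2]
    ring
  · rintro y hy1 hy2
    have hy : y ∈ C' := ⟨hy1, hy2⟩
    rw [(hpp y hy).self_of_nhds, (hqq y hy).self_of_nhds]
    by_cases hyS : y.2 ∈ S
    · exact (hB₀' y ⟨⟨hy1.1, hy1.2.trans ht.2.le⟩, hyS⟩).trans (le_max_left _ _)
    · rw [hdχ y.2 hy2 hyS]
      simp only [zero_apply, zero_mul, neg_zero, sub_self, hB, le_sup_right]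

end Vale.Agent.P278.Full.T
end
end

section

section

/-! The pulled back metric of an F-map is a `FlatK`. -/

open Set Topology Filter Metric MeasureTheory Complex
open scoped ContDiff ComplexConjugate ENNReal

set_option linter.all false

namespace Vale.Agent.P278.Full.T

section form

variable {E : Type*} [NormedAddCommGroup E] [NormedSpace ℂ E]
  {F : Type*} [NormedAddCommGroup F] [NormedSpace ℂ F] [FiniteDimensional ℂ F]

lemma contDiffAt_form {S : F → F →ₗ⋆[ℂ] F →ₗ[ℂ] ℂ} {Ω : Set F} (hS : FlatKahler S Ω)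
    {τ u v : E → F} {p : E} (hp : τ p ∈ Ω) (hτ : ContDiffAt ℝ 1 τ p) (hu : ContDiffAt ℝ 1 u p)
    (hv : ContDiffAt ℝ 1 v p) : ContDiffAt ℝ 1 (fun q => S (τ q) (u q) (v q)) p := by
  let f := Module.finBasis ℂ F
  let ℓ : Fin (Module.finrank ℂ F) → F →L[ℂ] ℂ := fun i =>
    LinearMap.toContinuousLinearMap (f.coord i)
  have hexp : (fun r => S (τ r) (u r) (v r)) =
      fun r => ∑ m, ∑ n, conj (ℓ m (u r)) * ℓ n (v r) * S (τ r) (f m) (f n) := by
    funext r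
    exact form_basis f (S (τ r)) (u r) (v r)
  rw [hexp]
  refine ContDiffAt.sum fun m _ => ContDiffAt.sum fun n _ => ?_
  have h1 : ContDiffAt ℝ 1 (fun r => S (τ r) (f m) (f n)) p :=
    (hS.contDiffAt hp (f m) (f n)).comp p hτ
  have h2 : ContDiffAt ℝ 1 (fun r => ℓ n (v r)) p :=
    ((ℓ n).restrictScalars ℝ).contDiff.contDiffAt.comp p hv
  have h3 : ContDiffAt ℝ 1 (fun r => conj (ℓ m (u r))) p :=
    Complex.conjCLE.contDiff.contDiffAt.comp p
      (((ℓ m).restrictScalars ℝ).contDiff.contDiffAt.comp p hu)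
  exact (h3.mul h2).mul h1

section real

variable {S : F → F →ₗ⋆[ℂ] F →ₗ[ℂ] ℂ} {W : F → F → F → ℝ} {Ω : Set F}

lemma FlatForm.add_left (h : FlatForm S W Ω) (p u v w : F) :
    W p (u + v) w = W p u w + W p v w := by
  rw [h.alt p (u + v), h.add, h.alt p u w, h.alt p v w]; ring

lemma FlatForm.smul_left (h : FlatForm S W Ω) (p u v : F) (c : ℝ) :
    W p ((c : ℂ) • u) v = c * W p u v := by
  rw [h.alt p _ v, h.smul, h.alt p u v]; ring

lemma FlatForm.zero_right (h : FlatForm S W Ω) (p u : F) : W p u 0 = 0 := by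
  have := h.add p u 0 0
  rw [add_zero] at this
  linarith

lemma FlatForm.zero_left (h : FlatForm S W Ω) (p u : F) : W p 0 u = 0 := by
  rw [h.alt, h.zero_right, neg_zero]

/-- The form as a continuous bilinear map. -/
noncomputable def FlatForm.clm (h : FlatForm S W Ω) (p : F) : F →L[ℝ] F →L[ℝ] ℝ :=
  LinearMap.toContinuousLinearMap
    ((LinearMap.toContinuousLinearMap : (F →ₗ[ℝ] ℝ) ≃ₗ[ℝ] (F →L[ℝ] ℝ)).toLinearMap ∘ₗ
      LinearMap.mk₂ ℝ (W p) (h.add_left p) (fun c u v => h.smul_left p u v c) (h.add p)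
        (fun c u v => h.smul p u v c))

lemma FlatForm.clm_apply (h : FlatForm S W Ω) (p u v : F) : h.clm p u v = W p u v := rfl

lemma FlatForm.contDiffOn_clm (h : FlatForm S W Ω) : ContDiffOn ℝ 1 h.clm Ω :=
  contDiffOn_clm_apply.2 fun u => contDiffOn_clm_apply.2 fun v => h.smooth u v

lemma FlatForm.contDiffAt_comp (h : FlatForm S W Ω) (hΩ : IsOpen Ω) {τ u v : E → F} {p : E}
    (hp : τ p ∈ Ω) (hτ : ContDiffAt ℝ 1 τ p) (hu : ContDiffAt ℝ 1 u p)
    (hv : ContDiffAt ℝ 1 v p) : ContDiffAt ℝ 1 (fun q => W (τ q) (u q) (v q)) p :=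
  (((h.contDiffOn_clm.contDiffAt (hΩ.mem_nhds hp)).comp p hτ).clm_apply hu).clm_apply hv

/-- Product rule. -/
lemma FlatForm.fderiv_comp (h : FlatForm S W Ω) (hΩ : IsOpen Ω) {τ u v : E → F} {p : E}
    (hp : τ p ∈ Ω) (hτ : DifferentiableAt ℂ τ p) (hu : DifferentiableAt ℂ u p)
    (hv : DifferentiableAt ℂ v p) (α β : ℂ) (x : E) :
    fderiv ℝ (fun q => W (τ q) (α • u q) (β • v q)) p x =
      fderiv ℝ (fun y => W y (α • u p) (β • v p)) (τ p) (fderiv ℂ τ p x) +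
        W (τ p) (α • fderiv ℂ u p x) (β • v p) + W (τ p) (α • u p) (β • fderiv ℂ v p x) := by
  have hc :=
    ((h.contDiffOn_clm.contDiffAt (hΩ.mem_nhds hp)).differentiableAt (by norm_num)).hasFDerivAt
  have h1 := hc.comp p (hτ.hasFDerivAt.restrictScalars ℝ)
  have h2 := (hu.hasFDerivAt.const_smul α).restrictScalars ℝ
  have h3 := (hv.hasFDerivAt.const_smul β).restrictScalars ℝ
  have h4 : fderiv ℝ (fun q => W (τ q) (α • u q) (β • v q)) p = _ :=
    ((h1.clm_apply h2).clm_apply h3).fderiv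
  have h5 : fderiv ℝ (fun y => W y (α • u p) (β • v p)) (τ p) = _ :=
    ((hc.clm_apply (hasFDerivAt_const (α • u p) (τ p))).clm_apply
      (hasFDerivAt_const (β • v p) (τ p))).fderiv
  rw [h4, h5]
  simp only [add_apply, ContinuousLinearMap.comp_apply, ContinuousLinearMap.flip_apply,
    ContinuousLinearMap.coe_restrictScalars', _root_.smul_apply, Function.comp_apply,
    Pi.smul_apply, zero_apply, map_zero, zero_add, FlatForm.clm_apply]
  ring

lemma FlatForm.fderiv_alt (h : FlatForm S W Ω) (p u v x : F) :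
    fderiv ℝ (fun y => W y u v) p x = -fderiv ℝ (fun y => W y v u) p x := by
  have : (fun y => W y u v) = fun y => -W y v u := funext fun y => h.alt y u v
  rw [this, fderiv_fun_neg]
  rfl

lemma FlatForm.self_eq (h : FlatForm S W Ω) {p : F} (hp : p ∈ Ω) (u : F) :
    (S p u u).re = W p ((1 : ℂ) • u) (I • u) := by
  have h1 := h.re_eq p hp u u
  have h2 := h.alt p (I • u) u
  rw [one_smul]
  linarith

end real

end form

variable {X : Type*} [TopologicalSpace X] {A B : Type*} [NormedAddCommGroup A] [NormedSpace ℂ A]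
  [NormedAddCommGroup B] [NormedSpace ℂ B] {𝒬 : Set (OpenPartialHomeomorph X (A × B))}
  {H : OpenPartialHomeomorph X (A × B) → A × B → (A × B) →ₗ⋆[ℂ] (A × B) →ₗ[ℂ] ℂ}
  [FiniteDimensional ℂ A] [FiniteDimensional ℂ B]

section pt

variable {Ψ : ℂ × ℂ → X} {q : ℂ × ℂ} {φ : OpenPartialHomeomorph X (A × B)}
    {f : ℂ → A} {g : ℂ → B}

lemma fA_eq (hQ : KAtlas 𝒬 H) (hφ : φ ∈ 𝒬) (hf : AnalyticAt ℂ f q.1) (hg : AnalyticAt ℂ g q.2)
    (he : ∀ᶠ y in 𝓝 q, Ψ y ∈ φ.source ∧ φ (Ψ y) = (f y.1, g y.2)) :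
    fA 𝒬 H Ψ q = (H φ (f q.1, g q.2) (deriv f q.1, 0) (deriv f q.1, 0)).re := by
  have h1 := he.self_of_nhds
  have h2 := eden_eq hQ (isDisc_fst hφ hf hg he) hφ h1.1
  have h3 := deriv_comp_ab he (hasDerivAt_id q.1) (hasDerivAt_const q.1 q.2) rfl hf hg
  simp only [one_smul, zero_smul, id] at h3
  rw [fA, h2, h3]
  rw [show φ (Ψ (q.1, q.2)) = (f q.1, g q.2) from h1.2]

lemma fD_eq (hQ : KAtlas 𝒬 H) (hφ : φ ∈ 𝒬) (hf : AnalyticAt ℂ f q.1) (hg : AnalyticAt ℂ g q.2)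
    (he : ∀ᶠ y in 𝓝 q, Ψ y ∈ φ.source ∧ φ (Ψ y) = (f y.1, g y.2)) :
    fD 𝒬 H Ψ q = (H φ (f q.1, g q.2) (0, deriv g q.2) (0, deriv g q.2)).re := by
  have h1 := he.self_of_nhds
  have h2 := eden_eq hQ (isDisc_snd hφ hf hg he) hφ h1.1
  have h3 := deriv_comp_ab he (hasDerivAt_const q.2 q.1) (hasDerivAt_id q.2) rfl hf hg
  simp only [one_smul, zero_smul, id] at h3
  rw [fD, h2, h3]
  rw [show φ (Ψ (q.1, q.2)) = (f q.1, g q.2) from h1.2]

lemma fB_eq (hQ : KAtlas 𝒬 H) (hφ : φ ∈ 𝒬) (hf : AnalyticAt ℂ f q.1) (hg : AnalyticAt ℂ g q.2)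
    (he : ∀ᶠ y in 𝓝 q, Ψ y ∈ φ.source ∧ φ (Ψ y) = (f y.1, g y.2)) :
    fB 𝒬 H Ψ q = H φ (f q.1, g q.2) (deriv f q.1, 0) (0, deriv g q.2) := by
  have h1 := he.self_of_nhds
  have hex : ∃ φ ∈ 𝒬, Ψ q ∈ φ.source := ⟨φ, hφ, h1.1⟩
  rw [fB, dif_pos hex]
  obtain ⟨k1, k2⟩ := hex.choose_spec
  have d1 := deriv_chart hQ (isDisc_fst hφ hf hg he) hφ k1 h1.1 k2
  have d2 := deriv_chart hQ (isDisc_snd hφ hf hg he) hφ k1 h1.1 k2
  have h3 := deriv_comp_ab he (hasDerivAt_id q.1) (hasDerivAt_const q.1 q.2) rfl hf hg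
  have h4 := deriv_comp_ab he (hasDerivAt_const q.2 q.1) (hasDerivAt_id q.2) rfl hf hg
  simp only [one_smul, zero_smul, id] at h3 h4
  simp only [Prod.mk.eta] at d1 d2
  rw [d1, d2, h3, h4, ← h1.2]
  exact (hQ.compat φ hφ _ k1 _ h1.1 k2 _ _).symm

open Classical in
/-- `W(α ∂z, β ∂w)`. -/
noncomputable def fW (𝒬 : Set (OpenPartialHomeomorph X (A × B)))
    (W : OpenPartialHomeomorph X (A × B) → A × B → A × B → A × B → ℝ)
    (Ψ : ℂ × ℂ → X) (α β : ℂ) (q : ℂ × ℂ) : ℝ :=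
  if h : ∃ φ ∈ 𝒬, Ψ q ∈ φ.source then
    W h.choose (h.choose (Ψ q)) (α • deriv (fun z => h.choose (Ψ (z, q.2))) q.1)
      (β • deriv (fun w => h.choose (Ψ (q.1, w))) q.2)
  else 0

lemma fW_eq {W : OpenPartialHomeomorph X (A × B) → A × B → A × B → A × B → ℝ}
    (hQ : KAtlas 𝒬 H) (hW : WAtlas 𝒬 H W) (hφ : φ ∈ 𝒬) (hf : AnalyticAt ℂ f q.1)
    (hg : AnalyticAt ℂ g q.2)
    (he : ∀ᶠ y in 𝓝 q, Ψ y ∈ φ.source ∧ φ (Ψ y) = (f y.1, g y.2)) (α β : ℂ) :
    fW 𝒬 W Ψ α β q = W φ (f q.1, g q.2) (α • (deriv f q.1, 0)) (β • (0, deriv g q.2)) := by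
  have h1 := he.self_of_nhds
  have hex : ∃ φ ∈ 𝒬, Ψ q ∈ φ.source := ⟨φ, hφ, h1.1⟩
  rw [fW, dif_pos hex]
  obtain ⟨k1, k2⟩ := hex.choose_spec
  have d1 := deriv_chart hQ (isDisc_fst hφ hf hg he) hφ k1 h1.1 k2
  have d2 := deriv_chart hQ (isDisc_snd hφ hf hg he) hφ k1 h1.1 k2
  have h3 := deriv_comp_ab he (hasDerivAt_id q.1) (hasDerivAt_const q.1 q.2) rfl hf hg
  have h4 := deriv_comp_ab he (hasDerivAt_const q.2 q.1) (hasDerivAt_id q.2) rfl hf hg
  simp only [one_smul, zero_smul, id] at h3 h4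
  simp only [Prod.mk.eta] at d1 d2
  rw [d1, d2, h3, h4, ← h1.2, ← map_smul, ← map_smul]
  exact (hW.compat φ hφ _ k1 _ h1.1 k2 _ _).symm

/-- The energy density of `t ↦ Ψ(a t, b t)` where `a' = b' = 1`. -/
lemma eden_diag (hQ : KAtlas 𝒬 H) {Ψ : ℂ × ℂ → X} {z s : ℂ} (h : IsF 𝒬 Ψ (z, z - s)) :
    eden 𝒬 H (fun y => Ψ (y, y - s)) z =
      eDiag (fA 𝒬 H Ψ) (fD 𝒬 H Ψ) (fB 𝒬 H Ψ) (z, z - s) := by
  have hd : IsDisc 𝒬 (fun y => Ψ (y, y - s)) z :=
    IsF.isDisc (a := fun y => y) (b := fun y => y - s) h analyticAt_id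
      (analyticAt_id.sub analyticAt_const)
  obtain ⟨φ, hφ, f, g, hf, hg, he⟩ := h
  have h1 := he.self_of_nhds
  have h3 := deriv_comp_ab he (hasDerivAt_id z) ((hasDerivAt_id z).sub_const s) rfl hf hg
  simp only [id, one_smul] at h3
  rw [eden_eq hQ hd hφ h1.1, h3, eDiag, fA_eq hQ hφ hf hg he, fB_eq hQ hφ hf hg he,
    fD_eq hQ hφ hf hg he, h1.2]
  have e1 : ((deriv f z, deriv g (z - s)) : A × B) = (deriv f z, 0) + (0, deriv g (z - s)) := by
    simp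
  have hK := hQ.kahler φ hφ
  have hmem : ((f z, g (z - s)) : A × B) ∈ φ.target := by
    rw [← h1.2]; exact φ.map_source h1.1
  have hsym := hK.symm _ hmem (deriv f z, 0) (0, deriv g (z - s))
  simp only at hsym ⊢
  rw [e1]
  simp only [map_add, LinearMap.add_apply, add_re]
  rw [← hsym, Complex.conj_re]
  ring

end pt

section flatK

variable {Ψ : ℂ × ℂ → X} {p : ℂ × ℂ} {φ : OpenPartialHomeomorph X (A × B)}
    {f : ℂ → A} {g : ℂ → B}

/-- The local expressions of `fA`, `fB`, `fD`. -/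
lemma local_eq (hQ : KAtlas 𝒬 H) (hφ : φ ∈ 𝒬) (hf : AnalyticAt ℂ f p.1) (hg : AnalyticAt ℂ g p.2)
    (he : ∀ᶠ y in 𝓝 p, Ψ y ∈ φ.source ∧ φ (Ψ y) = (f y.1, g y.2)) :
    (fA 𝒬 H Ψ =ᶠ[𝓝 p] fun q => (H φ (f q.1, g q.2) (deriv f q.1, 0) (deriv f q.1, 0)).re) ∧
    (fD 𝒬 H Ψ =ᶠ[𝓝 p] fun q => (H φ (f q.1, g q.2) (0, deriv g q.2) (0, deriv g q.2)).re) ∧
    (fB 𝒬 H Ψ =ᶠ[𝓝 p] fun q => H φ (f q.1, g q.2) (deriv f q.1, 0) (0, deriv g q.2)) := by
  have h := IsF.chart_nhds hf hg he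
  refine ⟨?_, ?_, ?_⟩
  · filter_upwards [h] with q hq
    exact fA_eq hQ hφ hq.1 hq.2.1 hq.2.2
  · filter_upwards [h] with q hq
    exact fD_eq hQ hφ hq.1 hq.2.1 hq.2.2
  · filter_upwards [h] with q hq
    exact fB_eq hQ hφ hq.1 hq.2.1 hq.2.2

/-- The values of a Hermitian form on the diagonal are real. -/
lemma ofReal_form_self (hQ : KAtlas 𝒬 H) (hφ : φ ∈ 𝒬) {x : A × B} (hx : x ∈ φ.target)
    (v : A × B) : (((H φ x v v).re : ℝ) : ℂ) = H φ x v v :=
  Complex.conj_eq_iff_re.1 ((hQ.kahler φ hφ).symm x hx v v)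

/-- **The pulled back metric of an F-map.** -/
theorem _root_.Vale.Agent.P278.Full.FOn.flatK_auxT
    {W : OpenPartialHomeomorph X (A × B) → A × B → A × B → A × B → ℝ}
    (hQ : KAtlas 𝒬 H) (hW : WAtlas 𝒬 H W) {Ω : Set (ℂ × ℂ)} (hΩ : IsOpen Ω) (hΨ : FOn 𝒬 Ψ Ω)
    {K : ℝ} (hK : ∀ p ∈ Ω, 0 ≤ eDiag (fA 𝒬 H Ψ) (fD 𝒬 H Ψ) (fB 𝒬 H Ψ) p ∧
      (fW 𝒬 W Ψ I 1 p - fD 𝒬 H Ψ p) ^ 2 + (-fW 𝒬 W Ψ 1 1 p) ^ 2 ≤
        K ^ 2 * (eDiag (fA 𝒬 H Ψ) (fD 𝒬 H Ψ) (fB 𝒬 H Ψ) p) ^ 2) :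
    FlatK Ω K (fA 𝒬 H Ψ) (fD 𝒬 H Ψ) (fB 𝒬 H Ψ) := by
  haveI := FiniteDimensional.complete ℂ A
  haveI := FiniteDimensional.complete ℂ B
  have key : ∀ p ∈ Ω, ContDiffAt ℝ 1 (fA 𝒬 H Ψ) p ∧ ContDiffAt ℝ 1 (fD 𝒬 H Ψ) p ∧
      ContDiffAt ℝ 1 (fB 𝒬 H Ψ) p ∧ (∀ α β, ContDiffAt ℝ 1 (fW 𝒬 W Ψ α β) p) ∧
      fderiv ℝ (fA 𝒬 H Ψ) p (0, 1) =
        fderiv ℝ (fW 𝒬 W Ψ 1 1) p (I, 0) - fderiv ℝ (fW 𝒬 W Ψ I 1) p (1, 0) ∧
      fderiv ℝ (fA 𝒬 H Ψ) p (0, I) =
        fderiv ℝ (fW 𝒬 W Ψ 1 I) p (I, 0) - fderiv ℝ (fW 𝒬 W Ψ I I) p (1, 0) ∧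
      fderiv ℝ (fD 𝒬 H Ψ) p (1, 0) =
        fderiv ℝ (fW 𝒬 W Ψ 1 I) p (0, 1) - fderiv ℝ (fW 𝒬 W Ψ 1 1) p (0, I) ∧
      2 * (fB 𝒬 H Ψ p).re = fW 𝒬 W Ψ 1 I p - fW 𝒬 W Ψ I 1 p := by
    intro p hp
    obtain ⟨φ, hφ, f, g, hf, hg, he⟩ := hΨ p hp
    obtain ⟨ea, ed, eb⟩ := local_eq hQ hφ hf hg he
    have hS := hQ.kahler φ hφ
    have hmem' : ∀ᶠ q in 𝓝 p, ((f q.1, g q.2) : A × B) ∈ φ.target := by
      filter_upwards [he] with q hq
      rw [← hq.2]; exact φ.map_source hq.1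
    have hmem : ((f p.1, g p.2) : A × B) ∈ φ.target := hmem'.self_of_nhds
    set τ : ℂ × ℂ → A × B := fun q => (f q.1, g q.2) with hτdef
    set U : ℂ × ℂ → A × B := fun q => (deriv f q.1, 0) with hUdef
    set V : ℂ × ℂ → A × B := fun q => (0, deriv g q.2) with hVdef
    have hT : AnalyticAt ℂ τ p := (hf.comp' analyticAt_fst).prod (hg.comp' analyticAt_snd)
    have hU : AnalyticAt ℂ U p :=
      (AnalyticAt.comp' (g := deriv f) hf.deriv analyticAt_fst).prod analyticAt_const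
    have hV : AnalyticAt ℂ V p :=
      analyticAt_const.prod (AnalyticAt.comp' (g := deriv g) hg.deriv analyticAt_snd)
    have cT : ContDiffAt ℝ 1 τ p := hT.contDiffAt.restrict_scalars ℝ
    have cU : ContDiffAt ℝ 1 U p := hU.contDiffAt.restrict_scalars ℝ
    have cV : ContDiffAt ℝ 1 V p := hV.contDiffAt.restrict_scalars ℝ
    have cUU := contDiffAt_form (u := U) (v := U) hS hmem cT cU cU
    have cVV := contDiffAt_form (u := V) (v := V) hS hmem cT cV cV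
    have cUV := contDiffAt_form (u := U) (v := V) hS hmem cT cU cV
    have ca : ContDiffAt ℝ 1 (fA 𝒬 H Ψ) p :=
      (Complex.reCLM.contDiff.contDiffAt.comp p cUU).congr_of_eventuallyEq ea
    have cd : ContDiffAt ℝ 1 (fD 𝒬 H Ψ) p :=
      (Complex.reCLM.contDiff.contDiffAt.comp p cVV).congr_of_eventuallyEq ed
    have cb : ContDiffAt ℝ 1 (fB 𝒬 H Ψ) p := cUV.congr_of_eventuallyEq eb
    have hF := hW.form φ hφ
    have ew : ∀ α β, fW 𝒬 W Ψ α β =ᶠ[𝓝 p] fun q => W φ (τ q) (α • U q) (β • V q) := by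
      intro α β
      filter_upwards [IsF.chart_nhds hf hg he] with q hq
      exact fW_eq hQ hW hφ hq.1 hq.2.1 hq.2.2 α β
    have cw : ∀ α β, ContDiffAt ℝ 1 (fW 𝒬 W Ψ α β) p := fun α β =>
      (hF.contDiffAt_comp φ.open_target (u := fun q => α • U q) (v := fun q => β • V q) hmem cT
        (cU.const_smul α) (cV.const_smul β)).congr_of_eventuallyEq (ew α β)
    have ea' : fA 𝒬 H Ψ =ᶠ[𝓝 p] fun q => W φ (τ q) ((1 : ℂ) • U q) (I • U q) := by
      filter_upwards [ea, hmem'] with q hq hq'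
      rw [hq]; exact hF.self_eq hq' _
    have ed' : fD 𝒬 H Ψ =ᶠ[𝓝 p] fun q => W φ (τ q) ((1 : ℂ) • V q) (I • V q) := by
      filter_upwards [ed, hmem'] with q hq hq'
      rw [hq]; exact hF.self_eq hq' _
    -- the derivatives of `τ`, `U`, `V`
    have fdf : HasFDerivAt (fun q : ℂ × ℂ => f q.1)
        ((ContinuousLinearMap.toSpanSingleton ℂ (deriv f p.1)).comp
          (ContinuousLinearMap.fst ℂ ℂ ℂ)) p :=
      HasFDerivAt.comp p (hf.differentiableAt.hasDerivAt.hasFDerivAt) hasFDerivAt_fst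
    have fdg : HasFDerivAt (fun q : ℂ × ℂ => g q.2)
        ((ContinuousLinearMap.toSpanSingleton ℂ (deriv g p.2)).comp
          (ContinuousLinearMap.snd ℂ ℂ ℂ)) p :=
      HasFDerivAt.comp p (hg.differentiableAt.hasDerivAt.hasFDerivAt) hasFDerivAt_snd
    have fdf' : HasFDerivAt (fun q : ℂ × ℂ => deriv f q.1)
        ((ContinuousLinearMap.toSpanSingleton ℂ (deriv (deriv f) p.1)).comp
          (ContinuousLinearMap.fst ℂ ℂ ℂ)) p :=
      HasFDerivAt.comp p (hf.deriv.differentiableAt.hasDerivAt.hasFDerivAt) hasFDerivAt_fst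
    have fdg' : HasFDerivAt (fun q : ℂ × ℂ => deriv g q.2)
        ((ContinuousLinearMap.toSpanSingleton ℂ (deriv (deriv g) p.2)).comp
          (ContinuousLinearMap.snd ℂ ℂ ℂ)) p :=
      HasFDerivAt.comp p (hg.deriv.differentiableAt.hasDerivAt.hasFDerivAt) hasFDerivAt_snd
    have dT := (fdf.prodMk fdg).fderiv
    have dU := (fdf'.prodMk (hasFDerivAt_const (0 : B) p)).fderiv
    have dV := ((hasFDerivAt_const (0 : A) p).prodMk fdg').fderiv
    have dT1 : fderiv ℂ τ p (1, 0) = U p := by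
      rw [hτdef, dT]; simp only [ContinuousLinearMap.prod_apply, ContinuousLinearMap.comp_apply, ContinuousLinearMap.coe_fst', ContinuousLinearMap.toSpanSingleton_apply, one_smul, ContinuousLinearMap.coe_snd', zero_smul, hUdef]
    have dT2 : fderiv ℂ τ p (0, 1) = V p := by
      rw [hτdef, dT]; simp only [ContinuousLinearMap.prod_apply, ContinuousLinearMap.comp_apply, ContinuousLinearMap.coe_fst', ContinuousLinearMap.toSpanSingleton_apply, zero_smul, ContinuousLinearMap.coe_snd', one_smul, hVdef]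
    have dU2 : fderiv ℂ U p (0, 1) = 0 := by
      rw [hUdef, dU]; simp
    have dV1 : fderiv ℂ V p (1, 0) = 0 := by
      rw [hVdef, dV]; simp only [ContinuousLinearMap.prod_apply, zero_apply, ContinuousLinearMap.comp_apply, ContinuousLinearMap.coe_snd', ContinuousLinearMap.toSpanSingleton_apply, zero_smul, Prod.mk_eq_zero, and_self]
    have sI1 : ((I, 0) : ℂ × ℂ) = I • ((1, 0) : ℂ × ℂ) := by simp
    have sI2 : ((0, I) : ℂ × ℂ) = I • ((0, 1) : ℂ × ℂ) := by simp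
    have main := fun (u v : ℂ × ℂ → A × B) (hu : AnalyticAt ℂ u p) (hv : AnalyticAt ℂ v p) =>
      hF.fderiv_comp φ.open_target (τ := τ) (u := u) (v := v) hmem hT.differentiableAt
        hu.differentiableAt hv.differentiableAt
    have hU2 : (U p).2 = 0 := rfl
    have hV1 : (V p).1 = 0 := rfl
    have hIV1 : (I • V p).1 = 0 := smul_zero I
    obtain ⟨c1, c2⟩ := hW.closed φ hφ _ hmem (U p) (V p) hU2 hV1
    obtain ⟨c3, -⟩ := hW.closed φ hφ _ hmem (U p) (I • V p) hU2 hIV1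
    unfold dForm at c1 c2 c3
    refine ⟨ca, cd, cb, cw, ?_, ?_, ?_, ?_⟩
    · rw [ea'.fderiv_eq, (ew 1 1).fderiv_eq, (ew I 1).fderiv_eq, main U U hU hU, main U V hU hV,
        main U V hU hV, sI1]
      simp only [map_smul, dT1, dT2, dU2, dV1, smul_zero, one_smul, hF.zero_left, hF.zero_right]
      rw [hF.fderiv_alt _ (V p) (U p)] at c1
      linarith only [c1]
    · rw [ea'.fderiv_eq, (ew 1 I).fderiv_eq, (ew I I).fderiv_eq, main U U hU hU, main U V hU hV,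
        main U V hU hV, sI1, sI2]
      simp only [map_smul, dT1, dT2, dU2, dV1, smul_zero, one_smul, hF.zero_left, hF.zero_right]
      rw [hF.fderiv_alt _ (I • V p) (U p)] at c3
      linarith only [c3]
    · rw [ed'.fderiv_eq, (ew 1 I).fderiv_eq, (ew 1 1).fderiv_eq, main V V hV hV, main U V hU hV,
        main U V hU hV, sI2]
      simp only [map_smul, dT1, dT2, dU2, dV1, smul_zero, one_smul, hF.zero_left, hF.zero_right]
      rw [hF.fderiv_alt _ (I • V p) (U p)] at c2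
      linarith only [c2]
    · rw [eb.self_of_nhds, (ew 1 I).self_of_nhds, (ew I 1).self_of_nhds]
      simp only [one_smul]
      exact hF.re_eq _ hmem _ _
  exact
  { isOpen := hΩ
    a_diff := fun p hp => (key p hp).1.contDiffWithinAt
    d_diff := fun p hp => (key p hp).2.1.contDiffWithinAt
    b_diff := fun p hp => (key p hp).2.2.1.contDiffWithinAt
    a_nonneg := fun p hp => eden_nonneg hQ
    e_nonneg := fun p hp => (hK p hp).1
    laws := ⟨fW 𝒬 W Ψ 1 1, fW 𝒬 W Ψ 1 I, fW 𝒬 W Ψ I 1, fW 𝒬 W Ψ I I,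
      { P_diff := fun p hp => ((key p hp).2.2.2.1 _ _).contDiffWithinAt
        Q_diff := fun p hp => ((key p hp).2.2.2.1 _ _).contDiffWithinAt
        R_diff := fun p hp => ((key p hp).2.2.2.1 _ _).contDiffWithinAt
        S_diff := fun p hp => ((key p hp).2.2.2.1 _ _).contDiffWithinAt
        a3 := fun p hp => (key p hp).2.2.2.2.1
        a4 := fun p hp => (key p hp).2.2.2.2.2.1
        d1 := fun p hp => (key p hp).2.2.2.2.2.2.1
        re_b := fun p hp => (key p hp).2.2.2.2.2.2.2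
        bound := fun p hp => (hK p hp).2 }⟩ }

/-- `eDiag` in an F-chart. -/
lemma eDiag_eq (hQ : KAtlas 𝒬 H) (hφ : φ ∈ 𝒬) (hf : AnalyticAt ℂ f p.1) (hg : AnalyticAt ℂ g p.2)
    (he : ∀ᶠ y in 𝓝 p, Ψ y ∈ φ.source ∧ φ (Ψ y) = (f y.1, g y.2)) :
    eDiag (fA 𝒬 H Ψ) (fD 𝒬 H Ψ) (fB 𝒬 H Ψ) p =
      (H φ (f p.1, g p.2) (deriv f p.1, deriv g p.2) (deriv f p.1, deriv g p.2)).re := by
  have h1 := he.self_of_nhds
  rw [eDiag, fA_eq hQ hφ hf hg he, fB_eq hQ hφ hf hg he, fD_eq hQ hφ hf hg he]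
  have e1 : ((deriv f p.1, deriv g p.2) : A × B) = (deriv f p.1, 0) + (0, deriv g p.2) := by
    simp
  have hK := hQ.kahler φ hφ
  have hmem : ((f p.1, g p.2) : A × B) ∈ φ.target := by
    rw [← h1.2]; exact φ.map_source h1.1
  have hsym := hK.symm _ hmem (deriv f p.1, 0) (0, deriv g p.2)
  rw [e1]
  simp only [map_add, LinearMap.add_apply, Complex.add_re]
  rw [← hsym, Complex.conj_re]
  ring

/-- The constant `K`. -/
theorem exists_proj_bound {W : OpenPartialHomeomorph X (A × B) → A × B → A × B → A × B → ℝ}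
    (hQ : KAtlas 𝒬 H) (hW : WAtlas 𝒬 H W) : ∃ K : ℝ, 1 ≤ K ∧
    ∀ (Ψ : ℂ × ℂ → X) (q : ℂ × ℂ), IsF 𝒬 Ψ q →
      0 ≤ eDiag (fA 𝒬 H Ψ) (fD 𝒬 H Ψ) (fB 𝒬 H Ψ) q ∧
      (fW 𝒬 W Ψ I 1 q - fD 𝒬 H Ψ q) ^ 2 + (-fW 𝒬 W Ψ 1 1 q) ^ 2 ≤
        K ^ 2 * (eDiag (fA 𝒬 H Ψ) (fD 𝒬 H Ψ) (fB 𝒬 H Ψ) q) ^ 2 := by
  haveI := FiniteDimensional.complete ℂ A
  haveI := FiniteDimensional.complete ℂ B
  obtain ⟨δ, hδ, c, hc, C, hC, hbox⟩ := hW.box
  have hCc : 0 < C / c := div_pos hC hc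
  refine ⟨1 + 3 * (C / c), by linarith, fun Ψ q hq => ?_⟩
  obtain ⟨φ, hφ, hs, -, hb⟩ := hbox (Ψ q)
  obtain ⟨f, g, hf, hg, he⟩ := hq.chartT hQ hφ hs
  rw [eDiag_eq hQ hφ hf hg he, fD_eq hQ hφ hf hg he, fW_eq hQ hW hφ hf hg he,
    fW_eq hQ hW hφ hf hg he]
  have hx : ((f q.1, g q.2) : A × B) ∈ closedBall (φ (Ψ q)) δ := by
    rw [he.self_of_nhds.2]; exact mem_closedBall_self hδ.le
  have h0 := ((hb _ hx).1 (deriv f q.1, deriv g q.2)).1
  have h2 := (hb _ hx).1 (0, deriv g q.2)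
  have h7 := (hb _ hx).2 (I • (deriv f q.1, 0)) ((1 : ℂ) • (0, deriv g q.2))
  have h8 := (hb _ hx).2 ((1 : ℂ) • (deriv f q.1, 0)) ((1 : ℂ) • (0, deriv g q.2))
  rw [norm_smul, norm_smul, Complex.norm_I, norm_one, one_mul, one_mul] at h7
  rw [norm_smul, norm_smul, norm_one, one_mul, one_mul] at h8
  have n0 : 0 ≤ ‖((deriv f q.1, deriv g q.2) : A × B)‖ := norm_nonneg _
  have n1 : ‖((deriv f q.1, 0) : A × B)‖ ≤ ‖((deriv f q.1, deriv g q.2) : A × B)‖ := by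
    simp only [Prod.norm_def, norm_zero, norm_nonneg, sup_of_le_left, le_sup_left]
  have n2 : ‖((0, deriv g q.2) : A × B)‖ ≤ ‖((deriv f q.1, deriv g q.2) : A × B)‖ := by
    simp only [Prod.norm_def, norm_zero, norm_nonneg, sup_of_le_right, le_sup_right]
  set N := ‖((deriv f q.1, deriv g q.2) : A × B)‖ with hN
  set e := (H φ (f q.1, g q.2) (deriv f q.1, deriv g q.2) (deriv f q.1, deriv g q.2)).re with he'
  set d := (H φ (f q.1, g q.2) (0, deriv g q.2) (0, deriv g q.2)).re with hd'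
  set R := W φ (f q.1, g q.2) (I • (deriv f q.1, 0)) ((1 : ℂ) • (0, deriv g q.2)) with hR
  set P := W φ (f q.1, g q.2) ((1 : ℂ) • (deriv f q.1, 0)) ((1 : ℂ) • (0, deriv g q.2)) with hP
  have h3 : C * N ^ 2 ≤ (C / c) * e := by
    rw [div_mul_eq_mul_div, le_div_iff₀ hc]
    linarith only [mul_nonneg (le_of_lt (sub_pos.2 hC)) (sub_nonneg.2 h0)]
  have he0 : 0 ≤ e := le_trans (by (clear * - hc; positivity)) h0
  have hd0 : 0 ≤ d := le_trans (by (clear * - hc; positivity)) h2.1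
  have h6 : C * ‖((0, deriv g q.2) : A × B)‖ ^ 2 ≤ C * N ^ 2 :=
    mul_le_mul_of_nonneg_left (pow_le_pow_left₀ (norm_nonneg _) n2 2) hC.le
  have h5 : C * ‖((deriv f q.1, 0) : A × B)‖ * ‖((0, deriv g q.2) : A × B)‖ ≤ C * N ^ 2 := by
    rw [mul_assoc, sq]
    exact mul_le_mul_of_nonneg_left (mul_le_mul n1 n2 (norm_nonneg _) n0) hC.le
  set m := C / c * e with hm
  have hm0 : 0 ≤ m := mul_nonneg hCc.le he0
  have k1 := abs_le.1 (h7.trans (h5.trans h3))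
  have k2 := abs_le.1 (h8.trans (h5.trans h3))
  have k3 : d ≤ m := h2.2.trans (h6.trans h3)
  have k4 : (R - d) ^ 2 ≤ (2 * m) ^ 2 :=
    sq_le_sq' (by linarith only [k1.1, k3]) (by linarith only [k1.2, hd0, hm0])
  have k5 : (-P) ^ 2 ≤ m ^ 2 := sq_le_sq' (by linarith only [k2.2]) (by linarith only [k2.1])
  have k6 : (3 * m) ^ 2 ≤ ((1 + 3 * (C / c)) * e) ^ 2 :=
    pow_le_pow_left₀ (by linarith only [hm0]) (by rw [hm]; linarith only [he0]) 2
  refine ⟨he0, ?_⟩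
  rw [← mul_pow]
  nlinarith only [k4, k5, k6, sq_nonneg m]

/-- **The pulled back metric of an F-map.** -/
theorem exists_flatK (hQ : KAtlas 𝒬 H) : ∃ K : ℝ, 1 ≤ K ∧
    ∀ (Ψ : ℂ × ℂ → X) (Ω : Set (ℂ × ℂ)), IsOpen Ω → FOn 𝒬 Ψ Ω →
      FlatK Ω K (fA 𝒬 H Ψ) (fD 𝒬 H Ψ) (fB 𝒬 H Ψ) := by
  obtain ⟨W, hW⟩ := hQ.tame
  obtain ⟨K, hK, h⟩ := exists_proj_bound hQ hW
  exact ⟨K, hK, fun Ψ Ω hΩ hΨ => FOn.flatK_auxT hQ hW hΩ hΨ (fun p hp => h Ψ p (hΨ p hp))⟩

end flatK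

end Vale.Agent.P278.Full.T
end
end

section

section

/-! Lemma P (finite propagation) and the energy bound of Lemma T, for F-maps. -/

open Set Topology Filter Metric MeasureTheory Complex
open scoped ContDiff ComplexConjugate ENNReal

set_option linter.all false

namespace Vale.Agent.P278.Full.T

variable {X : Type*} [TopologicalSpace X] {A B : Type*} [NormedAddCommGroup A] [NormedSpace ℂ A]
  [NormedAddCommGroup B] [NormedSpace ℂ B] {𝒬 : Set (OpenPartialHomeomorph X (A × B))}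
  {H : OpenPartialHomeomorph X (A × B) → A × B → (A × B) →ₗ⋆[ℂ] (A × B) →ₗ[ℂ] ℂ}
  [FiniteDimensional ℂ A] [FiniteDimensional ℂ B]

/-- The energy as a real integral. -/
lemma energy_eq_ofReal (hQ : KAtlas 𝒬 H) {u : ℂ → X} {S : Set ℂ} {e : ℂ → ℝ} (hS : IsCompact S)
    (he : ContinuousOn e S) (h : ∀ z ∈ S, eden 𝒬 H u z = e z) :
    energy 𝒬 H u S = ENNReal.ofReal (∫ z in S, e z) := by
  have h1 : IntegrableOn e S := he.integrableOn_compact hS
  have h2 : 0 ≤ᵐ[volume.restrict S] e := by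
    filter_upwards [ae_restrict_mem hS.measurableSet] with z hz
    rw [← h z hz]; exact eden_nonneg hQ
  rw [ofReal_integral_eq_lintegral_ofReal h1 h2, energy]
  apply lintegral_congr_ae
  filter_upwards [ae_restrict_mem hS.measurableSet] with z hz
  rw [h z hz]

/-- **Lemma P** for F-maps on the touching ball: a uniform energy bound. -/
theorem exists_diag_energy_bound (hQ : KAtlas 𝒬 H) {Ψ : ℂ × ℂ → X}
    (hΨ : FOn 𝒬 Ψ touchBall) :
    ∃ s₁ > 0, ∃ A₀ : ℝ≥0∞, A₀ ≠ ⊤ ∧ ∀ s : ℝ, 0 < s → s < s₁ →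
      energy 𝒬 H (fun z => Ψ (z, z - s)) (ball 0 (√s / 2)) ≤ A₀ := by
  obtain ⟨K, hK, hfl⟩ := exists_flatK (X := X) hQ
  have hto : IsOpen touchBall := isOpen_lt (by (clear * -; fun_prop)) (by fun_prop)
  have h := hfl Ψ touchBall hto hΨ
  have hK0 : 0 < K := by linarith
  set s₁ : ℝ := 1 / (64 * K ^ 2) with hs₁
  have hs₁0 : 0 < s₁ := by positivity
  have hsq₁ : √s₁ = 1 / (8 * K) := by
    rw [hs₁, show (1 : ℝ) / (64 * K ^ 2) = (1 / (8 * K)) ^ 2 by field_simp; norm_num]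
    exact Real.sqrt_sq (by positivity)
  have hs₁16 : s₁ ≤ 1 / 16 := by
    rw [hs₁]
    apply one_div_le_one_div_of_le (by norm_num)
    nlinarith only [hK]
  set e : ℂ × ℂ → ℝ := eDiag (fA 𝒬 H Ψ) (fD 𝒬 H Ψ) (fB 𝒬 H Ψ) with he
  have hec : ContinuousOn e touchBall := by
    exact (h.a_diff.continuousOn.add (ContinuousOn.mul (f := fun _ => (2 : ℝ)) continuousOn_const
      (Complex.continuous_re.comp_continuousOn h.b_diff.continuousOn))).add h.d_diff.continuousOn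
  have hen : ∀ (s ρ : ℝ), (∀ z ∈ closedBall (0 : ℂ) ρ, ((z, z - s) : ℂ × ℂ) ∈ touchBall) →
      energy 𝒬 H (fun z => Ψ (z, z - s)) (closedBall 0 ρ) =
        ENNReal.ofReal (∫ z in closedBall (0 : ℂ) ρ, e (z, z - s)) := by
    intro s ρ hz
    apply energy_eq_ofReal hQ (isCompact_closedBall _ _)
    · exact hec.comp (by fun_prop) hz
    · intro z hz'
      exact eden_diag hQ (hΨ _ (hz z hz'))
  refine ⟨s₁, hs₁0, energy 𝒬 H (fun z => Ψ (z, z - s₁)) (closedBall 0 (3 / 4 * √s₁)), ?_, ?_⟩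
  · rw [hen]
    · exact ENNReal.ofReal_ne_top
    · intro z hz
      rw [mem_closedBall_zero_iff] at hz
      exact diag_mem_ball hs₁0 hs₁16 hz
  · intro s hs hss
    have hsq : 0 < √s := Real.sqrt_pos.2 hs
    -- the cone
    have hcone : ∀ σ ∈ Icc s s₁, √s / 2 + 2 * (√s / 16) + K * (σ - s) ≤ 3 / 4 * √σ := by
      intro σ hσ
      have hσ0 : 0 < σ := lt_of_lt_of_le hs hσ.1
      have h1 : √s ≤ √σ := Real.sqrt_le_sqrt hσ.1
      have h2 : √σ ≤ 1 / (8 * K) := hsq₁ ▸ Real.sqrt_le_sqrt hσ.2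
      have h3 : √σ * √σ = σ := Real.mul_self_sqrt hσ0.le
      have h4 : K * √σ ≤ 1 / 8 := by
        calc K * √σ ≤ K * (1 / (8 * K)) := mul_le_mul_of_nonneg_left h2 hK0.le
          _ = 1 / 8 := by field_simp
      have h5 : K * σ ≤ √σ / 8 := by
        calc K * σ = (K * √σ) * √σ := by rw [mul_assoc, h3]
          _ ≤ 1 / 8 * √σ := mul_le_mul_of_nonneg_right h4 (Real.sqrt_nonneg _)
          _ = √σ / 8 := by ring
      have h6 : 0 ≤ K * s := by (clear * - hK hs; positivity)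
      linarith only [h6, h5, h1]
    have h1 := h.energy_mono hK0.le (r := √s / 2) (δ := √s / 16) (by (clear * - hs; positivity)) hss.le (by
      intro σ hσ z hz
      have hσ0 : 0 < σ := lt_of_lt_of_le hs hσ.1
      exact diag_mem_ball hσ0 (hσ.2.trans hs₁16) (hz.trans (hcone σ hσ)))
    calc energy 𝒬 H (fun z => Ψ (z, z - s)) (ball 0 (√s / 2))
        ≤ energy 𝒬 H (fun z => Ψ (z, z - s)) (closedBall 0 (√s / 2)) :=
          lintegral_mono_set ball_subset_closedBall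
      _ = ENNReal.ofReal (∫ z in closedBall (0 : ℂ) (√s / 2), e (z, z - s)) := by
          apply hen
          intro z hz
          rw [mem_closedBall_zero_iff] at hz
          exact diag_mem_ball hs (hss.le.trans hs₁16) (hz.trans (by linarith only [hsq]))
      _ ≤ ENNReal.ofReal (∫ z in closedBall (0 : ℂ)
            (√s / 2 + 2 * (√s / 16) + K * (s₁ - s)), e (z, z - s₁)) :=
          ENNReal.ofReal_le_ofReal h1
      _ = energy 𝒬 H (fun z => Ψ (z, z - s₁)) (closedBall 0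
            (√s / 2 + 2 * (√s / 16) + K * (s₁ - s))) := by
          symm
          apply hen
          intro z hz
          rw [mem_closedBall_zero_iff] at hz
          exact diag_mem_ball hs₁0 hs₁16 (hz.trans (hcone s₁ ⟨hss.le, le_rfl⟩))
      _ ≤ _ := lintegral_mono_set (closedBall_subset_closedBall (hcone s₁ ⟨hss.le, le_rfl⟩))

/-- **The energy bound of Lemma T** for F-maps. -/
theorem exists_energy_bound (hQ : KAtlas 𝒬 H) {Ψ : ℂ × ℂ → X} {z₀ w₀ τ : ℂ}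
    {R T : ℝ} (h1 : ∀ z ∈ closedBall z₀ R, ∀ t ∈ Ico 0 T, IsF 𝒬 Ψ (z, w₀ + t • τ))
    (h2 : ∀ z ∈ sphere z₀ R, IsF 𝒬 Ψ (z, w₀ + T • τ)) :
    ∃ A₀ : ℝ≥0∞, A₀ ≠ ⊤ ∧ ∀ t ∈ Ico 0 T,
      energy 𝒬 H (fun z => Ψ (z, w₀ + t • τ)) (closedBall z₀ R) ≤ A₀ := by
  haveI := FiniteDimensional.complete ℂ A
  haveI := FiniteDimensional.complete ℂ B
  obtain ⟨K, hK, hfl⟩ := exists_flatK (X := X) hQ
  set Ω : Set (ℂ × ℂ) := {p | IsF 𝒬 Ψ p} with hΩ
  have hΩo : IsOpen Ω := by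
    rw [isOpen_iff_mem_nhds]
    intro p hp
    exact IsF.eventually hp
  have h := hfl Ψ Ω hΩo fun p hp => hp
  obtain ⟨A₁, hA₁⟩ := h.exists_energy_bound h1 h2
  refine ⟨ENNReal.ofReal A₁, ENNReal.ofReal_ne_top, fun t ht => ?_⟩
  have h3 : energy 𝒬 H (fun z => Ψ (z, w₀ + t • τ)) (closedBall z₀ R) =
      ENNReal.ofReal (∫ z in closedBall z₀ R, fA 𝒬 H Ψ (z, w₀ + t • τ)) := by
    apply energy_eq_ofReal hQ (isCompact_closedBall _ _)
    · exact h.a_diff.continuousOn.comp (by fun_prop) fun z hz => h1 z hz t ht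
    · intro z hz
      rfl
  rw [h3]
  exact ENNReal.ofReal_le_ofReal (hA₁ t ht)

/-- The energy bound of Lemma T in the form used in `T_step`. -/
theorem exists_energy_bound_T (hQ : KAtlas 𝒬 H) {Ψ : ℂ × ℂ → X} {z₀ : ℂ}
    {ρ T : ℝ} (h1 : ∀ z ∈ closedBall z₀ ρ, ∀ t ∈ Ico 0 T, IsF 𝒬 Ψ (z, (t : ℂ)))
    (h2 : ∀ z ∈ sphere z₀ ρ, IsF 𝒬 Ψ (z, (T : ℂ))) :
    ∃ A₀ : ℝ, ∀ t ∈ Ico 0 T,
      energy 𝒬 H (fun z => Ψ (z, (t : ℂ))) (closedBall z₀ ρ) ≤ ENNReal.ofReal A₀ := by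
  have e : ∀ t : ℝ, (0 : ℂ) + t • (1 : ℂ) = (t : ℂ) := fun t => by simp
  obtain ⟨A₀, hA, hb⟩ := exists_energy_bound (Ψ := Ψ) (z₀ := z₀) (w₀ := 0) (τ := 1) (R := ρ)
    (T := T) hQ (fun z hz t ht => by rw [e]; exact h1 z hz t ht)
    (fun z hz => by rw [e]; exact h2 z hz)
  refine ⟨A₀.toReal, fun t ht => ?_⟩
  have := hb t ht
  simp only [e] at this
  rwa [ENNReal.ofReal_toReal hA]

end Vale.Agent.P278.Full.T
end
end
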