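import Vale.Agent.N278T.C2

set_option linter.all false

attribute [local instance] AFastae031ax6a.a0 AFastae031ax6a.a1 AFastae031ax6a.a2 AFastae031ax6a.a3
  AFastae031ax6a.a4 AFastae031ax6a.a5 AFastae031ax6a.a6 AFastae031ax6a.a7 AFastae031ax6a.a8
  AFastae031ax6a.a9 AFastae031ax6a.a10 AFastae031ax6a.a11 AFastae031ax6a.a12 AFastae031ax6a.a13
  AFastae031ax6a.a14 AFastae031ax6a.a15 AFastae031ax6a.a16 AFastae031ax6a.a17 AFastae031ax6a.a18
  AFastae031ax6a.a19 AFastae031ax6a.a20 AFastae031ax6a.a21 AFastae031ax6a.a22 AFastae031ax6a.a23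
  AFastae031ax6a.a24 AFastae031ax6a.a25 AFastae031ax6a.a26 AFastae031ax6a.a27 AFastae031ax6a.a28
  AFastae031ax6a.a29 AFastae031ax6a.a30 AFastae031ax6a.a31 AFastae031ax6a.a32 AFastae031ax6a.a33
  AFastae031ax6a.a34 AFastae031ax6a.a35 AFastae031ax6a.a36 AFastae031ax6a.a37 AFastae031ax6a.a38
  AFastae031ax6a.a39 AFastae031ax6a.a40 AFastae031ax6a.a41 AFastae031ax6a.a42 AFastae031ax6a.a43
  AFastae031ax6a.a44 AFastae031ax6a.a45 AFastae031ax6a.a46 AFastae031ax6a.a47 AFastae031ax6a.a48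
  AFastae031ax6a.a49 AFastae031ax6a.a50 AFastae031ax6a.a51 AFastae031ax6a.a52 AFastae031ax6a.a53
  AFastae031ax6a.a54 AFastae031ax6a.a55 AFastae031ax6a.a56 AFastae031ax6a.a57 AFastae031ax6a.a58
  AFastae031ax6a.a59 AFastae031ax6a.a60 AFastae031ax6a.a61 AFastae031ax6a.a62 AFastae031ax6a.a63
  AFastae031ax6a.a64 AFastae031ax6a.a65 AFastae031ax6a.a66 AFastae031ax6a.a67 AFastae031ax6a.a68
  AFastae031ax6a.a69 AFastae031ax6a.a70 AFastae031ax6a.a71 AFastae031ax6a.a72 AFastae031ax6a.a73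
attribute [local instance] AFastae031ax6b.a0 AFastae031ax6b.a1 AFastae031ax6b.a2 AFastae031ax6b.a3
  AFastae031ax6b.a4 AFastae031ax6b.a5 AFastae031ax6b.a6 AFastae031ax6b.a7

section

section

open Topology Set Filter Complex
open scoped ContDiff Manifold Matrix ComplexConjugate

namespace Vale.Agent.P278.Full.T

variable {E : Type*} [NormedAddCommGroup E] [NormedSpace ℂ E]
  {X : Type*} [TopologicalSpace X] [ChartedSpace E X]
  {E' : Type*} [NormedAddCommGroup E'] [NormedSpace ℂ E']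
  {E'' : Type*} [NormedAddCommGroup E''] [NormedSpace ℂ E'']

/-- Pull back of a flat Hermitian metric by a linear isomorphism. -/
lemma FlatKahler.pullback {H₁ : E' → E' →ₗ⋆[ℂ] E' →ₗ[ℂ] ℂ} {H₂ : E → E →ₗ⋆[ℂ] E →ₗ[ℂ] ℂ}
    {Ω₁ : Set E'} {Ω₂ : Set E} (hK : FlatKahler H₂ Ω₂) (L : E' ≃L[ℂ] E) (hΩ₁ : IsOpen Ω₁)
    (hΩ : ∀ p ∈ Ω₁, L p ∈ Ω₂) (heq : ∀ p ∈ Ω₁, ∀ u v, H₁ p u v = H₂ (L p) (L u) (L v)) :
    FlatKahler H₁ Ω₁ where
  isOpen := hΩ₁
  symm := fun p hp u v => by rw [heq p hp, heq p hp]; exact hK.symm _ (hΩ p hp) _ _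
  pos := fun p hp u hu => by
    rw [heq p hp]; exact hK.pos _ (hΩ p hp) _ (by simpa using hu)
  smooth := fun u v => by
    have h1 : ContDiffOn ℝ 1 (fun p => H₂ (L p) (L u) (L v)) Ω₁ :=
      (hK.smooth (L u) (L v)).comp ((L.contDiff.restrict_scalars ℝ).contDiffOn) hΩ
    exact h1.congr fun p hp => heq p hp u v

/-- Pull back of the exterior derivative by a linear isomorphism. -/
lemma dForm_pullback {W₁ : E' → E' → E' → ℝ} {W₂ : E → E → E → ℝ} (L : E' ≃L[ℂ] E) {p : E'}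
    (heq : ∀ᶠ q in 𝓝 p, ∀ u v, W₁ q u v = W₂ (L q) (L u) (L v))
    (hd : ∀ u v, DifferentiableAt ℝ (fun q => W₂ q u v) (L p)) (u v w : E') :
    dForm W₁ p u v w = dForm W₂ (L p) (L u) (L v) (L w) := by
  have h1 : ∀ u v x, fderiv ℝ (fun q => W₁ q u v) p x =
      fderiv ℝ (fun q => W₂ q (L u) (L v)) (L p) (L x) := by
    intro u v x
    have e : (fun q => W₁ q u v) =ᶠ[𝓝 p] (fun q => W₂ q (L u) (L v)) ∘ L :=
      heq.mono fun q hq => hq u v
    rw [e.fderiv_eq, ((hd _ _).hasFDerivAt.comp p (L.hasFDerivAt.restrictScalars ℝ)).fderiv]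
    rfl
  unfold dForm
  rw [h1, h1, h1]

end Vale.Agent.P278.Full.T
end
end

section

section

/-! F-maps in charts, continuation along discs, Theorem C in the form `CrossExt`. -/

open Set Topology Filter Metric MeasureTheory
open scoped ContDiff Manifold ComplexConjugate ENNReal

set_option linter.all false

namespace Vale.Agent.P278.Full.T

variable {X : Type*} [TopologicalSpace X] {A B : Type*} [NormedAddCommGroup A] [NormedSpace ℂ A]
  [NormedAddCommGroup B] [NormedSpace ℂ B]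
  {𝒬 : Set (OpenPartialHomeomorph X (A × B))} {Ψ Ψ' : ℂ × ℂ → X} {p : ℂ × ℂ}

theorem KAtlas.pAtlas {H : OpenPartialHomeomorph X (A × B) → A × B → (A × B) →ₗ⋆[ℂ] (A × B) →ₗ[ℂ] ℂ}
    (K : KAtlas 𝒬 H) : PAtlas 𝒬 := ⟨K.cover, K.ana, K.trans, K.trans'⟩

section
variable [CompleteSpace A] [CompleteSpace B]

/-- The abstract class does not depend on the metric. -/
theorem crossExt_of_ellExt [T2Space X]
    {H : OpenPartialHomeomorph X (A × B) → A × B → (A × B) →ₗ⋆[ℂ] (A × B) →ₗ[ℂ] ℂ}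
    (K : KAtlas 𝒬 H) (hE : (fclass K).EllExt) : CrossExt 𝒬 :=
  crossExtP K.pAtlas hE

end

section box
variable {M : Type*} [TopologicalSpace M] {𝒜 : Set (OpenPartialHomeomorph M (A × B))}

variable [CompleteSpace A] [CompleteSpace B]

end box

end Vale.Agent.P278.Full.T
end
end

section

section

open Set Topology Filter Metric MeasureTheory
open scoped ContDiff Manifold ComplexConjugate ENNReal Real

set_option linter.all false

namespace Vale.Agent.P278.Full.T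

variable {X : Type*} [TopologicalSpace X] {A B : Type*} [NormedAddCommGroup A] [NormedSpace ℂ A]
  [NormedAddCommGroup B] [NormedSpace ℂ B] {𝒬 : Set (OpenPartialHomeomorph X (A × B))}
  {H : OpenPartialHomeomorph X (A × B) → A × B → (A × B) →ₗ⋆[ℂ] (A × B) →ₗ[ℂ] ℂ}
  [FiniteDimensional ℂ A] [FiniteDimensional ℂ B]

/-- continuity of the energy density of the slices -/
theorem _root_.Vale.Agent.P278.Full.IsF.slice_eden_continuousAtT (K : KAtlas 𝒬 H) {Θ : ℂ × ℂ → X} {q w : ℂ}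
    (h : IsF 𝒬 Θ (q, w)) :
    ContinuousAt (fun w' => eden 𝒬 H (fun z => Θ (z, w')) q) w := by
  haveI := FiniteDimensional.complete ℂ A
  haveI := FiniteDimensional.complete ℂ B
  have hev := h.eventually
  obtain ⟨φ, hφ, f, g, hf, hg, he⟩ := h
  have hc : ContinuousAt (fun w' : ℂ => (q, w')) w := by fun_prop
  have hval : ∀ᶠ w' in 𝓝 w, eden 𝒬 H (fun z => Θ (z, w')) q =
      (H φ (f q, g w') (deriv f q, 0) (deriv f q, 0)).re := by
    have hff : ∀ᶠ w' in 𝓝 w, IsF 𝒬 Θ (q, w') := hc.eventually hev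
    have he2 : ∀ᶠ w' in 𝓝 w, ∀ᶠ q' in 𝓝 (q, w'), Θ q' ∈ φ.source ∧
        φ (Θ q') = (f q'.1, g q'.2) := hc.eventually he.eventually_nhds
    filter_upwards [hff, he2] with w' h1 h2
    have h3 : ContinuousAt (fun y : ℂ => (y, w')) q := by fun_prop
    have h4 := h3.eventually h2
    have h5 := h4.self_of_nhds
    rw [eden_eq K h1.slice hφ h5.1]
    have h6 : deriv (fun y => φ (Θ (y, w'))) q = (deriv f q, 0) := by
      have h7 : (fun y => φ (Θ (y, w'))) =ᶠ[𝓝 q] fun y => (f y, g w') :=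
        h4.mono fun y hy => hy.2
      rw [h7.deriv_eq]
      exact (hf.differentiableAt.hasDerivAt.prodMk (hasDerivAt_const q (g w'))).deriv
    rw [h6, h5.2]
  refine ContinuousAt.congr ?_ (hval.mono fun y hy => hy.symm)
  have h5 := (continuousOn_form (K.kahler φ hφ)).continuousAt
    (x := ((f q, g w), (deriv f q, (0 : B)), (deriv f q, (0 : B))))
    (prod_mem_nhds (φ.open_target.mem_nhds (by
      have := he.self_of_nhds
      have h6 := φ.map_source this.1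
      rwa [this.2] at h6)) univ_mem)
  have h7 : ContinuousAt (fun w' => ((f q, g w'), (deriv f q, (0 : B)), (deriv f q, (0 : B)))) w :=
    (continuousAt_const.prodMk hg.continuousAt).prodMk continuousAt_const
  exact Complex.continuous_re.continuousAt.comp
    (ContinuousAt.comp (g := fun q : (A × B) × (A × B) × (A × B) => H φ q.1 q.2.1 q.2.2)
      (f := fun w' => ((f q, g w'), (deriv f q, (0 : B)), (deriv f q, (0 : B)))) (x := w) h5 h7)

/-- spreading of the agreement around a good point -/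
theorem good_spread [T2Space X] (K : KAtlas 𝒬 H) {Ψ Θ : ℂ × ℂ → X} {z₀ q : ℂ} {ρ T : ℝ}
    (hT : 0 < T) (h1 : ∀ z ∈ closedBall z₀ ρ, ∀ t ∈ Ico 0 T, IsF 𝒬 Ψ (z, ((t : ℝ) : ℂ)))
    (hq : q ∈ ball z₀ ρ) (hΘ : IsF 𝒬 Θ (q, (T : ℂ)))
    (he : ∀ᶠ t in 𝓝[<] T, Θ =ᶠ[𝓝 (q, ((t : ℝ) : ℂ))] Ψ) :
    ∃ ε > 0, (∀ z ∈ ball q ε, IsF 𝒬 Θ (z, (T : ℂ))) ∧
      ∀ᶠ t in 𝓝[<] T, ∀ z ∈ ball q ε, Θ =ᶠ[𝓝 (z, ((t : ℝ) : ℂ))] Ψ := by
  haveI := FiniteDimensional.complete ℂ A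
  haveI := FiniteDimensional.complete ℂ B
  obtain ⟨ε, hε, hball⟩ := Metric.eventually_nhds_iff_ball.1 hΘ.eventually
  obtain ⟨ε', hε', hball'⟩ := Metric.isOpen_iff.1 isOpen_ball q hq
  have hF : ∀ z ∈ ball q ε, ∀ w ∈ ball (T : ℂ) ε, IsF 𝒬 Θ (z, w) := by
    intro z hz w hw
    exact hball (z, w) (by rw [← ball_prod_same]; exact ⟨hz, hw⟩)
  refine ⟨min ε ε', lt_min hε hε', fun z hz => hF z (ball_subset_ball (min_le_left _ _) hz) _
    (mem_ball_self hε), ?_⟩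
  have hIoo : Ioo (max 0 (T - ε)) T ∈ 𝓝[<] T := Ioo_mem_nhdsLT (max_lt hT (by linarith))
  filter_upwards [he, hIoo] with t ht htI
  have ht0 : 0 < t := lt_of_le_of_lt (le_max_left _ _) htI.1
  have htε : T - ε < t := lt_of_le_of_lt (le_max_right _ _) htI.1
  have htb : (t : ℂ) ∈ ball (T : ℂ) ε := by
    rw [mem_ball, dist_eq_norm, ← Complex.ofReal_sub, Complex.norm_real, Real.norm_eq_abs,
      abs_of_neg (by linarith only [htI.2])]
    linarith only [htε]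
  intro z hz
  refine FOn.eventuallyEqT K (S := ball q (min ε ε') ×ˢ {(t : ℂ)}) ?_ ?_
    ((convex_ball _ _).isPreconnected.prod isPreconnected_singleton)
    (p := (q, (t : ℂ))) ⟨mem_ball_self (lt_min hε hε'), rfl⟩ ht (z, (t : ℂ)) ⟨hz, rfl⟩
  · rintro ⟨a, b⟩ ⟨ha, hb⟩
    rw [mem_singleton_iff] at hb
    subst hb
    exact hF a (ball_subset_ball (min_le_left _ _) ha) _ htb
  · rintro ⟨a, b⟩ ⟨ha, hb⟩
    rw [mem_singleton_iff] at hb
    subst hb
    exact h1 a (ball_subset_closedBall (hball' (ball_subset_ball (min_le_right _ _) ha))) t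
      ⟨ht0.le, htI.2⟩

/-- **Part (C) of Lemma T**: an isolated point of the set of non-good points is good. -/
theorem good_of_punctured [T2Space X] (K : KAtlas 𝒬 H) {Ψ : ℂ × ℂ → X}
    {z₀ p : ℂ} {ρ T E₀ : ℝ} (hT : 0 < T)
    (h1 : ∀ z ∈ closedBall z₀ ρ, ∀ t ∈ Ico 0 T, IsF 𝒬 Ψ (z, ((t : ℝ) : ℂ)))
    (hE : ∀ t ∈ Ico 0 T, energy 𝒬 H (fun z => Ψ (z, ((t : ℝ) : ℂ))) (closedBall z₀ ρ) ≤
      ENNReal.ofReal E₀)
    (hp : p ∈ ball z₀ ρ) (hgood : ∀ᶠ q in 𝓝[≠] p, Good 𝒬 Ψ T q) : Good 𝒬 Ψ T p := by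
  classical
  haveI := FiniteDimensional.complete ℂ A
  haveI := FiniteDimensional.complete ℂ B
  obtain ⟨r₁, hr₁, hball₁⟩ := Metric.isOpen_iff.1 isOpen_ball p hp
  obtain ⟨r₂, hr₂, hball₂⟩ := Metric.eventually_nhds_iff_ball.1 (eventually_nhdsWithin_iff.1 hgood)
  set r : ℝ := min r₁ r₂ with hr
  have hr0 : 0 < r := lt_min hr₁ hr₂
  have hin : ∀ q ∈ ball p r, q ∈ ball z₀ ρ := fun q hq =>
    hball₁ (ball_subset_ball (min_le_left _ _) hq)
  have hg : ∀ q ∈ ball p r, q ≠ p → Good 𝒬 Ψ T q := fun q hq hqp =>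
    hball₂ q (ball_subset_ball (min_le_right _ _) hq) hqp
  haveI : Nonempty (ℂ × ℂ → X) := ⟨Ψ⟩
  choose! Θ hΘ hΘe using hg
  set k : ℂ → X := fun z => Θ z (z, (T : ℂ)) with hk
  -- local consistency
  have hloc : ∀ q ∈ ball p r, q ≠ p → k =ᶠ[𝓝 q] fun z => Θ q (z, (T : ℂ)) := by
    intro q hq hqp
    obtain ⟨ε, hε, hF, hev⟩ := good_spread K hT h1 (hin q hq) (hΘ q hq hqp) (hΘe q hq hqp)
    filter_upwards [ball_mem_nhds q hε, isOpen_ball.mem_nhds hq,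
      isOpen_compl_singleton.mem_nhds (show q ∈ ({p} : Set ℂ)ᶜ from hqp)] with z hz hzr hzp
    have t1 := tendsto_of_agree (hF z hz) (hev.mono fun t ht => ht z hz)
    have t2 := tendsto_of_agree (hΘ z hzr hzp) (hΘe z hzr hzp)
    exact tendsto_nhds_unique t2 t1
  have hkd : ∀ q ∈ ball p r, q ≠ p → IsDisc 𝒬 k q := fun q hq hqp =>
    (hΘ q hq hqp).slice.congr (hloc q hq hqp).symm
  -- convergence of the energy densities
  have hconv : ∀ q ∈ ball p r, q ≠ p → Tendsto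
      (fun t : ℝ => eden 𝒬 H (fun z => Ψ (z, (t : ℂ))) q) (𝓝[<] T) (𝓝 (eden 𝒬 H k q)) := by
    intro q hq hqp
    have e1 : eden 𝒬 H k q = eden 𝒬 H (fun z => Θ q (z, (T : ℂ))) q :=
      eden_congr K (hkd q hq hqp) (hloc q hq hqp)
    rw [e1]
    have h2 : Tendsto (fun t : ℝ => eden 𝒬 H (fun z => Θ q (z, (t : ℂ))) q) (𝓝[<] T)
        (𝓝 (eden 𝒬 H (fun z => Θ q (z, (T : ℂ))) q)) := by
      have h3 : Tendsto (fun t : ℝ => (t : ℂ)) (𝓝[<] T) (𝓝 (T : ℂ)) :=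
        (Complex.continuous_ofReal.tendsto T).mono_left nhdsWithin_le_nhds
      exact ((hΘ q hq hqp).slice_eden_continuousAtT K).tendsto.comp h3
    refine h2.congr' ?_
    have hIoo : Ioo 0 T ∈ 𝓝[<] T := Ioo_mem_nhdsLT hT
    filter_upwards [hΘe q hq hqp, hIoo] with t ht htI
    have hc : ContinuousAt (fun y : ℂ => (y, (t : ℂ))) q := by fun_prop
    have hd : IsDisc 𝒬 (fun z => Ψ (z, (t : ℂ))) q :=
      (h1 q (ball_subset_closedBall (hin q hq)) t ⟨htI.1.le, htI.2⟩).slice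
    exact (eden_congr K hd ((hc.eventually ht).mono fun y hy => hy.symm)).symm
  -- finite energy
  have henergy : energy 𝒬 H k (ball p r \ {p}) < ⊤ := by
    obtain ⟨t, -, htm, htt⟩ := exists_seq_strictMono_tendsto' hT
    have htT : Tendsto t atTop (𝓝[<] T) := tendsto_nhdsWithin_iff.2
      ⟨htt, Filter.Eventually.of_forall fun n => (htm n).2⟩
    have hmeas : MeasurableSet (ball p r \ {p}) := measurableSet_ball.diff (measurableSet_singleton p)
    have h2 : energy 𝒬 H k (ball p r \ {p}) = ∫⁻ z in ball p r \ {p},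
        liminf (fun n => ENNReal.ofReal (eden 𝒬 H (fun z => Ψ (z, ((t n : ℝ) : ℂ))) z)) atTop := by
      refine setLIntegral_congr_fun hmeas fun z hz => ?_
      have h3 := (hconv z hz.1 hz.2).comp htT
      exact ((ENNReal.tendsto_ofReal h3).liminf_eq).symm
    have h4 : ∫⁻ z in ball p r \ {p},
        liminf (fun n => ENNReal.ofReal (eden 𝒬 H (fun z => Ψ (z, ((t n : ℝ) : ℂ))) z)) atTop ≤
        liminf (fun n => ∫⁻ z in ball p r \ {p},
          ENNReal.ofReal (eden 𝒬 H (fun z => Ψ (z, ((t n : ℝ) : ℂ))) z)) atTop := by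
      refine lintegral_liminf_le' fun n => ?_
      refine AEMeasurable.ennreal_ofReal (ContinuousOn.aemeasurable (fun z hz => ?_) hmeas)
      exact (eden_continuousAt K ((h1 z (ball_subset_closedBall (hin z hz.1)) (t n)
        ⟨(htm n).1.le, (htm n).2⟩).slice)).continuousWithinAt
    have h5 : liminf (fun n => ∫⁻ z in ball p r \ {p},
          ENNReal.ofReal (eden 𝒬 H (fun z => Ψ (z, ((t n : ℝ) : ℂ))) z)) atTop ≤
        ENNReal.ofReal E₀ := by
      have h6 : (fun n => ∫⁻ z in ball p r \ {p},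
          ENNReal.ofReal (eden 𝒬 H (fun z => Ψ (z, ((t n : ℝ) : ℂ))) z)) ≤
          fun _ => ENNReal.ofReal E₀ := by
        intro n
        refine (energy_mono (𝒬 := 𝒬) (H := H) (fun z hz => ?_)).trans
          (hE (t n) ⟨(htm n).1.le, (htm n).2⟩)
        exact ball_subset_closedBall (hin z hz.1)
      exact (liminf_le_liminf (Filter.Eventually.of_forall h6)).trans (by simp)
    rw [h2]
    exact lt_of_le_of_lt (h4.trans h5) ENNReal.ofReal_lt_top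
  obtain ⟨x₀, hx₀⟩ := removable K hr0 hkd henergy
  set k' : ℂ → X := Function.update k p x₀ with hk'
  have hk'ne : ∀ y, y ≠ p → k' y = k y := fun y hy => Function.update_of_ne hy _ _
  -- a chart at the limit point
  obtain ⟨φ, hφ, hs, ha⟩ := hx₀ p (mem_ball_self hr0)
  set F : ℂ → A × B := fun y => φ (k' y) with hF
  obtain ⟨η', hη', hballη⟩ := Metric.eventually_nhds_iff_ball.1 (hs.and ha.eventually_analyticAt)
  set η : ℝ := min η' r with hη
  have hη0 : 0 < η := lt_min hη' hr0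
  have hηs : ∀ y ∈ ball p η, k' y ∈ φ.source ∧ AnalyticAt ℂ F y := fun y hy =>
    hballη y (ball_subset_ball (min_le_left _ _) hy)
  have hηr : ∀ y ∈ ball p η, y ∈ ball p r := fun y hy => ball_subset_ball (min_le_right _ _) hy
  set z₁ : ℂ := p + (η / 2 : ℝ) with hz₁
  have hz₁b : z₁ ∈ ball p η := by
    rw [mem_ball, dist_eq_norm, hz₁, add_sub_cancel_left, Complex.norm_real, Real.norm_eq_abs,
      abs_of_pos (by (clear * - hη' hr₁ hr₂; positivity))]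
    linarith only [hη0]
  have hz₁p : z₁ ≠ p := by
    intro h
    rw [hz₁] at h
    have h2 : ((η / 2 : ℝ) : ℂ) = 0 := by simpa only [Complex.ofReal_div, Complex.ofReal_ofNat, div_eq_zero_iff, Complex.ofReal_eq_zero,     OfNat.ofNat_ne_zero, or_false, add_eq_left] using h
    rw [Complex.ofReal_eq_zero] at h2
    linarith only [hη0, h2]
  have hz₁r := hηr z₁ hz₁b
  -- the F-map at `z₁` in the chart
  have hΘ₁ := hΘ z₁ hz₁r hz₁p
  have hval : Θ z₁ (z₁, (T : ℂ)) = k' z₁ := (hk'ne z₁ hz₁p).symm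
  obtain ⟨f₁, g₁, hf₁, hg₁, he₁⟩ := hΘ₁.chart_prod K.pAtlas hφ
    (by rw [hval]; exact (hηs z₁ hz₁b).1)
  have hcz : ContinuousAt (fun y : ℂ => (y, (T : ℂ))) z₁ := by fun_prop
  have hFz : ∀ᶠ y in 𝓝 z₁, F y = (f₁ y, g₁ T) := by
    have e2 := hcz.eventually he₁
    filter_upwards [e2, hloc z₁ hz₁r hz₁p,
      isOpen_compl_singleton.mem_nhds (show z₁ ∈ ({p} : Set ℂ)ᶜ from hz₁p)] with y hy hy2 hy3
    show φ (k' y) = _
    rw [hk'ne y hy3, hy2]
    exact hy.2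
  -- the second coordinate is constant
  have hF2 : ∀ y ∈ ball p η, (F y).2 = g₁ T := by
    have an1 : AnalyticOnNhd ℂ (fun y => (F y).2) (ball p η) := fun y hy =>
      analyticAt_snd.comp' (hηs y hy).2
    have an2 : AnalyticOnNhd ℂ (fun _ : ℂ => g₁ T) (ball p η) := fun y _ => analyticAt_const
    exact an1.eqOn_of_preconnected_of_eventuallyEq an2 (convex_ball p η).isPreconnected hz₁b
      (hFz.mono fun y hy => by simp only; rw [hy])
  set Θ' : ℂ × ℂ → X := fun q => φ.symm ((F q.1).1, g₁ q.2) with hΘ'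
  have hFeq : ∀ y ∈ ball p η, ((F y).1, g₁ T) = F y := fun y hy => by
    rw [← hF2 y hy]
  have hΘ'F : ∀ y ∈ ball p η, IsF 𝒬 Θ' (y, (T : ℂ)) := by
    intro y hy
    refine isF_of_chart (f := fun z => (F z).1) (g := g₁) hφ ?_ hg₁ ?_
    · exact analyticAt_fst.comp' (hηs y hy).2
    · show ((F y).1, g₁ T) ∈ φ.target
      rw [hFeq y hy]
      exact φ.map_source (hηs y hy).1
  -- agreement near `(z₁, T)`
  have hagree : Θ' =ᶠ[𝓝 (z₁, (T : ℂ))] Θ z₁ := by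
    have hfst : Tendsto (fun q : ℂ × ℂ => q.1) (𝓝 (z₁, (T : ℂ))) (𝓝 z₁) :=
      continuous_fst.tendsto _
    have e3 : ∀ᶠ q : ℂ × ℂ in 𝓝 (z₁, (T : ℂ)), F q.1 = (f₁ q.1, g₁ T) :=
      hfst.eventually hFz
    filter_upwards [he₁, e3] with q h2 h3
    show φ.symm ((F q.1).1, g₁ q.2) = Θ z₁ q
    rw [h3, ← h2.2]
    exact φ.left_inv h2.1
  refine ⟨Θ', hΘ'F p (mem_ball_self hη0), ?_⟩
  have hseg : segment ℝ p z₁ ⊆ ball p η :=
    (convex_ball p η).segment_subset (mem_ball_self hη0) hz₁b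
  -- the tube
  have htube : ∀ᶠ w in 𝓝 (T : ℂ), ∀ y ∈ segment ℝ p z₁, IsF 𝒬 Θ' (y, w) := by
    have hcomp : IsCompact (segment ℝ p z₁) := by
      rw [segment_eq_image]
      exact isCompact_Icc.image (by fun_prop)
    refine hcomp.eventually_forall_of_forall_eventually fun y hy => ?_
    have h2 := (hΘ'F y (hseg hy)).eventually
    have h3 : Tendsto (fun q : ℂ × ℂ => (q.2, q.1)) (𝓝 ((T : ℂ), y)) (𝓝 (y, (T : ℂ))) :=
      (by fun_prop : Continuous fun q : ℂ × ℂ => (q.2, q.1)).tendsto _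
    exact h3.eventually h2
  have hofReal : Tendsto (fun t : ℝ => (t : ℂ)) (𝓝[<] T) (𝓝 (T : ℂ)) :=
    (Complex.continuous_ofReal.tendsto T).mono_left nhdsWithin_le_nhds
  have hag2 : ∀ᶠ t : ℝ in 𝓝[<] T, Θ' =ᶠ[𝓝 (z₁, ((t : ℝ) : ℂ))] Θ z₁ := by
    have hc2 : Tendsto (fun t : ℝ => (z₁, (t : ℂ))) (𝓝[<] T) (𝓝 (z₁, (T : ℂ))) :=
      tendsto_const_nhds.prodMk_nhds hofReal
    exact hc2.eventually hagree.eventually_nhds
  have hIoo : Ioo 0 T ∈ 𝓝[<] T := Ioo_mem_nhdsLT hT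
  filter_upwards [hofReal.eventually htube, hag2, hΘe z₁ hz₁r hz₁p, hIoo] with t a1 a2 a3 a4
  refine FOn.eventuallyEqT K (S := segment ℝ p z₁ ×ˢ {(t : ℂ)}) ?_ ?_
    ((convex_segment p z₁).isPreconnected.prod isPreconnected_singleton)
    (p := (z₁, (t : ℂ))) ⟨right_mem_segment ℝ p z₁, rfl⟩ (a2.trans a3) (p, (t : ℂ))
    ⟨left_mem_segment ℝ p z₁, rfl⟩
  · rintro ⟨a, b⟩ ⟨ha, hb⟩
    rw [mem_singleton_iff] at hb
    subst hb
    exact a1 a ha
  · rintro ⟨a, b⟩ ⟨ha, hb⟩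
    rw [mem_singleton_iff] at hb
    subst hb
    exact h1 a (ball_subset_closedBall (hin a (hηr a (hseg ha)))) t ⟨a4.1.le, a4.2⟩

end Vale.Agent.P278.Full.T
end
end

section

section

/-! Lemma T, step (B1): goodness is locally constant where the energy does not concentrate. -/

open Set Topology Filter Metric MeasureTheory
open scoped ContDiff Manifold ComplexConjugate ENNReal

set_option linter.all false

namespace Vale.Agent.P278.Full.T

variable {X : Type*} [TopologicalSpace X] {A B : Type*} [NormedAddCommGroup A] [NormedSpace ℂ A]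
  [NormedAddCommGroup B] [NormedSpace ℂ B]
  {𝒬 : Set (OpenPartialHomeomorph X (A × B))}
  {H : OpenPartialHomeomorph X (A × B) → A × B → (A × B) →ₗ⋆[ℂ] (A × B) →ₗ[ℂ] ℂ}

/-- **Step (B1)**. -/
theorem good_locConst [T2Space X] [FiniteDimensional ℂ A] [FiniteDimensional ℂ B]
    (K : KAtlas 𝒬 H) : ∃ ε₀ > 0, LocConstGood 𝒬 H ε₀ := by
  haveI := FiniteDimensional.complete ℂ A
  haveI := FiniteDimensional.complete ℂ B
  obtain ⟨δ, hδ, c, hc, C, hC, hbox⟩ := exists_uniform_box K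
  obtain ⟨ε₀, hε₀, CE, hCE, hE⟩ := eps_regularity K
  refine ⟨ε₀, hε₀, ?_⟩
  intro Ψ T p r hT hr hΨ hfr
  set Λ : ℝ := CE * ε₀ / (r / 2) ^ 2 with hΛ
  have hΛ0 : 0 < Λ := by (clear * - hCE hε₀ hr; positivity)
  set L : ℝ := Real.sqrt (Λ / c) with hL
  have hL0 : 0 ≤ L := Real.sqrt_nonneg _
  have hLsq : c * L ^ 2 = Λ := by
    rw [hL, Real.sq_sqrt (by (clear * - hCE hε₀ hr hc; positivity))]
    (clear * - hc hΛ0; field_simp)
  set η : ℝ := min (r / 4) (δ / (16 * (L + 1))) with hη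
  have hη0 : 0 < η := lt_min (by (clear * - hr; positivity)) (by (clear * - hδ hCE hε₀ hr hc; (clear * - hδ hCE hε₀ hr hc; positivity)))
  have hηr : η ≤ r / 4 := min_le_left _ _
  have hηδ : L * (2 * η) < δ / 4 := by
    have h1 : η ≤ δ / (16 * (L + 1)) := min_le_right _ _
    rw [le_div_iff₀ (by positivity)] at h1
    linarith only [hδ, hη0, h1]
  refine ⟨η, hη0, fun q hq q' hq' hgood => ?_⟩
  obtain ⟨Θ, hΘ, hΘe⟩ := hgood
  obtain ⟨φ, hφ, hx, hsub, hb⟩ := hbox (Θ (q, (T : ℂ)))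
  obtain ⟨a, g, ha, hg, hag⟩ := hΘ.chartT K hφ hx
  simp only at ha hg
  have hφx : φ (Θ (q, (T : ℂ))) = (a q, g T) := hag.self_of_nhds.2
  -- the time window
  have hgc : ∀ᶠ w in 𝓝 (T : ℂ), AnalyticAt ℂ g w ∧ ‖g w - g T‖ < δ / 4 := by
    refine hg.eventually_analyticAt.and ?_
    have h1 : ContinuousAt (fun w => ‖g w - g T‖) (T : ℂ) :=
      (hg.continuousAt.sub continuousAt_const).norm
    refine h1.eventually (f := fun w => ‖g w - g T‖) (p := fun y => y < δ / 4) ?_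
    simp only [sub_self, norm_zero]
    exact gt_mem_nhds (by positivity)
  obtain ⟨τ₁, hτ₁, hτ1⟩ := Metric.eventually_nhds_iff_ball.1 hag
  obtain ⟨τ₂, hτ₂, hτ2⟩ := Metric.eventually_nhds_iff_ball.1 hgc
  set τ : ℝ := min τ₁ τ₂ with hτ
  have hτ0 : 0 < τ := lt_min hτ₁ hτ₂
  have hw1 : ∀ z ∈ ball q τ, ∀ w ∈ ball (T : ℂ) τ,
      Θ (z, w) ∈ φ.source ∧ φ (Θ (z, w)) = (a z, g w) := by
    intro z hz w hw
    refine hτ1 (z, w) ?_
    rw [mem_ball, Prod.dist_eq]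
    exact max_lt (lt_of_lt_of_le hz (min_le_left _ _)) (lt_of_lt_of_le hw (min_le_left _ _))
  have hw2 : ∀ w ∈ ball (T : ℂ) τ, AnalyticAt ℂ g w ∧ ‖g w - g T‖ < δ / 4 := fun w hw =>
    hτ2 w (ball_subset_ball (min_le_right _ _) hw)
  have hwin : ∀ᶠ t : ℝ in 𝓝[<] T, t ∈ Ioo (max 0 (T - τ)) T :=
    Ioo_mem_nhdsLT (max_lt hT (by linarith only [hτ0]))
  obtain ⟨t, htE, htΘ, htw⟩ := (hfr.and_eventually (hΘe.and hwin)).exists
  have ht0 : 0 < t := (le_max_left _ _).trans_lt htw.1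
  have htτ : T - τ < t := (le_max_right _ _).trans_lt htw.1
  have htT : t < T := htw.2
  have hmemw : ∀ s ∈ Icc t T, ((s : ℝ) : ℂ) ∈ ball (T : ℂ) τ := by
    intro s hs
    rw [mem_ball, Complex.dist_eq, ← Complex.ofReal_sub, Complex.norm_real, Real.norm_eq_abs,
      abs_sub_comm, abs_of_nonneg (by linarith only [hs.2])]
    linarith only [htτ, hs.1]
  have htw' : (t : ℂ) ∈ ball (T : ℂ) τ := hmemw t ⟨le_rfl, htT.le⟩
  -- the disc `u` at time `t`
  set u : ℂ → X := fun z => Ψ (z, (t : ℂ)) with hu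
  have hF : ∀ z ∈ ball p r, IsF 𝒬 Ψ (z, (t : ℂ)) := fun z hz => hΨ z hz t ⟨ht0.le, htT⟩
  have hdisc : ∀ z ∈ ball p r, IsDisc 𝒬 u z := fun z hz => (hF z hz).horiz
  have heden : ∀ z ∈ ball p (r / 2), eden 𝒬 H u z ≤ c * L ^ 2 := by
    intro z hz
    have hsubz : ball z (r / 2) ⊆ ball p r := by
      intro y hy
      rw [mem_ball] at hy hz ⊢
      have := dist_triangle y z p
      linarith only [hz, hy, this]
    have hlt : energy 𝒬 H u (ball z (r / 2)) < ENNReal.ofReal ε₀ :=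
      (energy_mono hsubz).trans_lt htE
    have h1 := hE u z (r / 2) (by positivity) (fun y hy => hdisc y (hsubz hy)) hlt
    refine h1.trans ?_
    rw [hLsq, hΛ]
    have h2 : (energy 𝒬 H u (ball z (r / 2))).toReal ≤ ε₀ := by
      have := ENNReal.toReal_mono ENNReal.ofReal_ne_top hlt.le
      rwa [ENNReal.toReal_ofReal hε₀.le] at this
    (clear * - h2 hCE hr; gcongr)
  have hηsub : ball p η ⊆ ball p (r / 2) := ball_subset_ball (by linarith only [hη0, hηr])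
  have hηsub' : ball p η ⊆ ball p r := ball_subset_ball (by linarith only [hη0, hηr])
  have hΨΘ : Ψ (q, (t : ℂ)) = Θ (q, (t : ℂ)) := htΘ.self_of_nhds.symm
  have hqt := hw1 q (mem_ball_self hτ0) _ htw'
  have huq : u q ∈ φ.source := by
    show Ψ (q, (t : ℂ)) ∈ φ.source
    rw [hΨΘ]; exact hqt.1
  have huq2 : φ (u q) = (a q, g t) := by
    show φ (Ψ (q, (t : ℂ))) = _
    rw [hΨΘ]; exact hqt.2
  have hdq : dist (φ (u q)) (φ (Θ (q, (T : ℂ)))) < δ / 4 := by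
    rw [huq2, hφx, Prod.dist_eq, dist_self, max_eq_right dist_nonneg, dist_eq_norm]
    exact (hw2 _ htw').2
  have hconf : ∀ z ∈ ball p η, u z ∈ φ.source ∧
      dist (φ (u z)) (φ (Θ (q, (T : ℂ)))) < δ / 2 := by
    intro z hz
    have hseg : segment ℝ q z ⊆ ball p η := (convex_ball p η).segment_subset hq hz
    have hzq : ‖z - q‖ < 2 * η := by
      rw [← dist_eq_norm]
      have h1 := dist_triangle z p q
      rw [mem_ball] at hz hq
      rw [dist_comm p q] at h1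
      linarith only [hq, hz, h1]
    have hlt : L * ‖z - q‖ < δ / 4 :=
      (mul_le_mul_of_nonneg_left hzq.le hL0).trans_lt hηδ
    have := seg_confined K hφ hc hsub (fun p hp v => (hb p hp v).1) (u := u) (z₁ := q)
      (z₂ := z) (fun w hw => hdisc w (hηsub' (hseg hw))) (L := L) hL0
      (fun w hw => heden w (hηsub (hseg hw))) huq (by linarith only [hδ, hdq, hlt])
    refine ⟨this.1, ?_⟩
    have h2 := dist_triangle (φ (u z)) (φ (u q)) (φ (Θ (q, (T : ℂ))))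
    have h3 := this.2
    linarith only [hdq, hlt, this, h2]
  -- product form near the points `(z, t)`
  have hprod : ∀ z ∈ ball p η, ∃ (F : ℂ → A) (G : ℂ → B), AnalyticAt ℂ F z ∧
      AnalyticAt ℂ G (t : ℂ) ∧ ∀ᶠ y in 𝓝 (z, (t : ℂ)), Ψ y ∈ φ.source ∧
        φ (Ψ y) = (F y.1, G y.2) := by
    intro z hz
    exact (hF z (hηsub' hz)).chartT K hφ (hconf z hz).1
  set f : ℂ → A := fun z => (φ (Ψ (z, (t : ℂ)))).1 with hf
  have hcz : ∀ z : ℂ, Tendsto (fun y : ℂ => (y, (t : ℂ))) (𝓝 z) (𝓝 (z, (t : ℂ))) := fun z =>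
    (Continuous.prodMk_left (t : ℂ)).tendsto z
  have hfan : ∀ z ∈ ball p η, AnalyticAt ℂ f z := by
    intro z hz
    obtain ⟨F, G, hFa, hGa, he⟩ := hprod z hz
    refine hFa.congr ?_
    filter_upwards [(hcz z).eventually he] with y hy
    simp only [hf]
    rw [hy.2]
  have hsnd : ∀ z ∈ ball p η, (φ (Ψ (z, (t : ℂ)))).2 = g t := by
    intro z hz
    have h1 : (φ (Ψ (z, (t : ℂ)))).2 = (φ (Ψ (q, (t : ℂ)))).2 := by
      refine const_of_loc (f := fun z => (φ (Ψ (z, (t : ℂ)))).2)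
        (convex_ball p η).isPreconnected ?_ hz hq
      intro z' hz'
      obtain ⟨F, G, hFa, hGa, he⟩ := hprod z' hz'
      filter_upwards [(hcz z').eventually he] with y hy
      rw [hy.2, he.self_of_nhds.2]
    rw [h1]
    have := huq2
    simp only [hu] at this
    rw [this]
  -- the continuation
  set Θ' : ℂ × ℂ → X := fun y => φ.symm (f y.1, g y.2) with hΘ'
  have htarget : ∀ z ∈ ball p η, ∀ w ∈ ball (T : ℂ) τ, (f z, g w) ∈ φ.target := by
    intro z hz w hw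
    apply hsub
    rw [mem_closedBall, hφx, Prod.dist_eq]
    apply max_le
    · have h1 := (hconf z hz).2
      rw [hφx, Prod.dist_eq] at h1
      have h2 := (le_max_left _ _).trans_lt h1
      simp only at h2 ⊢
      exact (h2.trans (by linarith only [hδ])).le
    · simp only
      rw [dist_eq_norm]
      linarith only [hδ, (hw2 w hw).2]
  have hΘ'F : ∀ z ∈ ball p η, ∀ w ∈ ball (T : ℂ) τ, IsF 𝒬 Θ' (z, w) := by
    intro z hz w hw
    refine IsF.of_chart hφ (hfan z hz) (hw2 w hw).1 ?_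
    have h1 : ball p η ×ˢ ball (T : ℂ) τ ∈ 𝓝 (z, w) :=
      (isOpen_ball.prod isOpen_ball).mem_nhds ⟨hz, hw⟩
    filter_upwards [h1] with y hy
    exact htarget _ hy.1 _ hy.2
  -- agreement near `(q, t)`
  have hagree : Θ' =ᶠ[𝓝 (q, (t : ℂ))] Ψ := by
    have h1 : ball q τ ×ˢ ball (T : ℂ) τ ∈ 𝓝 (q, (t : ℂ)) :=
      (isOpen_ball.prod isOpen_ball).mem_nhds ⟨mem_ball_self hτ0, htw'⟩
    have h2 : ∀ᶠ z in 𝓝 q, Θ (z, (t : ℂ)) = Ψ (z, (t : ℂ)) := (hcz q).eventually htΘ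
    have h3 : ∀ᶠ y in 𝓝 (q, (t : ℂ)), Θ (y.1, (t : ℂ)) = Ψ (y.1, (t : ℂ)) :=
      (continuousAt_fst (p := (q, (t : ℂ)))).eventually
        (p := fun z => Θ (z, (t : ℂ)) = Ψ (z, (t : ℂ))) h2
    filter_upwards [h1, h3, htΘ] with y hy hy3 hyΘ
    have h4 := hw1 y.1 hy.1 y.2 hy.2
    have h5 := hw1 y.1 hy.1 _ htw'
    have h6 : f y.1 = a y.1 := by
      simp only [hf]
      rw [← hy3, h5.2]
    simp only [hΘ']
    rw [h6, ← h4.2, φ.left_inv h4.1]
    exact hyΘ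
  have hS : IsPreconnected (ball p η ×ˢ ((fun s : ℝ => (s : ℂ)) '' Ico t T)) :=
    (convex_ball p η).isPreconnected.prod
      (isPreconnected_Ico.image _ Complex.continuous_ofReal.continuousOn)
  have hFΨ : FOn 𝒬 Ψ (ball p η ×ˢ ((fun s : ℝ => (s : ℂ)) '' Ico t T)) := by
    rintro ⟨z, w⟩ ⟨hz, s, hs, rfl⟩
    exact hΨ z (hηsub' hz) s ⟨ht0.le.trans hs.1, hs.2⟩
  have hFΘ : FOn 𝒬 Θ' (ball p η ×ˢ ((fun s : ℝ => (s : ℂ)) '' Ico t T)) := by
    rintro ⟨z, w⟩ ⟨hz, s, hs, rfl⟩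
    exact hΘ'F z hz _ (hmemw s ⟨hs.1, hs.2.le⟩)
  have hall := FOn.eventuallyEqT K hFΘ hFΨ hS
    (show (q, (t : ℂ)) ∈ _ from ⟨hq, t, ⟨le_rfl, htT⟩, rfl⟩) hagree
  refine ⟨Θ', hΘ'F q' hq' _ (mem_ball_self hτ0), ?_⟩
  filter_upwards [Ico_mem_nhdsLT htT] with s hs
  exact hall _ ⟨hq', s, hs, rfl⟩

end Vale.Agent.P278.Full.T
end
end

section

section

/-! Lemma T, one step: every point is good. -/

open Set Topology Filter Metric MeasureTheory
open scoped ContDiff Manifold ComplexConjugate ENNReal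

set_option linter.all false

namespace Vale.Agent.P278.Full.T

variable {X : Type*} [TopologicalSpace X] {A B : Type*} [NormedAddCommGroup A] [NormedSpace ℂ A]
  [NormedAddCommGroup B] [NormedSpace ℂ B]
  {𝒬 : Set (OpenPartialHomeomorph X (A × B))}
  {H : OpenPartialHomeomorph X (A × B) → A × B → (A × B) →ₗ⋆[ℂ] (A × B) →ₗ[ℂ] ℂ}
  [FiniteDimensional ℂ A] [FiniteDimensional ℂ B]

/-- **The step of Lemma T** from (B1). -/
theorem good_of_locConst [T2Space X] (K : KAtlas 𝒬 H)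
    (hB1 : ∃ ε₀ > 0, LocConstGood 𝒬 H ε₀)
    (Ψ : ℂ × ℂ → X) (z₀ : ℂ) (ρ T : ℝ) (hρ : 0 < ρ) (hT : 0 < T)
    (h1 : ∀ z ∈ closedBall z₀ ρ, ∀ t ∈ Ico (0 : ℝ) T, IsF 𝒬 Ψ (z, (t : ℂ)))
    (h2 : ∀ z ∈ sphere z₀ ρ, IsF 𝒬 Ψ (z, (T : ℂ))) :
    ∀ p ∈ closedBall z₀ ρ, Good 𝒬 Ψ T p := by
  haveI : CompleteSpace A := FiniteDimensional.complete ℂ A
  haveI : CompleteSpace B := FiniteDimensional.complete ℂ B
  obtain ⟨ε₀, hε, hLoc⟩ := hB1
  obtain ⟨A₀, hA⟩ := exists_energy_bound_T K h1 h2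
  have hfin := finite_bad hε hLoc hρ hT h1 h2 hA
  intro p hp
  rcases (mem_closedBall.1 hp).lt_or_eq with h | h
  · refine good_of_punctured K hT h1 hA (mem_ball.2 h) ?_
    have hcl : ({q | q ∈ closedBall z₀ ρ ∧ ¬ Good 𝒬 Ψ T q} \ {p})ᶜ ∈ 𝓝 p :=
      (hfin.subset diff_subset).isClosed.isOpen_compl.mem_nhds (by simp only [mem_closedBall, mem_compl_iff, Set.mem_sdiff, mem_ofPred_eq, mem_singleton_iff, not_true_eq_false, and_false, not_false_eq_true])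
    have hb : ball z₀ ρ ∈ 𝓝 p := isOpen_ball.mem_nhds (mem_ball.2 h)
    filter_upwards [mem_nhdsWithin_of_mem_nhds hcl, mem_nhdsWithin_of_mem_nhds hb,
      self_mem_nhdsWithin] with q hq1 hq2 hq3
    by_contra hbad
    exact hq1 ⟨⟨ball_subset_closedBall hq2, hbad⟩, hq3⟩
  · exact (h2 p (mem_sphere.2 h)).good

end Vale.Agent.P278.Full.T
end
end

section

section

/-! Lemma T, one step, unconditional: every point is good. -/

open Set Topology Filter Metric MeasureTheory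
open scoped ContDiff Manifold ComplexConjugate ENNReal

set_option linter.all false

namespace Vale.Agent.P278.Full.T

variable {X : Type*} [TopologicalSpace X] {A B : Type*} [NormedAddCommGroup A] [NormedSpace ℂ A]
  [NormedAddCommGroup B] [NormedSpace ℂ B]
  {𝒬 : Set (OpenPartialHomeomorph X (A × B))}
  {H : OpenPartialHomeomorph X (A × B) → A × B → (A × B) →ₗ⋆[ℂ] (A × B) →ₗ[ℂ] ℂ}
  [FiniteDimensional ℂ A] [FiniteDimensional ℂ B]

/-- **The step of Lemma T.** -/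
theorem good_all [T2Space X] (K : KAtlas 𝒬 H)
    (Ψ : ℂ × ℂ → X) (z₀ : ℂ) (ρ T : ℝ) (hρ : 0 < ρ) (hT : 0 < T)
    (h1 : ∀ z ∈ closedBall z₀ ρ, ∀ t ∈ Ico (0 : ℝ) T, IsF 𝒬 Ψ (z, (t : ℂ)))
    (h2 : ∀ z ∈ sphere z₀ ρ, IsF 𝒬 Ψ (z, (T : ℂ))) :
    ∀ p ∈ closedBall z₀ ρ, Good 𝒬 Ψ T p :=
  good_of_locConst K (good_locConst K) Ψ z₀ ρ T hρ hT h1 h2

end Vale.Agent.P278.Full.T
end
end

section

section

open Set Topology Filter Metric
open scoped ContDiff Manifold ComplexConjugate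

set_option linter.all false

namespace Vale.Agent.P278.Full.T

variable {X : Type*} [TopologicalSpace X] {A B : Type*} [NormedAddCommGroup A] [NormedSpace ℂ A]
  [NormedAddCommGroup B] [NormedSpace ℂ B] {𝒬 : Set (OpenPartialHomeomorph X (A × B))}
  {H : OpenPartialHomeomorph X (A × B) → A × B → (A × B) →ₗ⋆[ℂ] (A × B) →ₗ[ℂ] ℂ}

theorem fderiv_sw (φ ψ : OpenPartialHomeomorph X (B × A)) (x : X) (w : B × A) :
    ContinuousLinearEquiv.prodComm ℂ B A (fderiv ℂ (fun p => ψ (φ.symm p)) (φ x) w) =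
      fderiv ℂ (fun p => sw ψ ((sw φ).symm p)) (sw φ x)
        (ContinuousLinearEquiv.prodComm ℂ B A w) := by
  have e2 : (fun p => sw ψ ((sw φ).symm p)) =
      (ContinuousLinearEquiv.prodComm ℂ B A) ∘ (((fun q => ψ (φ.symm q))) ∘
        (ContinuousLinearEquiv.prodComm ℂ A B)) := rfl
  rw [e2, ContinuousLinearEquiv.comp_fderiv, ContinuousLinearEquiv.comp_right_fderiv]
  rfl

/-- The swapped Kähler atlas. -/
theorem KAtlas.swap (K : KAtlas 𝒬 H) : KAtlas (swapAtlas 𝒬) (swapH H) where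
  cover x := by
    obtain ⟨φ, hφ, hx⟩ := K.cover x
    exact ⟨sw φ, sw_mem hφ, hx⟩
  ana := by
    rintro _ ⟨φ, hφ, rfl⟩ _ ⟨ψ, hψ, rfl⟩ x hx hx'
    have h1 := K.ana φ hφ ψ hψ x hx hx'
    have h2 : AnalyticAt ℂ (fun p : A × B => (p.2, p.1)) (ψ (φ.symm (φ x))) :=
      analyticAt_snd.prod analyticAt_fst
    have h3 : AnalyticAt ℂ (fun p : B × A => (p.2, p.1)) ((φ x).2, (φ x).1) :=
      analyticAt_snd.prod analyticAt_fst
    have h4 : AnalyticAt ℂ (fun p : B × A => ψ (φ.symm (p.2, p.1))) ((φ x).2, (φ x).1) :=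
      AnalyticAt.comp (g := fun p => ψ (φ.symm p)) (f := fun p : B × A => (p.2, p.1))
        (x := ((φ x).2, (φ x).1)) h1 h3
    exact AnalyticAt.comp (g := fun p : A × B => (p.2, p.1))
      (f := fun p : B × A => ψ (φ.symm (p.2, p.1))) (x := ((φ x).2, (φ x).1)) h2 h4
  trans := by
    rintro _ ⟨φ, hφ, rfl⟩ _ ⟨ψ, hψ, rfl⟩ x hx hx'
    exact K.trans' φ hφ ψ hψ x hx hx'
  trans' := by
    rintro _ ⟨φ, hφ, rfl⟩ _ ⟨ψ, hψ, rfl⟩ x hx hx'
    exact K.trans φ hφ ψ hψ x hx hx'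
  kahler := by
    intro ψ hψ
    have h1 := K.kahler _ (mem_swapAtlas.1 hψ)
    refine FlatKahler.pullback h1 (ContinuousLinearEquiv.prodComm ℂ B A) ψ.open_target ?_ ?_
    · intro p hp
      exact hp
    · intro p _ u v
      rfl
  compat := by
    intro φ hφ ψ hψ x hx hx' u v
    have h1 := K.compat _ (mem_swapAtlas.1 hφ) _ (mem_swapAtlas.1 hψ) x hx hx'
      (ContinuousLinearEquiv.prodComm ℂ B A u) (ContinuousLinearEquiv.prodComm ℂ B A v)
    rw [swapH_apply, swapH_apply]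
    rw [fderiv_sw, fderiv_sw]
    exact h1
  tame := by
    obtain ⟨W, hW⟩ := K.tame
    refine ⟨fun ψ p u v => W (sw ψ) (ContinuousLinearEquiv.prodComm ℂ B A p)
      (ContinuousLinearEquiv.prodComm ℂ B A u) (ContinuousLinearEquiv.prodComm ℂ B A v),
      ?_, ?_, ?_, ?_⟩
    · intro ψ hψ
      have h1 := hW.form _ (mem_swapAtlas.1 hψ)
      refine ⟨fun p u v w => ?_, fun p u v c => ?_, fun p u v => h1.alt _ _ _, fun u v => ?_,
        fun p hp u v => ?_⟩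
      · rw [map_add]; exact h1.add _ _ _ _
      · rw [map_smul]; exact h1.smul _ _ _ _
      · exact (h1.smooth _ _).comp
          (((ContinuousLinearEquiv.prodComm ℂ B A).contDiff.restrict_scalars ℝ).contDiffOn)
          fun p hp => hp
      · rw [map_smul, map_smul, swapH_apply]
        exact h1.re_eq _ hp _ _
    · intro φ hφ ψ hψ x hx hx' u v
      have h1 := hW.compat _ (mem_swapAtlas.1 hφ) _ (mem_swapAtlas.1 hψ) x hx hx'
        (ContinuousLinearEquiv.prodComm ℂ B A u) (ContinuousLinearEquiv.prodComm ℂ B A v)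
      rw [fderiv_sw, fderiv_sw]
      exact h1
    · intro ψ hψ p hp u v hu hv
      have h1 := hW.form _ (mem_swapAtlas.1 hψ)
      have h2 := hW.closed _ (mem_swapAtlas.1 hψ) (ContinuousLinearEquiv.prodComm ℂ B A p) hp
        (ContinuousLinearEquiv.prodComm ℂ B A v) (ContinuousLinearEquiv.prodComm ℂ B A u) hv hu
      have h3 := dForm_pullback (W₂ := W (sw ψ)) (ContinuousLinearEquiv.prodComm ℂ B A) (p := p)
        (W₁ := fun p u v => W (sw ψ) (ContinuousLinearEquiv.prodComm ℂ B A p)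
          (ContinuousLinearEquiv.prodComm ℂ B A u) (ContinuousLinearEquiv.prodComm ℂ B A v))
        (Eventually.of_forall fun q u v => rfl) fun u v =>
          ((h1.smooth u v).contDiffAt ((sw ψ).open_target.mem_nhds hp)).differentiableAt
            (by norm_num)
      rw [h3, h3, map_smul, map_smul]
      exact ⟨h2.2, h2.1⟩
    · obtain ⟨δ, hδ, c, hc, C, hC, h⟩ := hW.box
      refine ⟨δ, hδ, c, hc, C, hC, fun x => ?_⟩
      obtain ⟨φ, hφ, h1, h2, h3⟩ := h x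
      have hn : ∀ u : B × A, ‖ContinuousLinearEquiv.prodComm ℂ B A u‖ = ‖u‖ := fun u =>
        max_comm _ _
      have hm : ∀ p ∈ closedBall (sw φ x) δ,
          ContinuousLinearEquiv.prodComm ℂ B A p ∈ closedBall (φ x) δ := by
        intro p hp
        rw [mem_closedBall, Prod.dist_eq, max_comm] at hp
        exact hp
      refine ⟨sw φ, sw_mem hφ, h1, fun p hp => h2 (hm p hp), fun p hp => ⟨fun v => ?_,
        fun u v => ?_⟩⟩
      · rw [swapH_apply, sw_sw, ← hn v]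
        exact (h3 _ (hm p hp)).1 _
      · rw [sw_sw, ← hn u, ← hn v]
        exact (h3 _ (hm p hp)).2 _ _

end Vale.Agent.P278.Full.T
end
end

section

section

/-! Glue: the ellipsoid extension property for F-maps from Lemma T (for the atlas and for the
swapped atlas) and Lemma P. -/

open Set Topology Filter Metric MeasureTheory
open scoped ContDiff Manifold ComplexConjugate ENNReal

set_option linter.all false

namespace Vale.Agent.P278.Full.T

variable {X : Type*} [TopologicalSpace X] {A B : Type*} [NormedAddCommGroup A] [NormedSpace ℂ A]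
  [NormedAddCommGroup B] [NormedSpace ℂ B]
  {𝒬 : Set (OpenPartialHomeomorph X (A × B))}
  {H : OpenPartialHomeomorph X (A × B) → A × B → (A × B) →ₗ⋆[ℂ] (A × B) →ₗ[ℂ] ℂ}

variable [CompleteSpace A] [CompleteSpace B]

/-- The theory of F-maps. -/
def fth [T2Space X] (K : KAtlas 𝒬 H) (hT : LemmaT 𝒬) (hT' : LemmaT (swapAtlas 𝒬)) : FTh X where
  IsF := IsF 𝒬
  ev h := h.eventually
  congr h he := h.congr he
  ident := by
    rintro Ψ Ψ' U hU h h' ⟨p, hp, he⟩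
    exact FOn.eventuallyEqT K h h' hU hp he
  T := by
    intro Ψ0 Ψ1 z0 R w0 w1 hR h0 h1 h01
    exact T_two_of_one (IsF := IsF 𝒬) (fun h he => h.congr he)
      (fun Ψ a1 a2 => hT Ψ z0 R w0 w1 hR a1 a2) hR h0 h1 h01
  T' := by
    intro Ψ0 Ψ1 w0 R z0 z1 hR h0 h1 h01
    have key := T_two_of_one (IsF := IsF (swapAtlas 𝒬))
      (z0 := w0) (R := R) (w0 := z0) (w1 := z1)
      (fun h he => h.congr he)
      (fun Ψ a1 a2 => hT' Ψ w0 R z0 z1 hR a1 a2)
      (Ψ0 := fun q => Ψ0 (q.2, q.1)) (Ψ1 := fun q => Ψ1 (q.2, q.1)) hR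
      (fun w hw => isF_swap (h0 w hw))
      (fun w hw z hz => isF_swap (h1 w hw z hz))
      (fun w hw => eventuallyEq_swap (Ψ := fun q => Ψ0 (q.2, q.1)) (Ψ' := fun q => Ψ1 (q.2, q.1))
        (h01 w hw))
    obtain ⟨Ψ2, k1, k2⟩ := key
    refine ⟨fun q => Ψ2 (q.2, q.1), fun w hw z hz => ?_, fun w hw => ?_⟩
    · exact isF_of_swap (k1 w hw z hz)
    · exact eventuallyEq_swap (Ψ := fun q => Ψ2 (q.2, q.1)) (Ψ' := Ψ0) (k2 w hw)

/-- **TT for F-maps**: ellipsoid extension from Lemma T and Lemma P. -/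
theorem ellExt_of_T_P [T2Space X] [FiniteDimensional ℂ A] [FiniteDimensional ℂ B]
    (K : KAtlas 𝒬 H) (hT : LemmaT 𝒬) (hT' : LemmaT (swapAtlas 𝒬)) (hP : LemmaP 𝒬 H) :
    (fclass K).EllExt := by
  refine ellExt_of_annulus (fth K hT hT') (fclass K) (fun Ψ Ω => Iff.rfl)
    (fun Ψ a b a' b' p h => IsF.affine h) ?_
  intro Ψ hΨ
  obtain ⟨s, r, hs, hr, h1, h2, Ψ₁, h3, h4⟩ := tt2_of K hΨ (hP Ψ hΨ)
  exact ⟨s, r, hs, hr, h1, h2, Ψ₁, fun z hz w hw => h3 (z, w) ⟨hz, hw⟩, h4⟩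

/-- **Theorem C** (in the form `CrossExt`) from Lemma T and Lemma P. -/
theorem crossExt_of_T_P [T2Space X] [FiniteDimensional ℂ A]
    [FiniteDimensional ℂ B] (K : KAtlas 𝒬 H) (hT : LemmaT 𝒬) (hT' : LemmaT (swapAtlas 𝒬))
    (hP : LemmaP 𝒬 H) : CrossExt 𝒬 :=
  crossExt_of_ellExt K (ellExt_of_T_P K hT hT' hP)

end Vale.Agent.P278.Full.T
end
end

section

section

/-! Theorem C for F-maps in a compact Kähler atlas from Lemma T on unit parameter intervals. -/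

open Set Topology Filter Metric MeasureTheory
open scoped ContDiff Manifold ComplexConjugate ENNReal

set_option linter.all false

namespace Vale.Agent.P278.Full.T

variable {X : Type*} [TopologicalSpace X] {A B : Type*} [NormedAddCommGroup A] [NormedSpace ℂ A]
  [NormedAddCommGroup B] [NormedSpace ℂ B]
  {𝒬 : Set (OpenPartialHomeomorph X (A × B))}
  {H : OpenPartialHomeomorph X (A × B) → A × B → (A × B) →ₗ⋆[ℂ] (A × B) →ₗ[ℂ] ℂ}

variable [FiniteDimensional ℂ A] [FiniteDimensional ℂ B]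

theorem crossExt_of_TP [T2Space X] (K : KAtlas 𝒬 H)
    (hT : TOne 𝒬) (hT' : TOne (swapAtlas 𝒬))
    (hP : ∀ Ψ : ℂ × ℂ → X, FOn 𝒬 Ψ touchBall → ∃ s₁ > 0, ∃ A₀ : ℝ≥0∞, A₀ ≠ ⊤ ∧
      ∀ s : ℝ, 0 < s → s < s₁ → energy 𝒬 H (fun z => Ψ (z, z - s)) (ball 0 (√s / 2)) ≤ A₀) :
    CrossExt 𝒬 := by
  haveI : CompleteSpace A := FiniteDimensional.complete ℂ A
  haveI : CompleteSpace B := FiniteDimensional.complete ℂ B
  exact crossExt_of_T_P K hT.lemmaT hT'.lemmaT hP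

theorem crossExt_of_T [T2Space X] (K : KAtlas 𝒬 H)
    (hT : TOne 𝒬) (hT' : TOne (swapAtlas 𝒬)) : CrossExt 𝒬 :=
  crossExt_of_TP K hT hT' fun Ψ hΨ => exists_diag_energy_bound K hΨ

end Vale.Agent.P278.Full.T
end
end

section

section

/-! Lemma T: gluing and the sup argument. -/

open Set Topology Filter Metric MeasureTheory
open scoped ContDiff Manifold ComplexConjugate ENNReal

set_option linter.all false

namespace Vale.Agent.P278.Full.T

variable {X : Type*} [TopologicalSpace X] {A B : Type*} [NormedAddCommGroup A] [NormedSpace ℂ A]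
  [NormedAddCommGroup B] [NormedSpace ℂ B]
  {𝒬 : Set (OpenPartialHomeomorph X (A × B))}
  {H : OpenPartialHomeomorph X (A × B) → A × B → (A × B) →ₗ⋆[ℂ] (A × B) →ₗ[ℂ] ℂ}

section glue
variable [CompleteSpace A] [CompleteSpace B]

/-- A good point, uniformly. -/
lemma good_unif [T2Space X] (K : KAtlas 𝒬 H) {Ψ : ℂ × ℂ → X} {z₀ : ℂ} {R T : ℝ}
    (hT : 0 < T)
    (h1 : ∀ z ∈ closedBall z₀ R, ∀ t ∈ Ico (0 : ℝ) T, IsF 𝒬 Ψ (z, (t : ℂ)))
    {p : ℂ} (hp : p ∈ closedBall z₀ R) (hg : Good 𝒬 Ψ T p) :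
    ∃ ε > 0, ε < T ∧ ∃ Θ : ℂ × ℂ → X, (∀ z ∈ ball p ε, IsF 𝒬 Θ (z, (T : ℂ))) ∧
      ∀ z ∈ ball p ε, z ∈ closedBall z₀ R → ∀ t ∈ Ioo (T - ε) T, Θ =ᶠ[𝓝 (z, (t : ℂ))] Ψ := by
  obtain ⟨Θ, hΘ, he⟩ := hg
  obtain ⟨ε', hε', hball⟩ := Metric.eventually_nhds_iff_ball.1 hΘ.eventually
  set ε := min ε' (T / 2) with hεdef
  have hε : 0 < ε := lt_min hε' (by linarith only [hT])
  have hεT : ε < T := lt_of_le_of_lt (min_le_right _ _) (by linarith only [hT])
  have hF : ∀ z ∈ ball p ε, ∀ w ∈ ball (T : ℂ) ε, IsF 𝒬 Θ (z, w) := by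
    intro z hz w hw
    refine hball (z, w) ?_
    rw [← ball_prod_same]
    exact ⟨ball_subset_ball (min_le_left _ _) hz, ball_subset_ball (min_le_left _ _) hw⟩
  have htb : ∀ t ∈ Ioo (T - ε) T, (t : ℂ) ∈ ball (T : ℂ) ε := by
    intro t ht
    rw [mem_ball, dist_eq_norm, ← Complex.ofReal_sub, Complex.norm_real, Real.norm_eq_abs,
      abs_of_neg (by linarith only [ht.2])]
    linarith only [ht.1]
  refine ⟨ε, hε, hεT, Θ, fun z hz => hF z hz _ (mem_ball_self hε), ?_⟩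
  have hIoo : Ioo (T - ε) T ∈ 𝓝[<] T := Ioo_mem_nhdsLT (by linarith only [hε])
  obtain ⟨t₁, ht₁, ht₁I⟩ := (he.and hIoo).exists
  set S : Set (ℂ × ℂ) := (ball p ε ∩ closedBall z₀ R) ×ˢ ((fun t : ℝ => (t : ℂ)) '' Ioo (T - ε) T)
    with hS
  have hSc : IsPreconnected S :=
    ((((convex_ball _ _).inter (convex_closedBall _ _)).prod
      (convex_ofReal_image (convex_Ioo _ _)))).isPreconnected
  have h3 : FOn 𝒬 Θ S := by
    rintro ⟨z, w⟩ ⟨hz, t, ht, rfl⟩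
    exact hF z hz.1 _ (htb t ht)
  have h4 : FOn 𝒬 Ψ S := by
    rintro ⟨z, w⟩ ⟨hz, t, ht, rfl⟩
    exact h1 z hz.2 t ⟨by linarith only [hεT, ht.1], ht.2⟩
  intro z hz hzR t ht
  exact FOn.eventuallyEqT K h3 h4 hSc (p := (p, (t₁ : ℂ))) ⟨⟨mem_ball_self hε, hp⟩, t₁, ht₁I, rfl⟩
    ht₁ (z, (t : ℂ)) ⟨⟨hz, hzR⟩, t, ht, rfl⟩

/-- **Gluing at level `T`.** -/
theorem glue_good [T2Space X] (K : KAtlas 𝒬 H) {Ψ : ℂ × ℂ → X} {z₀ : ℂ} {R T : ℝ}
    (hT : 0 < T)
    (h1 : ∀ z ∈ closedBall z₀ R, ∀ t ∈ Ico (0 : ℝ) T, IsF 𝒬 Ψ (z, (t : ℂ)))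
    (hg : ∀ p ∈ closedBall z₀ R, Good 𝒬 Ψ T p) :
    ∃ Ψ' : ℂ × ℂ → X, (∀ z ∈ closedBall z₀ R, IsF 𝒬 Ψ' (z, (T : ℂ))) ∧
      ∀ z ∈ closedBall z₀ R, ∀ t ∈ Ico (0 : ℝ) T, Ψ' =ᶠ[𝓝 (z, (t : ℂ))] Ψ := by
  classical
  have hex : ∀ p : ℂ, ∃ ε : ℝ, 0 < ε ∧ ∃ Θ : ℂ × ℂ → X, p ∈ closedBall z₀ R → ε < T ∧
      (∀ z ∈ ball p ε, IsF 𝒬 Θ (z, (T : ℂ))) ∧
      ∀ z ∈ ball p ε, z ∈ closedBall z₀ R → ∀ t ∈ Ioo (T - ε) T, Θ =ᶠ[𝓝 (z, (t : ℂ))] Ψ := by
    intro p
    by_cases hp : p ∈ closedBall z₀ R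
    · obtain ⟨ε, hε, h2, Θ, h3, h4⟩ := good_unif K hT h1 hp (hg p hp)
      exact ⟨ε, hε, Θ, fun _ => ⟨h2, h3, h4⟩⟩
    · exact ⟨1, one_pos, Ψ, fun h => absurd h hp⟩
  choose ε hε Θ hΘ using hex
  obtain ⟨s, hs, hcov⟩ := (isCompact_closedBall z₀ R).elim_nhds_subcover
    (fun p => ball p (ε p / 2)) (fun p _ => ball_mem_nhds p (half_pos (hε p)))
  -- a common width
  obtain ⟨δ, hδ, hδs⟩ : ∃ δ > 0, ∀ p ∈ s, δ < ε p := by
    rcases s.eq_empty_or_nonempty with rfl | hne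
    · exact ⟨1, one_pos, by simp⟩
    · refine ⟨s.inf' hne (fun p => ε p / 2), ?_, fun p hp => ?_⟩
      · rw [gt_iff_lt, Finset.lt_inf'_iff]
        exact fun p _ => half_pos (hε p)
      · exact lt_of_le_of_lt (Finset.inf'_le _ hp) (half_lt_self (hε p))
  -- the choice
  let sel : ℂ → ℂ := fun z => if h : ∃ p ∈ s, z ∈ ball p (ε p / 2) then h.choose else 0
  have hsel : ∀ z, (∃ p ∈ s, z ∈ ball p (ε p / 2)) → sel z ∈ s ∧ z ∈ ball (sel z) (ε (sel z) / 2) := by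
    intro z h
    have : sel z = h.choose := dif_pos h
    rw [this]
    exact h.choose_spec
  have hev : ∀ z' ∈ closedBall z₀ R, ∀ᶠ z in 𝓝 z', sel z ∈ s ∧ z' ∈ ball (sel z) (ε (sel z)) := by
    intro z' hz'
    have ho : IsOpen (⋃ p ∈ s, ball p (ε p / 2)) := isOpen_biUnion fun p _ => isOpen_ball
    have h2 : ∀ᶠ z in 𝓝 z', ∀ p ∈ s, z' ∉ ball p (ε p) → z ∉ ball p (ε p / 2) := by
      refine (Filter.eventually_all_finset s).2 fun p _ => ?_
      by_cases hp : z' ∈ ball p (ε p)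
      · exact Eventually.of_forall fun z h => absurd hp h
      · have hcl : (closedBall p (ε p / 2))ᶜ ∈ 𝓝 z' := by
          refine isClosed_closedBall.isOpen_compl.mem_nhds fun h => hp ?_
          rw [mem_ball]
          exact lt_of_le_of_lt (mem_closedBall.1 h) (half_lt_self (hε p))
        filter_upwards [hcl] with z hz _ h
        exact hz (ball_subset_closedBall h)
    filter_upwards [ho.mem_nhds (hcov hz'), h2] with z hz hz2
    have hz3 : ∃ p ∈ s, z ∈ ball p (ε p / 2) := by simpa only [mem_ball, mem_iUnion, exists_prop] using hz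
    obtain ⟨h3, h4⟩ := hsel z hz3
    refine ⟨h3, ?_⟩
    by_contra h5
    exact hz2 _ h3 h5 h4
  let Ψ' : ℂ × ℂ → X := fun q => if q.2.re ≤ T - δ then Ψ q else Θ (sel q.1) q
  refine ⟨Ψ', fun z hz => ?_, fun z hz t ht => ?_⟩
  · obtain ⟨h2, h3⟩ := (hev z hz).self_of_nhds
    have hF : IsF 𝒬 (Θ (sel z)) (z, (T : ℂ)) := (hΘ (sel z) (hs _ h2)).2.1 z h3
    refine hF.congr ?_
    -- all the candidates agree near `(z, T)`
    have hag : ∀ p ∈ s, z ∈ ball p (ε p) → Θ (sel z) =ᶠ[𝓝 (z, (T : ℂ))] Θ p := by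
      intro p hp hzp
      refine hF.eventuallyEq_of_frequentlyT K ((hΘ p (hs p hp)).2.1 z hzp) ?_
      refine (tendsto_ofReal_left (z := z) (T := T)).frequently ?_
      refine Filter.Eventually.frequently ?_
      have h6 : Ioo (T - δ) T ∈ 𝓝[<] T := Ioo_mem_nhdsLT (by linarith only [hδ])
      filter_upwards [h6] with t ht
      have h7 := (hΘ p (hs p hp)).2.2 z hzp hz t ⟨by linarith only [ht.1, hδs p hp], ht.2⟩
      have h8 := (hΘ (sel z) (hs _ h2)).2.2 z h3 hz t ⟨by linarith only [ht.1, hδs _ h2], ht.2⟩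
      exact h8.trans h7.symm
    have hag' : ∀ᶠ q in 𝓝 (z, (T : ℂ)), ∀ p ∈ s, z ∈ ball p (ε p) → Θ (sel z) q = Θ p q := by
      refine (Filter.eventually_all_finset s).2 fun p hp => ?_
      by_cases hzp : z ∈ ball p (ε p)
      · exact (hag p hp hzp).mono fun q hq _ => hq
      · exact Eventually.of_forall fun q h => absurd h hzp
    have hre : ∀ᶠ q : ℂ × ℂ in 𝓝 (z, (T : ℂ)), T - δ < q.2.re := by
      have hc : Continuous fun q : ℂ × ℂ => q.2.re := by fun_prop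
      exact hc.continuousAt.eventually (Ioi_mem_nhds (by simpa using hδ))
    filter_upwards [hag', hre, continuousAt_fst.eventually (hev z hz)] with q h9 h10 h11
    show Θ (sel z) q = if q.2.re ≤ T - δ then Ψ q else Θ (sel q.1) q
    rw [if_neg (not_le.2 h10)]
    exact h9 _ h11.1 h11.2
  · by_cases hlt : t < T - δ
    · have hre : ∀ᶠ q : ℂ × ℂ in 𝓝 (z, (t : ℂ)), q.2.re < T - δ := by
        have hc : Continuous fun q : ℂ × ℂ => q.2.re := by fun_prop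
        exact hc.continuousAt.eventually (Iio_mem_nhds (by simpa using hlt))
      filter_upwards [hre] with q hq
      exact if_pos hq.le
    · have hag' : ∀ᶠ q in 𝓝 (z, (t : ℂ)), ∀ p ∈ s, z ∈ ball p (ε p) → Θ p q = Ψ q := by
        refine (Filter.eventually_all_finset s).2 fun p hp => ?_
        by_cases hzp : z ∈ ball p (ε p)
        · refine ((hΘ p (hs p hp)).2.2 z hzp hz t ⟨?_, ht.2⟩).mono fun q hq _ => hq
          linarith only [hlt, hδs p hp]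
        · exact Eventually.of_forall fun q h => absurd h hzp
      filter_upwards [hag', continuousAt_fst.eventually (hev z hz)] with q h9 h11
      show (if q.2.re ≤ T - δ then Ψ q else Θ (sel q.1) q) = Ψ q
      split_ifs
      · rfl
      · exact h9 _ h11.1 h11.2

/-- **Collar.** -/
theorem collar [T2Space X] (K : KAtlas 𝒬 H) {Ψ₀ Ψ : ℂ × ℂ → X} {z₀ : ℂ} {R T : ℝ}
    (hT : 0 < T) (hT1 : T ≤ 1)
    (h0 : ∀ z ∈ closedBall z₀ R, Ψ =ᶠ[𝓝 (z, 0)] Ψ₀)
    (h1 : ∀ z ∈ closedBall z₀ R, ∀ t ∈ Ico (0 : ℝ) T, IsF 𝒬 Ψ (z, (t : ℂ)))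
    (h2 : ∀ z ∈ sphere z₀ R, ∀ t ∈ Icc (0 : ℝ) 1, IsF 𝒬 Ψ₀ (z, (t : ℂ))) :
    ∃ Ψ' : ℂ × ℂ → X, (∀ z ∈ sphere z₀ R, IsF 𝒬 Ψ' (z, (T : ℂ))) ∧
      ∀ z ∈ closedBall z₀ R, ∀ t ∈ Ico (0 : ℝ) T, Ψ' =ᶠ[𝓝 (z, (t : ℂ))] Ψ := by
  classical
  have hO : IsOpen {q | IsF 𝒬 Ψ₀ q} := by
    rw [isOpen_iff_mem_nhds]
    intro p hp
    exact IsF.eventually hp
  have hco : Continuous fun t : ℝ => (t : ℂ) := Complex.continuous_ofReal
  obtain ⟨U, V, hU, hV, hsU, hIV, hUV⟩ := generalized_tube_lemma (isCompact_sphere z₀ R)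
    (isCompact_Icc.image hco) hO (show sphere z₀ R ×ˢ ((fun t : ℝ => (t : ℂ)) '' Icc (0 : ℝ) 1) ⊆
      {q | IsF 𝒬 Ψ₀ q} by
      rintro ⟨z, w⟩ ⟨hz, t, ht, rfl⟩
      exact h2 z hz t ht)
  obtain ⟨δ, hδ, hδU⟩ := (isCompact_sphere z₀ R).exists_thickening_subset_open hU hsU
  set W := thickening (δ / 2) (sphere z₀ R) with hW
  have hWo : IsOpen W := isOpen_thickening
  have hsW : sphere z₀ R ⊆ W := self_subset_thickening (half_pos hδ) _
  have hWU : closure W ⊆ U := (closure_thickening_subset_cthickening _ _).trans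
    ((cthickening_subset_thickening' hδ (half_lt_self hδ) _).trans hδU)
  have hF0 : ∀ z ∈ closure W, ∀ t ∈ Icc (0 : ℝ) 1, IsF 𝒬 Ψ₀ (z, (t : ℂ)) := fun z hz t ht =>
    hUV ⟨hWU hz, hIV ⟨t, ht, rfl⟩⟩
  let Ψ' : ℂ × ℂ → X := fun q => if q.1 ∈ W then Ψ₀ q else Ψ q
  refine ⟨Ψ', fun z hz => ?_, fun z hz t ht => ?_⟩
  · refine (h2 z hz T ⟨hT.le, hT1⟩).congr ?_
    filter_upwards [continuousAt_fst.eventually (hWo.mem_nhds (hsW hz))] with q hq
    exact (if_pos hq).symm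
  · by_cases hzW : z ∈ closure W
    · have key : Ψ =ᶠ[𝓝 (z, (t : ℂ))] Ψ₀ := by
        refine FOn.eventuallyEqT K (S := {z} ×ˢ ((fun t : ℝ => (t : ℂ)) '' Ico (0 : ℝ) T)) ?_ ?_
          (((convex_singleton z).prod (convex_ofReal_image (convex_Ico _ _))).isPreconnected)
          (p := (z, (0 : ℂ))) ⟨rfl, 0, ⟨le_rfl, hT⟩, by simp⟩ (h0 z hz) _ ⟨rfl, t, ht, rfl⟩
        · rintro ⟨z', w⟩ ⟨hz', t', ht', rfl⟩
          obtain rfl : z' = z := hz'
          exact h1 z' hz t' ht'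
        · rintro ⟨z', w⟩ ⟨hz', t', ht', rfl⟩
          obtain rfl : z' = z := hz'
          exact hF0 z' hzW t' ⟨ht'.1, ht'.2.le.trans hT1⟩
      filter_upwards [key] with q hq
      show (if q.1 ∈ W then Ψ₀ q else Ψ q) = Ψ q
      split_ifs
      · exact hq.symm
      · rfl
    · filter_upwards [continuousAt_fst.eventually (isClosed_closure.isOpen_compl.mem_nhds hzW)]
        with q hq
      exact if_neg fun h => hq (subset_closure h)

/-- Uniqueness. -/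
lemma _root_.Vale.Agent.P278.Full.TExt.uniqueT [T2Space X] (K : KAtlas 𝒬 H) {Ψ₀ Ψ Ψ' : ℂ × ℂ → X} {z₀ : ℂ} {R T T' t : ℝ}
    (h : TExt 𝒬 Ψ₀ z₀ R T Ψ) (h' : TExt 𝒬 Ψ₀ z₀ R T' Ψ') (ht0 : 0 ≤ t) (ht : t ≤ T) (ht' : t ≤ T')
    {z : ℂ} (hz : z ∈ closedBall z₀ R) : Ψ =ᶠ[𝓝 (z, (t : ℂ))] Ψ' := by
  refine FOn.eventuallyEqT K (S := {z} ×ˢ ((fun t : ℝ => (t : ℂ)) '' Icc (0 : ℝ) t)) ?_ ?_
    (((convex_singleton z).prod (convex_ofReal_image (convex_Icc _ _))).isPreconnected)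
    (p := (z, (0 : ℂ))) ⟨rfl, 0, ⟨le_rfl, ht0⟩, by simp⟩ ((h.2 z hz).trans (h'.2 z hz).symm) _
    ⟨rfl, t, ⟨ht0, le_rfl⟩, rfl⟩
  · rintro ⟨z', w⟩ ⟨hz', t', ht2, rfl⟩
    obtain rfl : z' = z := hz'
    exact h.1 z' hz t' ⟨ht2.1, ht2.2.trans ht⟩
  · rintro ⟨z', w⟩ ⟨hz', t', ht2, rfl⟩
    obtain rfl : z' = z := hz'
    exact h'.1 z' hz t' ⟨ht2.1, ht2.2.trans ht'⟩

/-- Gluing of the extensions up to the times `t < T`. -/
theorem glue_lim [T2Space X] (K : KAtlas 𝒬 H) {Ψ₀ : ℂ × ℂ → X} {z₀ : ℂ} {R T : ℝ} (hT : 0 < T)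
    (h : ∀ t < T, ∃ Ψ, TExt 𝒬 Ψ₀ z₀ R t Ψ) :
    ∃ Ψ : ℂ × ℂ → X, (∀ z ∈ closedBall z₀ R, ∀ t ∈ Ico (0 : ℝ) T, IsF 𝒬 Ψ (z, (t : ℂ))) ∧
      ∀ z ∈ closedBall z₀ R, Ψ =ᶠ[𝓝 (z, 0)] Ψ₀ := by
  classical
  obtain ⟨u, hu, huT, hlim⟩ := exists_seq_strictMono_tendsto T
  choose P hP using fun n => h (u n) (huT n)
  have hex : ∀ t < T, ∃ n, t < u n := fun t ht =>
    (hlim.eventually (Ioi_mem_nhds ht)).exists
  let Ψ : ℂ × ℂ → X := fun q => if hq : ∃ n, q.2.re < u n then P (Nat.find hq) q else Ψ₀ q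
  have key : ∀ z ∈ closedBall z₀ R, ∀ t ∈ Ico (0 : ℝ) T, ∃ m, t < u m ∧
      Ψ =ᶠ[𝓝 (z, (t : ℂ))] P m := by
    intro z hz t ht
    have hq := hex t ht.2
    set m := Nat.find hq with hm
    have htm : t < u m := Nat.find_spec hq
    refine ⟨m, htm, ?_⟩
    have hc : Continuous fun q : ℂ × ℂ => q.2.re := by fun_prop
    have h1 : ∀ᶠ q : ℂ × ℂ in 𝓝 (z, (t : ℂ)), q.2.re < u m :=
      hc.continuousAt.eventually (Iio_mem_nhds (by simpa using htm))
    have h2 : ∀ᶠ q : ℂ × ℂ in 𝓝 (z, (t : ℂ)), ∀ k ∈ Finset.range (m + 1), u k < t → u k < q.2.re := by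
      refine (Filter.eventually_all_finset _).2 fun k _ => ?_
      by_cases hk : u k < t
      · exact (hc.continuousAt.eventually (Ioi_mem_nhds (by simpa using hk))).mono fun q hq _ => hq
      · exact Eventually.of_forall fun q hq => absurd hq hk
    have h3 : ∀ᶠ q : ℂ × ℂ in 𝓝 (z, (t : ℂ)), ∀ k ∈ Finset.range (m + 1), t ≤ u k →
        P k q = P m q := by
      refine (Filter.eventually_all_finset _).2 fun k _ => ?_
      by_cases hk : t ≤ u k
      · exact ((hP k).uniqueT K (hP m) ht.1 hk htm.le hz).mono fun q hq _ => hq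
      · exact Eventually.of_forall fun q hq => absurd hq hk
    filter_upwards [h1, h2, h3] with q h4 h5 h6
    have hq' : ∃ n, q.2.re < u n := ⟨m, h4⟩
    have h7 : Nat.find hq' ≤ m := Nat.find_min' hq' h4
    have h8 : Nat.find hq' ∈ Finset.range (m + 1) := Finset.mem_range.2 (by omega)
    have h9 : t ≤ u (Nat.find hq') := by
      by_contra hlt
      exact absurd (h5 _ h8 (not_le.1 hlt)) (not_lt.2 (Nat.find_spec hq').le)
    show (if hq : ∃ n, q.2.re < u n then P (Nat.find hq) q else Ψ₀ q) = P m q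
    rw [dif_pos hq']
    exact h6 _ h8 h9
  refine ⟨Ψ, fun z hz t ht => ?_, fun z hz => ?_⟩
  · obtain ⟨m, hm, he⟩ := key z hz t ht
    exact ((hP m).1 z hz t ⟨ht.1, hm.le⟩).congr he.symm
  · obtain ⟨m, hm, he⟩ := key z hz 0 ⟨le_rfl, hT⟩
    rw [Complex.ofReal_zero] at he
    exact he.trans ((hP m).2 z hz)

end glue

/-- **Lemma T** for a compact Kähler atlas. -/
theorem tOne_of_kAtlas [T2Space X] [FiniteDimensional ℂ A]
    [FiniteDimensional ℂ B] (K : KAtlas 𝒬 H) : TOne 𝒬 := by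
  haveI : CompleteSpace A := FiniteDimensional.complete ℂ A
  haveI : CompleteSpace B := FiniteDimensional.complete ℂ B
  intro z₀ R Ψ₀ hR h0 h1
  set S : Set ℝ := {T | T ∈ Icc (0 : ℝ) 1 ∧ ∃ Ψ, TExt 𝒬 Ψ₀ z₀ R T Ψ} with hS
  have h0S : (0 : ℝ) ∈ S := by
    refine ⟨⟨le_rfl, zero_le_one⟩, Ψ₀, fun z hz t ht => ?_, fun z _ => EventuallyEq.rfl⟩
    obtain rfl : t = 0 := le_antisymm ht.2 ht.1
    simpa using h0 z hz
  have hbdd : BddAbove S := ⟨1, fun T hT => hT.1.2⟩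
  set T := sSup S with hTdef
  have hT0 : 0 ≤ T := le_csSup hbdd h0S
  have hT1 : T ≤ 1 := csSup_le ⟨0, h0S⟩ fun T hT => hT.1.2
  have hlt : ∀ t < T, ∃ Ψ, TExt 𝒬 Ψ₀ z₀ R t Ψ := by
    intro t ht
    obtain ⟨s, hs, hts⟩ := exists_lt_of_lt_csSup ⟨0, h0S⟩ ht
    obtain ⟨Ψ, hΨ⟩ := hs.2
    exact ⟨Ψ, fun z hz t' ht' => hΨ.1 z hz t' ⟨ht'.1, ht'.2.trans hts.le⟩, hΨ.2⟩
  have hTS : T ∈ S := by
    rcases hT0.eq_or_lt with hT00 | hTpos
    · rw [← hT00]; exact h0S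
    obtain ⟨Ψ, k1, k2⟩ := glue_lim K hTpos hlt
    obtain ⟨Ψ', k3, k4⟩ := collar K hTpos hT1 k2 k1 h1
    have k5 : ∀ z ∈ closedBall z₀ R, ∀ t ∈ Ico (0 : ℝ) T, IsF 𝒬 Ψ' (z, (t : ℂ)) :=
      fun z hz t ht => (k1 z hz t ht).congr (k4 z hz t ht).symm
    obtain ⟨Ψ'', k6, k7⟩ := glue_good K hTpos k5 (good_all K Ψ' z₀ R T hR hTpos k5 k3)
    refine ⟨⟨hT0, hT1⟩, Ψ'', fun z hz t ht => ?_, fun z hz => ?_⟩
    · rcases ht.2.eq_or_lt with rfl | hlt'
      · exact k6 z hz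
      · exact (k5 z hz t ⟨ht.1, hlt'⟩).congr (k7 z hz t ⟨ht.1, hlt'⟩).symm
    · have e1 := k7 z hz 0 ⟨le_rfl, hTpos⟩
      have e2 := k4 z hz 0 ⟨le_rfl, hTpos⟩
      rw [Complex.ofReal_zero] at e1 e2
      exact e1.trans (e2.trans (k2 z hz))
  have hT_eq : T = 1 := by
    by_contra hne
    have hTlt : T < 1 := lt_of_le_of_ne hT1 hne
    obtain ⟨_, Ψ, hΨ⟩ := hTS
    have hO : IsOpen {q | IsF 𝒬 Ψ q} := by
      rw [isOpen_iff_mem_nhds]
      intro p hp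
      exact IsF.eventually hp
    obtain ⟨U, V, hU, hV, hsU, hIV, hUV⟩ := generalized_tube_lemma (isCompact_closedBall z₀ R)
      (isCompact_Icc.image Complex.continuous_ofReal) hO
      (show closedBall z₀ R ×ˢ ((fun t : ℝ => (t : ℂ)) '' Icc (0 : ℝ) T) ⊆ {q | IsF 𝒬 Ψ q} by
        rintro ⟨z, w⟩ ⟨hz, t, ht, rfl⟩
        exact hΨ.1 z hz t ht)
    obtain ⟨δ, hδ, hδV⟩ := Metric.isOpen_iff.1 (hV.preimage Complex.continuous_ofReal) T
      (hIV ⟨T, ⟨hT0, le_rfl⟩, rfl⟩)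
    set T' := min 1 (T + δ / 2) with hT'
    have hTT' : T < T' := lt_min hTlt (by linarith only [hδ])
    have hT'S : T' ∈ S := by
      refine ⟨⟨hT0.trans hTT'.le, min_le_left _ _⟩, Ψ, fun z hz t ht => ?_, hΨ.2⟩
      rcases le_or_gt t T with h | h
      · exact hΨ.1 z hz t ⟨ht.1, h⟩
      · refine hUV ⟨hsU hz, hδV ?_⟩
        rw [mem_ball, Real.dist_eq, abs_of_pos (by linarith only [h])]
        have := ht.2.trans (min_le_right _ _)
        linarith only [h, this]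
    exact absurd (le_csSup hbdd hT'S) (not_le.2 hTT')
  rw [hT_eq] at hTS
  obtain ⟨_, Ψ, hΨ⟩ := hTS
  exact ⟨Ψ, hΨ.1, hΨ.2⟩

end Vale.Agent.P278.Full.T
end
end

section

section

open Set Topology Filter
open scoped ContDiff Manifold ComplexConjugate

namespace Vale.Agent.P278.Full.T

/-- **Theorem C** for a compact Kähler atlas. -/
theorem crossExt_of_kAtlas {X A B : Type*} [TopologicalSpace X] [T2Space X]
    [NormedAddCommGroup A] [NormedSpace ℂ A] [NormedAddCommGroup B] [NormedSpace ℂ B]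
    [FiniteDimensional ℂ A] [FiniteDimensional ℂ B] {𝒬 : Set (OpenPartialHomeomorph X (A × B))}
    {H : OpenPartialHomeomorph X (A × B) → A × B → (A × B) →ₗ⋆[ℂ] (A × B) →ₗ[ℂ] ℂ}
    (K : KAtlas 𝒬 H) : CrossExt 𝒬 :=
  crossExt_of_T K (tOne_of_kAtlas K) (tOne_of_kAtlas K.swap)

end Vale.Agent.P278.Full.T
end
end
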