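import Vale.Agent.N278T.Bridge

/-!
# P278: the splitting theorem for taming forms
-/

set_option linter.all false

open Set Topology Filter Complex
open scoped ContDiff Manifold

namespace Vale.Agent.N278T

open Vale.Agent.P278 Vale.Agent.P278.Full Vale.Agent.P278.H837 Vale.Agent.P278B7

universe u

variable {E : Type*} [NormedAddCommGroup E] [NormedSpace ℂ E]
  {X : Type*} [TopologicalSpace X] [ChartedSpace E X]

section alg
variable {V : Type*} [NormedAddCommGroup V] [NormedSpace ℂ V] (s : V [⋀^Fin 2]→L[ℝ] ℝ)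

lemma two_add (u v v' : V) : s ![u, v + v'] = s ![u, v] + s ![u, v'] := by
  have h := s.toAlternatingMap.map_update_add ![u, v] 1 v v'
  have e : ∀ a : V, Function.update ![u, v] 1 a = ![u, a] := fun a => by
    funext i; fin_cases i <;> rfl
  rw [e, e, e] at h
  exact h

lemma two_smul (u v : V) (c : ℝ) : s ![u, (c : ℂ) • v] = c * s ![u, v] := by
  have h := s.toAlternatingMap.map_update_smul ![u, v] 1 c v
  have e : ∀ a : V, Function.update ![u, v] 1 a = ![u, a] := fun a => by
    funext i; fin_cases i <;> rfl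
  rw [e, e] at h
  exact h

lemma two_alt (u v : V) : s ![u, v] = -s ![v, u] := by
  have h := s.toAlternatingMap.map_swap ![v, u] (i := 0) (j := 1) (by decide)
  have e : ![v, u] ∘ Equiv.swap (0 : Fin 2) 1 = ![u, v] := by
    funext i; fin_cases i <;> rfl
  rw [e] at h
  exact h

end alg

/-- The exterior derivative of a two-form, on three vectors. -/
lemma extDeriv_three {t : E → E [⋀^Fin 2]→L[ℝ] ℝ} {p : E} (h : DifferentiableAt ℝ t p)
    (u v w : E) : extDeriv t p ![u, v, w] = T.dForm (fun q a b => t q ![a, b]) p u v w := by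
  rw [extDeriv_apply h, Fin.sum_univ_three]
  have e0 : Fin.removeNth (0 : Fin 3) ![u, v, w] = ![v, w] := by
    funext i; fin_cases i <;> rfl
  have e1 : Fin.removeNth (1 : Fin 3) ![u, v, w] = ![u, w] := by
    funext i; fin_cases i <;> rfl
  have e2 : Fin.removeNth (2 : Fin 3) ![u, v, w] = ![u, v] := by
    funext i; fin_cases i <;> rfl
  have e3 : (fun q => t q ![u, w]) = fun q => -t q ![w, u] := funext fun q => two_alt _ _ _
  rw [e0, e1, e2, e3, fderiv_fun_neg, T.dForm]
  simp

lemma inChart_apply (s : TwoForm E X) (φ : OpenPartialHomeomorph X E) (p u v : E) :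
    inChart s φ p ![u, v] = T.locW E (fun x a b => s x ![a, b]) φ p u v := by
  refine congrArg (s (φ.symm p)) ?_
  funext i; fin_cases i <;> rfl

theorem rTame {s : TwoForm E X} {F G : StmtF.Dist E X} (h : Tames 1 s) (h₁ : DVanishes s F G)
    (h₂ : DVanishes s G F) (hc : Cocompact s F G) :
    T.RTame (E := E) (fun x a b => s x ![a, b]) F G where
  add x u v v' := two_add (V := E) (s x) u v v'
  smul x u v c := two_smul (V := E) (s x) u v c
  alt x u v := two_alt (V := E) (s x) u v
  pos := h.pos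
  smooth φ hφ u v := by
    simp only [← inChart_apply]
    exact (ContinuousAlternatingMap.apply ℝ E ℝ ![u, v]).contDiff.comp_contDiffOn (h.smooth φ hφ)
  closed φ hφ p hp u v hu hv := by
    have hd : DifferentiableAt ℝ (inChart s φ) p :=
      ((h.smooth φ hφ).contDiffAt (φ.open_target.mem_nhds hp)).differentiableAt (by norm_num)
    have e : T.locW E (fun x a b => s x ![a, b]) φ = fun q a b => inChart s φ q ![a, b] := by
      funext q a b; exact (inChart_apply s φ q a b).symm
    rw [e, ← extDeriv_three hd, ← extDeriv_three hd]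
    exact ⟨h₁ φ hφ p hp u v hu hv, h₂ φ hφ p hp v u hv hu⟩
  cocpt := hc

variable [FiniteDimensional ℂ E] [IsManifold 𝓘(ℂ, E) ω X]
  {M : Type u} [TopologicalSpace M] [ChartedSpace E M]

theorem isProductPair_tame [T2Space X] [ConnectedSpace X] [IsManifold 𝓘(ℂ, E) ω M]
    [SecondCountableTopology M] [SimplyConnectedSpace M]
    {π : M → X} (hπ : IsCoveringMap π) (hπl : IsLocalDiffeomorph 𝓘(ℂ, E) 𝓘(ℂ, E) ω π)
    {w : X → E → E → ℝ} {F₁ F₂ : TangentDist E X} (h : T.RTame w F₁ F₂)
    (h₁ : IsHolSubbundle F₁) (h₂ : IsHolSubbundle F₂) (i₁ : IsIntegrable F₁)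
    (i₂ : IsIntegrable F₂) (hc : ∀ x, IsCompl (F₁ x) (F₂ x)) :
    IsProductPair (pullDist π F₁) (pullDist π F₂) := by
  obtain ⟨x₀⟩ : Nonempty X := inferInstance
  have hP := isProdCharts_prodCharts (F₁ := F₁) (F₂ := F₂)
    (A := EuclideanSpace ℂ (Fin (Module.finrank ℂ (F₁ x₀))))
    (B := EuclideanSpace ℂ (Fin (Module.finrank ℂ (F₂ x₀)))) x₀ h₁ h₂ i₁ i₂ hc
    (by simp only [finrank_euclideanSpace, Fintype.card_fin])
    (by simp only [finrank_euclideanSpace, Fintype.card_fin])
  have hK := T.kAtlas_prodCharts (F₁ := F₁) (F₂ := F₂)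
    (A := EuclideanSpace ℂ (Fin (Module.finrank ℂ (F₁ x₀))))
    (B := EuclideanSpace ℂ (Fin (Module.finrank ℂ (F₂ x₀)))) h h₁ h₂ i₁ i₂ hc x₀
    (by simp only [finrank_euclideanSpace, Fintype.card_fin])
    (by simp only [finrank_euclideanSpace, Fintype.card_fin])
  exact isProductPair_of_crossExt hπ hπl hP (T.crossExt_of_kAtlas hK)

/-- **Splitting theorem for taming forms.** -/
theorem tamed [T2Space X] [ConnectedSpace X] [SecondCountableTopology X] {k : ℕ}
    {F : Fin k → StmtF.Dist E X} (hF : IsSplitting F)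
    (hs : ∀ i, ∃ s : TwoForm E X, Tames 1 s ∧ DVanishes s (F i) (⨆ j ≠ i, F j) ∧
      DVanishes s (⨆ j ≠ i, F j) (F i) ∧ Cocompact s (F i) (⨆ j ≠ i, F j))
    {π : M → X} (c : IsUnivCover π) (l : IsLift E π) : IsProduct π F := by
  have := c.simply
  have := l.mfd
  have hπ := c.cov
  have hπl := l.loc
  refine (compatible_of c.surj l.loc ?_).isProduct
  have hpc : PathConnectedSpace M := inferInstance
  have hsc : SecondCountableTopology M := secondCountable_of_isCoveringMap hπ
  have hc := hF.direct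
  have hi : ∀ I : Set (Fin k), Stmt.IsFoliation fun x => ⨆ i ∈ I, F i x :=
    isFoliation_sum hF.subbundle hF.integrable hc
  have htop : ∀ x, ⨆ i, pullDist π (F i) x = ⊤ := by
    intro x
    rw [← pullDist_iSup hπl F x]
    have h1 := (DirectSum.isInternal_submodule_iff_iSupIndep_and_iSup_eq_top _).mp (hc (π x))
    show (⨆ i, F i (π x)).comap _ = ⊤
    rw [h1.2, Submodule.comap_top]
  refine inducesProductF_of_pairs (G := fun i => pullDist π (F i)) htop fun i => ?_
  have e : (fun x => ⨆ j, ⨆ _ : j ≠ i, pullDist π (F j) x) =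
      pullDist π fun x => ⨆ j ≠ i, F j x := by
    funext x
    rw [pullDist_iSup hπl (fun j x => ⨆ _ : j ≠ i, F j x) x]
    congr 1
    funext j
    rw [pullDist_iSup hπl (fun _ : j ≠ i => F j) x]
  have e' : (⨆ j ≠ i, F j) = fun x => ⨆ j ≠ i, F j x := by
    funext x
    simp only [iSup_apply]
  obtain ⟨s, s1, s2, s3, s4⟩ := hs i
  rw [e'] at s2 s3 s4
  rw [e]
  exact isProductPair_tame hπ hπl (rTame s1 s2 s3 s4)
    (isHolSubbundle_of_foliation (foliation_single hi i))
    (isHolSubbundle_of_foliation (foliation_compl hi i))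
    (isIntegrable_of_foliation (foliation_single hi i))
    (isIntegrable_of_foliation (foliation_compl hi i)) (isCompl_of_isInternal hc i)

omit [FiniteDimensional ℂ E] [IsManifold 𝓘(ℂ, E) ω X] in
theorem cocompact_of_compact [CompactSpace X] (s : TwoForm E X) (F G : StmtF.Dist E X) :
    Cocompact s F G := by
  have e : ∀ (y : X) (u : TangentSpace 𝓘(ℂ, E) y),
      mfderiv 𝓘(ℂ, E) 𝓘(ℂ, E) (Diffeomorph.refl 𝓘(ℂ, E) X ω) y u = u := fun y u =>
    congrArg (fun L => L u) (mfderiv_id (I := 𝓘(ℂ, E)) (x := y))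
  have e' : ∀ F : StmtF.Dist E X, pull (Diffeomorph.refl 𝓘(ℂ, E) X ω) F = F := by
    intro F
    funext y
    ext u
    show mfderiv 𝓘(ℂ, E) 𝓘(ℂ, E) (Diffeomorph.refl 𝓘(ℂ, E) X ω) y u ∈ F y ↔ _
    rw [e]
    exact Iff.rfl
  refine ⟨univ, isCompact_univ, fun x => ⟨Diffeomorph.refl _ _ _, mem_univ _, e' F, e' G,
    fun y u v => ?_⟩⟩
  rw [e, e]
  rfl

/-- **Beauville's conjecture**, as a special case. -/
theorem kahler [T2Space X] [ConnectedSpace X] [CompactSpace X] {s : TwoForm E X}
    (h : IsKahlerForm s) {k : ℕ} {F : Fin k → StmtF.Dist E X} (hF : IsSplitting F)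
    {π : M → X} (c : IsUnivCover π) (l : IsLift E π) : IsProduct π F := by
  have _ : ProperSpace E := FiniteDimensional.proper ℂ E
  have _ : SecondCountableTopology X := ChartedSpace.secondCountable_of_sigmaCompact E X
  have hd : ∀ F G : StmtF.Dist E X, DVanishes s F G := fun F G φ hφ p hp u v _ _ => by
    rw [h.closed φ hφ p hp]; rfl
  exact tamed hF (fun i => ⟨s, ⟨fun φ hφ => (h.tames.smooth φ hφ).of_le (by norm_cast),
    h.tames.pos⟩, hd _ _, hd _ _, cocompact_of_compact _ _ _⟩) c l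

theorem exists_cover_lift (E : Type) [NormedAddCommGroup E] [NormedSpace ℂ E] (X : Type)
    [TopologicalSpace X] [T2Space X] [ConnectedSpace X] [ChartedSpace E X]
    [IsManifold 𝓘(ℂ, E) ω X] :
    ∃ (M : Type) (_ : TopologicalSpace M) (_ : ChartedSpace E M) (π : M → X),
      IsUnivCover π ∧ IsLift E π := by
  obtain ⟨M, t, π, h⟩ := exists_cover E X
  obtain ⟨c, l⟩ := exists_lift (E := E) h
  exact ⟨M, t, c, π, h, l⟩

end Vale.Agent.N278T
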